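import Vale.Agent.P232.Full.Lower

/-!
# P232: the answer, given the strict calibrations of type B
-/

namespace Vale.Agent.P232

open MeasureTheory Set

noncomputable section

/-- The profile, the existence of minimisers, and all minimisers, given `StrictB`. -/
theorem answer_of (hB : StrictB) :
    (∀ V ∈ Ioo (0 : ℝ) 1, isoProfile V = ENNReal.ofReal (ballTubeSlab V)) ∧
    (∀ V ∈ Ioo (0 : ℝ) 1, ∃ E : Set (Fin 3 → ℝ), HasVolume E V ∧ perimeter E = isoProfile V) ∧
    (∀ V ∈ Ioo (0 : ℝ) 1, ∀ E : Set (Fin 3 → ℝ), HasVolume E V →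
      (perimeter E = isoProfile V ↔ ∃ (I : Finset (Fin 3)) (r : ℝ) (a : Fin 3 → ℝ),
        IsModel (min V (1 - V)) I r ∧
          ((∀ᵐ x, x ∈ E ↔ x - a ∈ model I r) ∨ ∀ᵐ x, x ∈ E ↔ x - a ∉ model I r))) := by
  refine ⟨fun V hV => profile_eq_of hB hV, fun V hV => ?_, fun V hV E hE => minimiser_iff_of hB hV hE⟩
  obtain ⟨E, hE, hp⟩ := exists_competitor hV
  exact ⟨E, hE, le_antisymm (hp.trans_eq (profile_eq_of hB hV).symm) (iInf₂_le E hE)⟩

end

end Vale.Agent.P232
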