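import Vale.Agent.P232.Full.Planar

/-!
# P232: slices of a symmetric decreasing set and the two types of axes

A band of the slices orthogonal to one axis is a band of the slices orthogonal to another axis, hence
some axis is of type A or of type B.
-/

namespace Vale.Agent.P232

open MeasureTheory Set Function Real

noncomputable section

variable {E : Set (Fin 3 → ℝ)} {i : Fin 3}

theorem measurableSet_sliceSet (hE : MeasurableSet E) (i : Fin 3) (z : ℝ) :
    MeasurableSet (sliceSet E i z) :=
  ((splice_preserving i).measurable.comp measurable_prodMk_left) hE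

theorem sliceSet_indicator (E : Set (Fin 3 → ℝ)) (i : Fin 3) (z : ℝ) :
    ((sliceSet E i z).indicator fun _ => (1 : ℝ)) = slice (E.indicator fun _ => 1) i z :=
  funext fun y => by
    by_cases h : splice i z y ∈ E
    · rw [slice, indicator_of_mem h, indicator_of_mem (show y ∈ sliceSet E i z from h)]
    · rw [slice, indicator_of_notMem h, indicator_of_notMem (show y ∉ sliceSet E i z from h)]

theorem symmDecr_sliceSet (hs : SymmDecr (E.indicator fun _ => (1 : ℝ))) (i : Fin 3) (z : ℝ) :
    SymmDecr ((sliceSet E i z).indicator fun _ => (1 : ℝ)) :=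
  sliceSet_indicator E i z ▸ hs.slice z

/-- A slice of finite variation is a planar set. -/
theorem planarSet_slice (hE : MeasurableSet E) (hp : Periodic fun x => x ∈ E)
    (hs : SymmDecr (E.indicator fun _ => (1 : ℝ))) {z l : ℝ}
    (h : TVLE (slice (E.indicator fun _ => (1 : ℝ)) i z) l) : PlanarSet (sliceSet E i z) l :=
  ⟨measurableSet_sliceSet hE i z, fun k y => by
      show (splice i z (y + Pi.single k 1) ∈ E) = (splice i z y ∈ E)
      rw [splice_add_single]
      exact hp _ _, symmDecr_sliceSet hs i z,
    by rwa [sliceSet_indicator]⟩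

theorem sliceArea_eq (E : Set (Fin 3 → ℝ)) (i : Fin 3) (z : ℝ) :
    sliceArea E i z = ∫ y in cube 2, slice (E.indicator fun _ => (1 : ℝ)) i z y := by
  rw [sliceArea, area, sliceSet_indicator]

theorem sliceArea_mem (hE : MeasurableSet E) (i : Fin 3) (z : ℝ) :
    sliceArea E i z ∈ Icc (0 : ℝ) 1 :=
  area_mem (measurableSet_sliceSet hE i z)

theorem measurable_sliceArea (hE : MeasurableSet E) (i : Fin 3) : Measurable (sliceArea E i) := by
  rw [funext (sliceArea_eq E i)]
  exact (StronglyMeasurable.integral_prod_right (f := fun z y => slice (E.indicator fun _ => (1 : ℝ)) i z y)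
    ((measurable_const.indicator hE).comp (splice_preserving i).measurable).stronglyMeasurable).measurable

theorem sliceArea_periodic (hp : Periodic fun x => x ∈ E) (i : Fin 3) (z : ℝ) :
    sliceArea E i (z + 1) = sliceArea E i z := by
  have e : sliceSet E i (z + 1) = sliceSet E i z := Set.ext fun y => by
    have e1 : splice i (z + 1) y = splice i z y + Pi.single i 1 := funext fun j => by
      refine i.succAboveCases ?_ (fun k => ?_) j
      · simp [splice_same]
      · simp [splice_above, Fin.succAbove_ne i k]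
    show splice i (z + 1) y ∈ E ↔ splice i z y ∈ E
    rw [e1]
    exact iff_of_eq (hp i (splice i z y))
  rw [sliceArea, e, sliceArea]

theorem integral_sliceArea (hE : MeasurableSet E) (i : Fin 3) :
    ∫ z in period, sliceArea E i z = (volume (cube 3 ∩ E)).toReal := by
  have h := (integral_cube_succ (integrableOn_cube (f := E.indicator fun _ => (1 : ℝ))
    (measurable_const.indicator hE) (C := 1) fun x => by
    by_cases hx : x ∈ E <;> simp [hx]) i).1
  rw [setIntegral_indicator hE, setIntegral_const, smul_eq_mul, mul_one, measureReal_def] at h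
  rw [funext (sliceArea_eq E i)]
  exact h.symm

/-- The slices decrease away from height zero. -/
theorem sliceSet_antitone (hs : SymmDecr (E.indicator fun _ => (1 : ℝ))) (i : Fin 3) {x y : ℝ}
    (hxy : |x| ≤ |y|) (hy : |y| ≤ 1 / 2) : sliceSet E i y ⊆ sliceSet E i x := fun p hp => by
  have h := hs (splice i x p) i y (by rw [splice_same]; exact cos_two_pi_le hxy hy)
  have e : update (splice i x p) i y = splice i y p := funext fun j => by
    refine i.succAboveCases ?_ (fun k => ?_) j
    · rw [update_self, splice_same]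
    · rw [update_of_ne (Fin.succAbove_ne i k), splice_above, splice_above]
  rw [e, indicator_of_mem (show splice i y p ∈ E from hp)] at h
  by_contra hx
  rw [indicator_of_notMem (show splice i x p ∉ E from hx)] at h
  linarith

theorem sliceArea_antitone (hE : MeasurableSet E) (hs : SymmDecr (E.indicator fun _ => (1 : ℝ)))
    (i : Fin 3) (x y : ℝ) (hxy : |x| ≤ |y|) (hy : |y| ≤ 1 / 2) :
    sliceArea E i y ≤ sliceArea E i x :=
  integral_mono_of_nonneg (.of_forall fun _ => indicator_nonneg (fun _ _ => zero_le_one) _)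
    (integrableOn_cube (measurable_const.indicator (measurableSet_sliceSet hE i x)) (C := 1)
      fun p => by by_cases hp : p ∈ sliceSet E i x <;> simp [hp])
    (.of_forall fun p =>
      indicator_le_indicator_of_subset (sliceSet_antitone hs i hxy hy) (fun _ => zero_le_one) p)

theorem lineLen_le_of_subset {S T : Set (Fin 2 → ℝ)} (hT : MeasurableSet T) (h : S ⊆ T) (k : Fin 2)
    (t : ℝ) : lineLen S k t ≤ lineLen T k t :=
  integral_mono_of_nonneg (.of_forall fun _ => indicator_nonneg (fun _ _ => zero_le_one) _)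
    (integrableOn_cube ((measurable_const.indicator hT).comp
      ((splice_preserving k).measurable.comp measurable_prodMk_left)) (C := 1) fun p => by
        by_cases hp : splice k t p ∈ T <;> simp [slice, hp])
    (.of_forall fun p => indicator_le_indicator_of_subset h (fun _ => zero_le_one) (splice k t p))

theorem trace_antitone (hE : MeasurableSet E) (hs : SymmDecr (E.indicator fun _ => (1 : ℝ)))
    (i : Fin 3) (k : Fin 2) (x y : ℝ) (hxy : |x| ≤ |y|) (hy : |y| ≤ 1 / 2) :
    trace (sliceSet E i y) k ≤ trace (sliceSet E i x) k := by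
  refine le_csInf (trace_nonempty _ k) ?_
  rintro _ ⟨t, ht, rfl⟩
  exact (trace_le_lineLen (abs_lt.2 ht)).trans
    (lineLen_le_of_subset (measurableSet_sliceSet hE i x) (sliceSet_antitone hs i hxy hy) k t)

/-- The three coordinates of a point of a line of a slice. -/
theorem eq_splice_splice (i : Fin 3) {k l : Fin 2} (hkl : k ≠ l) {x : Fin 3 → ℝ} {z w : ℝ}
    (hi : x i = z) (hl : x (i.succAbove l) = w) :
    x = splice i z (splice k (x (i.succAbove k)) fun _ => w) := funext fun j => by
  refine i.succAboveCases ?_ (fun n => ?_) j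
  · rw [splice_same, hi]
  · rw [splice_above]
    by_cases hn : n = k
    · subst hn; rw [splice_same]
    · obtain ⟨m, rfl⟩ := Fin.exists_succAbove_eq hn
      rw [splice_above]
      have : k.succAbove m = l := by
        fin_cases k <;> fin_cases l <;> fin_cases m <;> simp_all
      rw [this, hl]

/-- Inside a band every point belongs to the set. -/
theorem mem_of_trace (hE : MeasurableSet E) (hs : SymmDecr (E.indicator fun _ => (1 : ℝ))) (i : Fin 3)
    {k l : Fin 2} (hkl : k ≠ l) {z w : ℝ} (hw : 2 * |w| < trace (sliceSet E i z) k)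
    (x : Fin 3 → ℝ) (hi : x i = z) (hl : x (i.succAbove l) = w) (hk : |x (i.succAbove k)| < 1 / 2) :
    x ∈ E := by
  have hw' : |w| < 1 / 2 := by linarith [trace_le_one (sliceSet E i z) k]
  have h := (line_structure
    (((splice_preserving k).measurable.comp measurable_prodMk_left) (measurableSet_sliceSet hE i z))
    ((symmDecr_sliceSet hs i z).slice (i := k) (x (i.succAbove k))) w
    ⟨(abs_lt.1 hw').1, (abs_lt.1 hw').2.le⟩).2
  rw [eq_splice_splice i hkl hi hl]
  by_contra hx
  have h2 : lineLen (sliceSet E i z) k (x (i.succAbove k)) ≤ 2 * |w| := h hx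
  linarith [trace_le_lineLen (E := sliceSet E i z) (k := k) hk]

/-- A full beam gives a band. -/
theorem le_trace_of_forall (hE : MeasurableSet E) (hs : SymmDecr (E.indicator fun _ => (1 : ℝ)))
    (i : Fin 3) {k l : Fin 2} (hkl : k ≠ l) {z w : ℝ} (hw : |w| < 1 / 2)
    (h : ∀ x : Fin 3 → ℝ, x i = z → x (i.succAbove l) = w → |x (i.succAbove k)| < 1 / 2 → x ∈ E) :
    2 * |w| ≤ trace (sliceSet E i z) k := by
  refine le_csInf (trace_nonempty _ k) ?_
  rintro _ ⟨t, ht, rfl⟩
  refine (line_structure
    (((splice_preserving k).measurable.comp measurable_prodMk_left) (measurableSet_sliceSet hE i z))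
    ((symmDecr_sliceSet hs i z).slice (i := k) t) w ⟨(abs_lt.1 hw).1, (abs_lt.1 hw).2.le⟩).1 ?_
  show splice i z (splice k t fun _ => w) ∈ E
  refine h _ (splice_same ..) ?_ ?_
  · rw [splice_above, eq_succAbove hkl, splice_above]
  · rw [splice_above, splice_same]; exact abs_lt.2 ht

/-- Near height zero the slices of the axis `X` have a band along the axis `K`. -/
def BandNear (E : Set (Fin 3 → ℝ)) (X K : Fin 3) : Prop :=
  ∀ y : ℝ, |y| ≤ kappa → ∀ k : Fin 2, X.succAbove k = K → 0 < trace (sliceSet E X y) k

theorem bandNear_of_not_axisA (hE : MeasurableSet E)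
    (hs : SymmDecr (E.indicator fun _ => (1 : ℝ))) (h : ¬ AxisA E i) :
    ∃ J K : Fin 3, J ≠ i ∧ K ≠ i ∧ J ≠ K ∧ BandNear E J K ∧ (BandNear E i J → BandNear E i K) := by
  simp only [AxisA, not_forall, not_or, not_le, not_lt] at h
  obtain ⟨z, hz0, hz, k, l, hkl, hk, hl⟩ := h
  refine ⟨i.succAbove l, i.succAbove k, Fin.succAbove_ne i l, Fin.succAbove_ne i k,
    fun e => hkl (Fin.succAbove_right_injective e).symm, fun y hy k' hk' => ?_, fun hP y hy k' hk' => ?_⟩
  · obtain ⟨l', hl'⟩ := Fin.exists_succAbove_eq (Fin.succAbove_ne i l).symm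
    have hne : k' ≠ l' := fun e => Fin.succAbove_ne i k (by rw [← hk', e, hl'])
    refine lt_of_lt_of_le (by linarith) (le_trace_of_forall hE hs (i.succAbove l) hne hz
      fun x h1 h2 h3 => ?_)
    rw [hl'] at h2
    rw [hk'] at h3
    exact mem_of_trace hE hs i hkl (by linarith) x h2 h1 h3
  · obtain rfl := Fin.succAbove_right_injective hk'
    have hlt : kappa < |z| := by
      by_contra hle
      linarith [hP z (not_lt.1 hle) l rfl]
    have := trace_antitone hE hs i k' y z (hy.trans hlt.le) hz.le
    have hκ : (0 : ℝ) < kappa := by norm_num [kappa]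
    linarith

theorem axisB_of_bandNear {Y Z : Fin 3} (hY : Y ≠ i) (hZ : Z ≠ i) (hYZ : Y ≠ Z)
    (h1 : BandNear E i Y) (h2 : BandNear E i Z) : AxisB E i := fun z hz k => by
  have key : ∀ a b c d : Fin 3, b ≠ a → c ≠ a → b ≠ c → d ≠ a → d = b ∨ d = c := by decide
  rcases key i Y Z (i.succAbove k) hY hZ hYZ (Fin.succAbove_ne i k) with h | h
  · exact h1 z hz k h
  · exact h2 z hz k h

/-- Some axis is of type A or of type B. -/
theorem axis_cases (hE : MeasurableSet E) (hs : SymmDecr (E.indicator fun _ => (1 : ℝ))) :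
    (∃ i, AxisA E i) ∨ (∃ i, AxisB E i) := by
  by_contra hcon
  simp only [not_or, not_exists] at hcon
  obtain ⟨hA, hB⟩ := hcon
  have key : ∀ a b c d : Fin 3, b ≠ a → c ≠ a → b ≠ c → d ≠ a → d = b ∨ d = c := by decide
  obtain ⟨J, K, hJ0, hK0, hJK, hPJ, -⟩ := bandNear_of_not_axisA hE hs (hA 0)
  obtain ⟨J', K', hJ'J, hK'J, hJK', hP', hPP⟩ := bandNear_of_not_axisA hE hs (hA J)
  rcases key J 0 K J' hJ0.symm hJK.symm hK0.symm hJ'J with rfl | rfl
  · obtain ⟨J'', K'', hJ''K, hK''K, hJK'', hP'', -⟩ := bandNear_of_not_axisA hE hs (hA K)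
    rcases key J 0 K K' hJ0.symm hJK.symm hK0.symm hK'J with rfl | rfl
    · exact hJK' rfl
    rcases key K' 0 J J'' hK0.symm hJK hJ0.symm hJ''K with rfl | rfl
    · rcases key K' 0 J K'' hK0.symm hJK hJ0.symm hK''K with rfl | rfl
      · exact hJK'' rfl
      · exact hB 0 (axisB_of_bandNear hJ0 hK0 hJK hP'' hP')
    · rcases key K' 0 J'' K'' hK0.symm hJK hJ0.symm hK''K with rfl | rfl
      · exact hB _ (axisB_of_bandNear hJ0.symm hJK.symm hK0.symm hP'' hPJ)
      · exact hJK'' rfl
  · exact hB J (axisB_of_bandNear hJ'J hK'J hJK' hPJ (hPP hPJ))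

end

end Vale.Agent.P232
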