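import Vale.Agent.P232.Full.Defs

/-!
# P232: the one-dimensional core inequality

The slice inequality is tested with odd functions which tend to `s (A z)` and which are at least `s t`
at the height where `A` crosses the level `t`, also at the jumps of `A`.
-/

namespace Vale.Agent.P232

open MeasureTheory Set Function Filter Topology Real

noncomputable section

/-- A function antitone in `|z|` has a limit at the origin. -/
theorem exists_limit_zero {A : ℝ → ℝ} (hA01 : ∀ z, A z ∈ Icc (0 : ℝ) 1)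
    (hAmono : ∀ x y, |x| ≤ |y| → |y| ≤ 1 / 2 → A y ≤ A x) :
    ∃ b ∈ Icc (0 : ℝ) 1, Tendsto A (𝓝[≠] 0) (𝓝 b) ∧ ∀ z, z ≠ 0 → |z| ≤ 1 / 2 → A z ≤ b := by
  set S := A '' {z : ℝ | z ≠ 0 ∧ |z| ≤ 1 / 2}
  have hbd : BddAbove S := ⟨1, by rintro _ ⟨z, -, rfl⟩; exact (hA01 z).2⟩
  have hne : S.Nonempty := ⟨A (1 / 2), 1 / 2, ⟨by norm_num, by norm_num⟩, rfl⟩
  have hle : ∀ z, z ≠ 0 → |z| ≤ 1 / 2 → A z ≤ sSup S := fun z h1 h2 =>
    le_csSup hbd ⟨z, ⟨h1, h2⟩, rfl⟩
  refine ⟨sSup S, ⟨(hA01 (1 / 2)).1.trans (hle _ (by norm_num) (by norm_num)),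
    csSup_le hne (by rintro _ ⟨z, -, rfl⟩; exact (hA01 z).2)⟩, ?_, hle⟩
  refine tendsto_order.2 ⟨fun u hu => ?_, fun u hu => ?_⟩
  · obtain ⟨_, ⟨w, ⟨hw0, hw⟩, rfl⟩, huw⟩ := exists_lt_of_lt_csSup hne hu
    filter_upwards [nhdsWithin_le_nhds (Metric.closedBall_mem_nhds (0 : ℝ) (abs_pos.2 hw0))]
      with z hz
    rw [Metric.mem_closedBall, Real.dist_eq, sub_zero] at hz
    exact huw.trans_le (hAmono z w hz hw)
  · filter_upwards [self_mem_nhdsWithin,
      nhdsWithin_le_nhds (Metric.closedBall_mem_nhds (0 : ℝ) (by norm_num : (0 : ℝ) < 1 / 2))]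
      with z hz0 hz
    rw [Metric.mem_closedBall, Real.dist_eq, sub_zero] at hz
    exact (hle z hz0 hz).trans_lt hu

/-- The height at which `A` crosses the level `t`. -/
def crossing (A : ℝ → ℝ) (t : ℝ) : ℝ :=
  sSup (insert 0 {x ∈ Icc (0 : ℝ) (1 / 2) | t < A x})

variable {A : ℝ → ℝ}

theorem crossing_bdd (A : ℝ → ℝ) (t : ℝ) :
    BddAbove (insert 0 {x ∈ Icc (0 : ℝ) (1 / 2) | t < A x}) :=
  ⟨1 / 2, by rintro x (rfl | ⟨hx, -⟩); exacts [by norm_num, hx.2]⟩

theorem crossing_mem (A : ℝ → ℝ) (t : ℝ) : crossing A t ∈ Icc (0 : ℝ) (1 / 2) :=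
  ⟨le_csSup (crossing_bdd A t) (mem_insert _ _), csSup_le (insert_nonempty _ _)
    (by rintro x (rfl | ⟨hx, -⟩); exacts [by norm_num, hx.2])⟩

theorem crossing_antitone (A : ℝ → ℝ) : Antitone (crossing A) := fun t _ htu =>
  csSup_le_csSup (crossing_bdd A t) (insert_nonempty _ _)
    (insert_subset_insert fun _ hx => ⟨hx.1, htu.trans_lt hx.2⟩)

theorem le_crossing {t x : ℝ} (hx : x ∈ Icc (0 : ℝ) (1 / 2)) (h : t < A x) : x ≤ crossing A t :=
  le_csSup (crossing_bdd A t) (mem_insert_of_mem _ ⟨hx, h⟩)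

theorem lt_of_abs_lt_crossing (hA : ∀ x y, |x| ≤ |y| → |y| ≤ 1 / 2 → A y ≤ A x) {t x : ℝ}
    (h : |x| < crossing A t) : t < A x := by
  obtain ⟨y, hy, hxy⟩ := exists_lt_of_lt_csSup (insert_nonempty _ _) h
  rcases hy with rfl | ⟨hy, hty⟩
  · exact absurd hxy (abs_nonneg x).not_gt
  · refine hty.trans_le (hA x y ?_ ?_) <;> rw [abs_of_nonneg hy.1]
    exacts [hxy.le, hy.2]

/-- Layer cake for a function antitone in `|z|`. -/
theorem layer_cake (hAm : Measurable A) (hA : ∀ x y, |x| ≤ |y| → |y| ≤ 1 / 2 → A y ≤ A x)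
    {a b : ℝ} (hab : a ≤ b) (hAab : ∀ x, x ≠ 0 → |x| < 1 / 2 → A x ∈ Icc a b)
    {β : ℝ → ℝ} (hβ : ContDiff ℝ 1 β) :
    ∫ x in period, deriv β x * (A x - a)
      = ∫ t in a..b, (β (crossing A t) - β (-crossing A t)) := by
  set B := deriv β
  have hB : Continuous B := hβ.continuous_deriv le_rfl
  obtain ⟨M, hM⟩ := (isCompact_Icc (a := (-(1 / 2) : ℝ)) (b := 1 / 2)).exists_bound_of_continuousOn
    hB.continuousOn
  set G : ℝ → ℝ → ℝ := fun x t => {p : ℝ × ℝ | p.2 < A p.1}.indicator (fun p => B p.1) (x, t)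
  have hGm : Measurable (uncurry G) := (hB.measurable.comp measurable_fst).indicator
    (measurableSet_lt measurable_snd (hAm.comp measurable_fst))
  have hGi : Integrable (uncurry G) ((volume.restrict period).prod (volume.restrict (Ioc a b))) := by
    have : IsFiniteMeasure (volume.restrict (Ioc a b)) := ⟨by simp⟩
    refine Integrable.of_bound hGm.aestronglyMeasurable M ?_
    filter_upwards [Measure.quasiMeasurePreserving_fst.ae (ae_restrict_mem period_measurable)]
      with p hp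
    refine le_trans ?_ (hM p.1 ⟨hp.1.le, hp.2⟩)
    exact norm_indicator_le_norm_self (f := fun p : ℝ × ℝ => B p.1) _
  have hlhs : ∫ x in period, B x * (A x - a) = ∫ x in period, ∫ t in Ioc a b, G x t := by
    refine integral_congr_ae ?_
    filter_upwards [period_ae_interior, ae_restrict_of_ae (Measure.ae_ne volume (0 : ℝ))] with x hx hx0
    have hxI := hAab x hx0 hx
    have e : (fun t => G x t) = (Iio (A x)).indicator fun _ => B x := by
      funext t
      by_cases ht : t < A x <;> simp [G, ht]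
    rw [e, setIntegral_indicator measurableSet_Iio, setIntegral_const, smul_eq_mul, mul_comm]
    congr 1
    have e2 : Ioc a b ∩ Iio (A x) = Ioo a (A x) := by
      ext t
      exact ⟨fun h => ⟨h.1.1, h.2⟩, fun h => ⟨⟨h.1, (le_of_lt h.2).trans hxI.2⟩, h.2⟩⟩
    rw [e2, Real.volume_real_Ioo_of_le hxI.1]
  rw [hlhs, integral_integral_swap hGi, intervalIntegral.integral_of_le hab]
  refine integral_congr_ae (.of_forall fun t => ?_)
  set r := crossing A t
  obtain ⟨hr0, hr⟩ := crossing_mem A t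
  have hset : (period ∩ {x | t < A x} : Set ℝ) =ᵐ[volume] Ioc (-r) r := by
    rw [Filter.eventuallyEq_set]
    filter_upwards [Measure.ae_ne volume r, Measure.ae_ne volume (-r),
      Measure.ae_ne volume (-(1 / 2) : ℝ)] with x hxr hxr' hx'
    refine ⟨fun ⟨hp, hx⟩ => ?_, fun ⟨h1, h2⟩ => ?_⟩
    · have habs : |x| ≤ r := le_crossing ⟨abs_nonneg x, period_abs hp⟩
        (hx.trans_le (hA |x| x (by rw [abs_abs]) (period_abs hp)))
      exact ⟨lt_of_le_of_ne (abs_le.1 habs).1 (Ne.symm hxr'), (abs_le.1 habs).2⟩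
    · exact ⟨⟨by linarith, h2.trans hr⟩,
        lt_of_abs_lt_crossing hA (abs_lt.2 ⟨h1, lt_of_le_of_ne h2 hxr⟩)⟩
  have e : (fun x => G x t) = {x | t < A x}.indicator B := by
    funext x
    by_cases ht : t < A x <;> simp [G, ht]
  beta_reduce
  rw [e, setIntegral_indicator (measurableSet_lt measurable_const hAm), setIntegral_congr_set hset,
    ← intervalIntegral.integral_of_le (neg_le_self hr0), intervalIntegral.integral_deriv_eq_sub
    (fun x _ => (hβ.differentiable one_ne_zero) x) (hB.intervalIntegrable _ _)]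

/-- The calibration value at the level `t`. -/
def levelVal (s₁ s₂ : ℝ → ℝ) (a m b t : ℝ) : ℝ :=
  if a < t ∧ t < m then s₂ t else if m < t ∧ t < b then s₁ t else 0

/-- The tent of slope `n` with top `S t` over the point `r t`, summed up by a supremum over `t`. -/
def tents (S r : ℝ → ℝ) (n z : ℝ) : ℝ := ⨆ t : ℝ, max 0 (S t - n * |z - r t|)

theorem tents_bdd {S r : ℝ → ℝ} {n : ℝ} (hn : 0 ≤ n) (hS : ∀ t, S t ≤ 1) (z : ℝ) :
    BddAbove (range fun t : ℝ => max 0 (S t - n * |z - r t|)) :=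
  ⟨1, by rintro _ ⟨t, rfl⟩; exact max_le zero_le_one (by nlinarith [hS t, abs_nonneg (z - r t)])⟩

theorem tents_mem {S r : ℝ → ℝ} {n : ℝ} (hn : 0 ≤ n) (hS : ∀ t, S t ≤ 1) (z : ℝ) :
    tents S r n z ∈ Icc (0 : ℝ) 1 :=
  ⟨(le_max_left _ _).trans (le_ciSup (tents_bdd hn hS z) 0), ciSup_le fun t =>
    max_le zero_le_one (by nlinarith [hS t, abs_nonneg (z - r t)])⟩

theorem le_tents {S r : ℝ → ℝ} {n : ℝ} (hn : 0 ≤ n) (hS : ∀ t, S t ≤ 1) (t : ℝ) :
    S t ≤ tents S r n (r t) :=
  (by simp : S t ≤ max 0 (S t - n * |r t - r t|)).trans (le_ciSup (tents_bdd hn hS (r t)) t)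

theorem continuous_tents {S r : ℝ → ℝ} {n : ℝ} (hn : 0 ≤ n) (hS : ∀ t, S t ≤ 1) :
    Continuous (tents S r n) := by
  refine (LipschitzWith.of_le_add_mul n.toNNReal fun z w => ?_).continuous
  rw [Real.coe_toNNReal n hn, Real.dist_eq]
  refine ciSup_le fun t => max_le ?_ ?_
  · nlinarith [(tents_mem (r := r) hn hS w).1, abs_nonneg (z - w)]
  · have h1 : S t - n * |w - r t| ≤ tents S r n w :=
      (le_max_right _ _).trans (le_ciSup (tents_bdd hn hS w) t)
    have h2 := mul_le_mul_of_nonneg_left (abs_sub_le w z (r t)) hn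
    rw [abs_sub_comm w z, mul_add] at h2
    linarith

/-- The slice inequality tested with the polynomial approximations of the tents. -/
theorem core_step {L : ℝ → ℝ} {c a b : ℝ} {S : ℝ → ℝ}
    (hI : SliceIneq L A c) (hLi : IntegrableOn L period) (hAm : Measurable A)
    (hA01 : ∀ z, A z ∈ Icc (0 : ℝ) 1) (hA : ∀ x y, |x| ≤ |y| → |y| ≤ 1 / 2 → A y ≤ A x)
    (ha01 : a ∈ Icc (0 : ℝ) 1) (ha : EndLimit A a) (hab : a ≤ b)
    (hAab : ∀ x, x ≠ 0 → |x| < 1 / 2 → A x ∈ Icc a b) (hS : ∀ t, S t ≤ 1) (k : ℕ) :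
    ∃ β : ℝ → ℝ, Continuous β ∧
      (∫ x in period, √(1 - β x ^ 2) * L x)
        + (∫ t in a..b, (β (crossing A t) - β (-crossing A t))) ≤ c ∧
      (∀ x, |x| ≤ 1 / 2 → |β x| ≤ 1) ∧
      ∀ x, |x| ≤ 1 / 2 →
        |β x - (tents S (crossing A) (k + 1) x - tents S (crossing A) (k + 1) (-x))| ≤ 2 / (k + 1) := by
  set d : ℝ := 1 / (k + 1) with hd
  have hn : (0 : ℝ) ≤ k + 1 := by positivity
  have hd0 : 0 < d := by positivity
  set g := fun x => tents S (crossing A) (k + 1) x - tents S (crossing A) (k + 1) (-x)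
  have hg : Continuous g := (continuous_tents hn hS).sub ((continuous_tents hn hS).comp continuous_neg)
  have hg1 : ∀ x, |g x| ≤ 1 := fun x => by
    have h1 := tents_mem (r := crossing A) hn hS x
    have h2 := tents_mem (r := crossing A) hn hS (-x)
    exact abs_sub_le_iff.2 ⟨by linarith [h1.2, h2.1], by linarith [h1.1, h2.2]⟩
  obtain ⟨p, hp⟩ := exists_polynomial_near_of_continuousOn (-(1 / 2)) (1 / 2) g hg.continuousOn d hd0
  have hp1 : ∀ x, |x| ≤ 1 / 2 → |p.eval x| ≤ 1 + d := fun x hx => by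
    have h1 := (hp x (abs_le.1 hx)).le
    have h2 := abs_sub_abs_le_abs_sub (p.eval x) (g x)
    linarith [hg1 x]
  have hβ : ContDiff ℝ 1 fun x => p.eval x / (1 + d) := p.contDiff_aeval 1 |>.div_const _
  have hβ1 : ∀ x, |x| ≤ 1 / 2 → |p.eval x / (1 + d)| ≤ 1 := fun x hx => by
    rw [abs_div, abs_of_pos (show 0 < 1 + d by positivity), div_le_one (by positivity)]
    exact hp1 x hx
  refine ⟨fun x => p.eval x / (1 + d), hβ.continuous, ?_, hβ1, fun x hx => ?_⟩
  · have h := hI.endpoints hLi hAm hA01 ha01 ha hβ hβ1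
    rwa [layer_cake hAm hA hab hAab hβ] at h
  · have h1 : |p.eval x / (1 + d) - p.eval x| ≤ d := by
      have e : p.eval x / (1 + d) - p.eval x = -(p.eval x / (1 + d)) * d := by field_simp; ring
      rw [e, abs_mul, abs_neg, abs_of_pos hd0]
      exact mul_le_of_le_one_left hd0.le (hβ1 x hx)
    have h2 := (hp x (abs_le.1 hx)).le
    refine (abs_sub_le _ (p.eval x) _).trans ((add_le_add h1 h2).trans (le_of_eq ?_))
    rw [hd]; ring

/-- The continuity points of a monotone function, transported to both halves of the period. -/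
theorem ae_continuousAt_abs (hA : ∀ x y, |x| ≤ |y| → |y| ≤ 1 / 2 → A y ≤ A x) :
    ∀ᵐ x ∂volume.restrict period, x ≠ 0 ∧ |x| < 1 / 2 ∧ ContinuousAt A |x| := by
  set C : ℝ → ℝ := fun w => A (min (max w 0) (1 / 2))
  have hC : Antitone C := fun v w hvw => by
    have h1 : ∀ u : ℝ, 0 ≤ min (max u 0) (1 / 2) := fun u => le_min (le_max_right _ _) (by norm_num)
    refine hA _ _ ?_ ?_ <;> rw [abs_of_nonneg (h1 w)]
    · rw [abs_of_nonneg (h1 v)]; gcongr
    · exact min_le_right _ _
  have hN : ({x | ¬ContinuousAt C x} ∪ Neg.neg '' {x | ¬ContinuousAt C x}).Countable :=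
    hC.countable_not_continuousAt.union (hC.countable_not_continuousAt.image _)
  filter_upwards [period_ae_interior, ae_restrict_of_ae (Measure.ae_ne volume (0 : ℝ)),
    ae_restrict_of_ae (hN.ae_notMem volume)] with x hx hx0 hxN
  refine ⟨hx0, hx, ?_⟩
  have hc : ContinuousAt C |x| := by
    by_contra hc
    rcases le_or_gt 0 x with h | h
    · exact hxN (.inl (by simpa [abs_of_nonneg h] using hc))
    · exact hxN (.inr ⟨|x|, hc, by simp [abs_of_neg h]⟩)
  refine hc.congr ?_
  filter_upwards [Ioo_mem_nhds (abs_pos.2 hx0) hx] with w hw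
  simp only [C, max_eq_left hw.1.le, min_eq_left hw.2.le]

/-- The tents tend to at most `s (A z)` at continuity points, on one side of the separating height. -/
theorem tents_limsup (hA : ∀ x y, |x| ≤ |y| → |y| ≤ 1 / 2 → A y ≤ A x) {S s : ℝ → ℝ} {m q z : ℝ}
    (hs : Continuous s) (hs0 : 0 ≤ s (A z)) (hS : ∀ t, S t ≤ 1) (hz : z ∈ Ioo (0 : ℝ) (1 / 2))
    (hc : ContinuousAt A z) (hzq : z ≠ q)
    (hSs : ∀ t, ((z < q → m ≤ t) ∧ (q < z → t ≤ m)) → S t ≤ max 0 (s t))
    (hm₁ : ∀ w, |w| < q → m ≤ A w) (hm₂ : ∀ w, q < |w| → |w| ≤ 1 / 2 → A w ≤ m)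
    {ε : ℝ} (hε : 0 < ε) :
    ∀ᶠ k : ℕ in atTop, tents S (crossing A) (k + 1) z ≤ s (A z) + ε := by
  obtain ⟨δ, hδ, hsδ⟩ := Metric.continuousAt_iff.1 hs.continuousAt ε hε
  obtain ⟨e, he, hAe⟩ := Metric.continuousAt_iff.1 hc δ hδ
  set h : ℝ := min (min (e / 2) (z / 2)) (min ((1 / 2 - z) / 2) (|z - q| / 2))
  have hzq' : 0 < |z - q| := abs_pos.2 (sub_ne_zero.2 hzq)
  have hh : 0 < h := by
    simp only [h, lt_min_iff]
    exact ⟨⟨by linarith, by linarith [hz.1]⟩, by linarith [hz.2], by linarith⟩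
  have hb : h ≤ e / 2 ∧ h ≤ z / 2 ∧ h ≤ (1 / 2 - z) / 2 ∧ h ≤ |z - q| / 2 :=
    ⟨(min_le_left _ _).trans (min_le_left _ _), (min_le_left _ _).trans (min_le_right _ _),
      (min_le_right _ _).trans (min_le_left _ _), (min_le_right _ _).trans (min_le_right _ _)⟩
  obtain ⟨N, hN⟩ := exists_nat_gt (1 / h)
  filter_upwards [eventually_ge_atTop N] with k hk
  refine ciSup_le fun t => max_le (by linarith) ?_
  rcases le_or_gt h |z - crossing A t| with hfar | hnear
  · have h1 : 1 ≤ ((k : ℝ) + 1) * h := by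
      rw [← div_le_iff₀ hh]
      have : (N : ℝ) ≤ k := by exact_mod_cast hk
      linarith
    nlinarith [hS t, mul_le_mul_of_nonneg_left hfar (show (0 : ℝ) ≤ (k : ℝ) + 1 by positivity)]
  · obtain ⟨hn1, hn2⟩ := abs_lt.1 hnear
    have hlo : A (z + h) ≤ t := not_lt.1 fun hlt =>
      absurd (le_crossing ⟨by linarith [hz.1], by linarith⟩ hlt) (by linarith)
    have hhi : t < A (z - h) := lt_of_abs_lt_crossing hA (by
      rw [abs_of_nonneg (show 0 ≤ z - h by linarith [hz.1])]; linarith)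
    have hd1 := abs_lt.1 (Real.dist_eq (A (z + h)) (A z) ▸
      hAe (show dist (z + h) z < e by rw [Real.dist_eq]; simp [abs_of_pos hh]; linarith))
    have hd2 := abs_lt.1 (Real.dist_eq (A (z - h)) (A z) ▸
      hAe (show dist (z - h) z < e by rw [Real.dist_eq]; simp [abs_of_pos hh]; linarith))
    have hst := abs_lt.1 (Real.dist_eq (s t) (s (A z)) ▸
      hsδ (show dist t (A z) < δ by rw [Real.dist_eq, abs_lt]; constructor <;> linarith))
    have hside : (z < q → m ≤ t) ∧ (q < z → t ≤ m) := by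
      refine ⟨fun hlt => le_trans (hm₁ _ ?_) hlo, fun hgt => hhi.le.trans (hm₂ _ ?_ ?_)⟩
      · rw [abs_of_nonneg (by linarith [hz.1] : 0 ≤ z + h)]
        linarith [hb.2.2.2, abs_of_neg (sub_neg.2 hlt)]
      · rw [abs_of_nonneg (by linarith [hz.1] : 0 ≤ z - h)]
        linarith [hb.2.2.2, abs_of_pos (sub_pos.2 hgt)]
      · rw [abs_of_nonneg (by linarith [hz.1] : 0 ≤ z - h)]
        linarith [hz.2]
    have h0 : 0 ≤ ((k : ℝ) + 1) * |z - crossing A t| := by positivity
    rcases max_cases (0 : ℝ) (s t) with ⟨hmx, -⟩ | ⟨hmx, -⟩ <;> linarith [hSs t hside]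

/-- The core inequality, with the weighted lengths kept. -/
theorem core_weighted {L A : ℝ → ℝ} {c a b m q : ℝ} {s₁ s₂ : ℝ → ℝ}
    (hI : SliceIneq L A c) (hLi : IntegrableOn L period) (hLm : Measurable L) (hL0 : ∀ z, 0 ≤ L z)
    (hAm : Measurable A) (hA01 : ∀ z, A z ∈ Icc (0 : ℝ) 1)
    (hAmono : ∀ x y, |x| ≤ |y| → |y| ≤ 1 / 2 → A y ≤ A x)
    (ha : EndLimit A a) (hb : Tendsto A (𝓝[≠] 0) (𝓝 b))
    (hq : q ∈ Ioo (0 : ℝ) (1 / 2)) (hm₁ : ∀ z, |z| < q → m ≤ A z)
    (hm₂ : ∀ z, q < |z| → |z| ≤ 1 / 2 → A z ≤ m)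
    (hs₁ : Continuous s₁) (hs₁' : ∀ x, s₁ x ∈ Icc (0 : ℝ) 1)
    (hs₂ : Continuous s₂) (hs₂' : ∀ x, s₂ x ∈ Icc (0 : ℝ) 1) :
    (∫ x in period, √(1 - (if |x| < q then s₁ (A x) else s₂ (A x)) ^ 2) * L x)
      + 2 * ((∫ x in a..m, s₂ x) + ∫ x in m..b, s₁ x) ≤ c := by
  -- the limits bound the values
  have haA : ∀ x, |x| < 1 / 2 → a ≤ A x := fun x hx => le_of_forall_pos_le_add fun ε hε => by
    obtain ⟨η, hη0, hη, hηb⟩ := ha ε hε
    set y := max ((η + 1 / 2) / 2) |x|
    have hy0 : 0 ≤ y := (abs_nonneg x).trans (le_max_right _ _)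
    have hy1 : η < |y| := by rw [abs_of_nonneg hy0]; exact lt_max_of_lt_left (by linarith)
    have hy2 : |y| < 1 / 2 := by rw [abs_of_nonneg hy0]; exact max_lt (by linarith) hx
    have h3 := hAmono x y ((le_max_right _ _).trans (le_abs_self y)) hy2.le
    linarith [(abs_le.1 (hηb y hy1 hy2)).1]
  have hAb : ∀ x, x ≠ 0 → |x| ≤ 1 / 2 → A x ≤ b := fun x hx0 hx => by
    refine ge_of_tendsto hb ?_
    filter_upwards [nhdsWithin_le_nhds (Metric.closedBall_mem_nhds (0 : ℝ) (abs_pos.2 hx0))] with z hz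
    rw [Metric.mem_closedBall, Real.dist_eq, sub_zero] at hz
    exact hAmono z x hz hx
  have ha01 : a ∈ Icc (0 : ℝ) 1 := by
    refine ⟨le_of_forall_pos_le_add fun ε hε => ?_, (haA 0 (by norm_num)).trans (hA01 0).2⟩
    obtain ⟨η, hη0, hη, hηb⟩ := ha ε hε
    have hy : |(η + 1 / 2) / 2| = (η + 1 / 2) / 2 := abs_of_nonneg (by linarith)
    linarith [(abs_le.1 (hηb _ (hy.symm ▸ (by linarith : η < (η + 1 / 2) / 2))
      (hy.symm ▸ (by linarith : (η + 1 / 2) / 2 < 1 / 2)))).2, (hA01 ((η + 1 / 2) / 2)).1]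
  have hmid : q < |(q + 1 / 2) / 2| ∧ |(q + 1 / 2) / 2| < 1 / 2 := by
    rw [abs_of_pos (by linarith [hq.1])]; constructor <;> linarith [hq.2]
  have ham : a ≤ m := (haA _ hmid.2).trans (hm₂ _ hmid.1 hmid.2.le)
  have hmb : m ≤ b := by
    refine (hm₁ (q / 2) ?_).trans (hAb _ (by linarith [hq.1]) ?_) <;>
      rw [abs_of_pos (by linarith [hq.1])] <;> linarith [hq.1, hq.2]
  have hAab : ∀ x, x ≠ 0 → |x| < 1 / 2 → A x ∈ Icc a b := fun x h0 h1 => ⟨haA x h1, hAb x h0 h1.le⟩
  -- test functions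
  set S := levelVal s₁ s₂ a m b
  have hS1 : ∀ t, S t ≤ 1 := fun t => by
    simp only [S, levelVal]; split_ifs <;> linarith [(hs₁' t).2, (hs₂' t).2]
  have hS0 : ∀ t, 0 ≤ S t := fun t => by
    simp only [S, levelVal]; split_ifs <;> linarith [(hs₁' t).1, (hs₂' t).1]
  have hSm : Measurable S :=
    Measurable.ite (measurableSet_Ioo (a := a) (b := m)) hs₂.measurable
      (Measurable.ite (measurableSet_Ioo (a := m) (b := b)) hs₁.measurable measurable_const)
  choose β hβc hβI hβ1 hβg using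
    core_step hI hLi hAm hA01 hAmono ha01 ha (ham.trans hmb) hAab hS1
  have hn : ∀ k : ℕ, (0 : ℝ) ≤ k + 1 := fun k => by positivity
  have hneg : ∀ (k : ℕ) (z : ℝ), 1 ≤ (k + 1) * z → tents S (crossing A) (k + 1) (-z) = 0 := fun k z hz => by
    refine le_antisymm (ciSup_le fun t => max_le le_rfl ?_) (tents_mem (hn k) hS1 _).1
    have hr := (crossing_mem A t).1
    have h1 : z ≤ |-z - crossing A t| := by linarith [neg_le_abs (-z - crossing A t)]
    nlinarith [hS1 t, mul_le_mul_of_nonneg_left h1 (hn k)]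
  -- the weight of the lengths
  set σ : ℝ → ℝ := fun x => if |x| < q then s₁ (A x) else s₂ (A x)
  have hσ : ∀ x, σ x ∈ Icc (0 : ℝ) 1 := fun x => by
    simp only [σ]; split_ifs; exacts [hs₁' _, hs₂' _]
  have hσm : Measurable σ := Measurable.ite (measurableSet_lt measurable_id.abs measurable_const)
    (hs₁.measurable.comp hAm) (hs₂.measurable.comp hAm)
  set T : ℝ → ℝ := fun x => √(1 - σ x ^ 2)
  have hT : ∀ x, T x ∈ Icc (0 : ℝ) 1 := fun x =>
    ⟨Real.sqrt_nonneg _, Real.sqrt_le_iff.2 ⟨zero_le_one, by nlinarith [sq_nonneg (σ x)]⟩⟩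
  have hlimL : Tendsto (fun k => ∫ x in period, min √(1 - β k x ^ 2) (T x) * L x) atTop
      (𝓝 (∫ x in period, T x * L x)) := by
    refine tendsto_integral_of_dominated_convergence L (fun k => ?_) hLi (fun k => ?_) ?_
    · exact (((continuous_const.sub ((hβc k).pow 2)).sqrt.measurable.min
        (measurable_const.sub (hσm.pow_const 2)).sqrt).mul hLm).aestronglyMeasurable
    · refine .of_forall fun x => ?_
      rw [Real.norm_eq_abs, abs_mul, abs_of_nonneg (hL0 x),
        abs_of_nonneg (le_min (Real.sqrt_nonneg _) (hT x).1)]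
      exact mul_le_of_le_one_left (hL0 x) ((min_le_right _ _).trans (hT x).2)
    · filter_upwards [ae_continuousAt_abs hAmono, ae_restrict_of_ae (Measure.ae_ne volume q),
        ae_restrict_of_ae (Measure.ae_ne volume (-q))] with x hx hxq hxq'
      obtain ⟨hx0, hx2, hxc⟩ := hx
      refine Tendsto.mul_const _ (tendsto_order.2 ⟨fun u hu => ?_, fun u hu => .of_forall fun k =>
        (min_le_right _ _).trans_lt hu⟩)
      -- room below the target
      have hcont : Continuous fun e : ℝ => √(1 - (σ x + e) ^ 2) := by fun_prop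
      obtain ⟨ε, hε, hεu⟩ : ∃ ε > 0, u < √(1 - (σ x + ε) ^ 2) := by
        have h0 := hcont.tendsto 0
        rw [add_zero] at h0
        obtain ⟨ε, hεu, hε⟩ := (((h0.eventually_const_lt hu).filter_mono nhdsWithin_le_nhds).and
          (self_mem_nhdsWithin (a := (0 : ℝ)) (s := Ioi 0))).exists
        exact ⟨ε, hε, hεu⟩
      have habs : |x| ≠ q := fun h => by rcases abs_choice x with e | e <;> rw [e] at h
                                         · exact hxq h
                                         · exact hxq' (by linarith)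
      have hz : |x| ∈ Ioo (0 : ℝ) (1 / 2) := ⟨abs_pos.2 hx0, hx2⟩
      have hAx : A |x| = A x := le_antisymm (hAmono x |x| (by rw [abs_abs]) (by rw [abs_abs]; exact hx2.le))
        (hAmono |x| x (by rw [abs_abs]) hx2.le)
      have hup : ∀ᶠ k : ℕ in atTop, tents S (crossing A) (k + 1) |x| ≤ σ x + ε / 2 := by
        rcases lt_or_gt_of_ne habs with hlt | hgt
        · simp only [σ, if_pos hlt, ← hAx]
          refine tents_limsup hAmono hs₁ (hs₁' _).1 hS1 hz hxc habs (fun t ht => ?_) hm₁ hm₂ (half_pos hε)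
          have := ht.1 hlt
          simp only [S, levelVal]
          split_ifs <;> first | exact le_max_right _ _ | exact le_max_left _ _ | linarith
        · simp only [σ, if_neg hgt.not_gt, ← hAx]
          refine tents_limsup hAmono hs₂ (hs₂' _).1 hS1 hz hxc habs (fun t ht => ?_) hm₁ hm₂ (half_pos hε)
          have := ht.2 hgt
          simp only [S, levelVal]
          split_ifs <;> first | exact le_max_right _ _ | exact le_max_left _ _ | linarith
      obtain ⟨N, hN⟩ := exists_nat_gt (max (1 / |x|) (4 / ε))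
      filter_upwards [hup, eventually_ge_atTop N] with k hk hkN
      have hkR : max (1 / |x|) (4 / ε) < (k : ℝ) + 1 := by
        have : (N : ℝ) ≤ k := by exact_mod_cast hkN
        linarith
      have hk1 : 1 ≤ ((k : ℝ) + 1) * |x| := by
        rw [← div_le_iff₀ (abs_pos.2 hx0)]; exact ((le_max_left _ _).trans_lt hkR).le
      have hk2 : 2 / ((k : ℝ) + 1) ≤ ε / 2 := by
        rw [div_le_iff₀ (by positivity)]
        have := (div_lt_iff₀ hε).1 ((le_max_right _ _).trans_lt hkR)
        linarith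
      have hg0 : |tents S (crossing A) (k + 1) x - tents S (crossing A) (k + 1) (-x)| ≤ σ x + ε / 2 := by
        rcases le_or_gt 0 x with h | h
        · rw [abs_of_nonneg h] at hk hk1
          rw [hneg k x hk1, sub_zero, abs_of_nonneg (tents_mem (hn k) hS1 _).1]; exact hk
        · rw [abs_of_neg h] at hk hk1
          have := hneg k (-x) hk1
          rw [neg_neg] at this
          rw [this, zero_sub, abs_neg, abs_of_nonneg (tents_mem (hn k) hS1 _).1]; exact hk
      have hb' : |β k x| ≤ σ x + ε := by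
        have := abs_sub_abs_le_abs_sub (β k x)
          (tents S (crossing A) (k + 1) x - tents S (crossing A) (k + 1) (-x))
        linarith [hβg k x hx2.le]
      refine lt_min (hεu.trans_le (Real.sqrt_le_sqrt ?_)) hu
      have := pow_le_pow_left₀ (abs_nonneg _) hb' 2
      rw [sq_abs] at this
      linarith
  -- the levels
  have hr : Measurable (crossing A) := (crossing_antitone A).measurable
  have hlimS : Tendsto (fun k => ∫ t in a..b, min (β k (crossing A t) - β k (-crossing A t)) (2 * S t))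
      atTop (𝓝 (∫ t in a..b, 2 * S t)) := by
    refine intervalIntegral.tendsto_integral_filter_of_dominated_convergence (fun _ => 2)
      (.of_forall fun k => ((((hβc k).measurable.comp hr).sub ((hβc k).measurable.comp hr.neg)).min
        (hSm.const_mul 2)).aestronglyMeasurable) (.of_forall fun k => .of_forall fun t _ => ?_)
      intervalIntegrable_const ?_
    · rw [Real.norm_eq_abs, abs_le]
      obtain ⟨hr0, hr1⟩ := crossing_mem A t
      have e1 := abs_le.1 (hβ1 k _ (abs_le.2 ⟨by linarith, hr1⟩))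
      have e2 := abs_le.1 (hβ1 k (-crossing A t) (abs_le.2 ⟨by linarith, by linarith⟩))
      exact ⟨le_min (by linarith) (by linarith [hS0 t]), (min_le_left _ _).trans (by linarith)⟩
    · filter_upwards [Measure.ae_ne volume b] with t htb ht
      rw [uIoc_of_le (ham.trans hmb)] at ht
      refine tendsto_order.2 ⟨fun u hu => ?_, fun u hu => .of_forall fun k =>
        (min_le_right _ _).trans_lt hu⟩
      obtain ⟨hr0, hr1⟩ := crossing_mem A t
      -- the crossing is positive
      have hrpos : 0 < crossing A t := by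
        have h1 : ∀ᶠ w in 𝓝[≠] (0 : ℝ), w ∈ Metric.closedBall (0 : ℝ) (1 / 2) :=
          mem_nhdsWithin_of_mem_nhds (Metric.closedBall_mem_nhds (0 : ℝ) (by norm_num))
        obtain ⟨w, hw, hwt⟩ := (h1.and ((hb.eventually_const_lt (lt_of_le_of_ne ht.2 htb)).and
          self_mem_nhdsWithin)).exists
        rw [Metric.mem_closedBall, Real.dist_eq, sub_zero] at hw
        exact (abs_pos.2 hwt.2).trans_le (le_crossing ⟨abs_nonneg w, hw⟩
          (hwt.1.trans_le (hAmono |w| w (by rw [abs_abs]) hw)))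
      obtain ⟨N, hN⟩ := exists_nat_gt (max (1 / crossing A t) (4 / (2 * S t - u)))
      filter_upwards [eventually_ge_atTop N] with k hkN
      have hkR : max (1 / crossing A t) (4 / (2 * S t - u)) < (k : ℝ) + 1 := by
        have : (N : ℝ) ≤ k := by exact_mod_cast hkN
        linarith
      have hk1 : 1 ≤ ((k : ℝ) + 1) * crossing A t := by
        rw [← div_le_iff₀ hrpos]; exact ((le_max_left _ _).trans_lt hkR).le
      have hk2 : 2 / ((k : ℝ) + 1) < (2 * S t - u) / 2 := by
        rw [div_lt_iff₀ (by positivity)]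
        have := (div_lt_iff₀ (sub_pos.2 hu)).1 ((le_max_right _ _).trans_lt hkR)
        linarith
      have e1 := abs_le.1 (hβg k _ (abs_le.2 ⟨by linarith, hr1⟩))
      have e2 := abs_le.1 (hβg k (-crossing A t) (abs_le.2 ⟨by linarith, by linarith⟩))
      rw [neg_neg] at e2
      rw [hneg k _ hk1] at e1 e2
      have := le_tents (r := crossing A) (hn k) hS1 t
      exact lt_min (by linarith) hu
  have hmain : (∫ x in period, T x * L x) + ∫ t in a..b, 2 * S t ≤ c := by
    refine le_of_tendsto' (hlimL.add hlimS) fun k => le_trans (add_le_add ?_ ?_) (hβI k)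
    · refine integral_mono_of_nonneg (.of_forall fun x => mul_nonneg
        (le_min (Real.sqrt_nonneg _) (hT x).1) (hL0 x)) ?_
        (.of_forall fun x => mul_le_mul_of_nonneg_right (min_le_left _ _) (hL0 x))
      exact hLi.bdd_mul (continuous_const.sub ((hβc k).pow 2)).sqrt.aestronglyMeasurable
        (c := 1) (.of_forall fun x => by
          rw [Real.norm_eq_abs, abs_of_nonneg (Real.sqrt_nonneg _)]
          exact Real.sqrt_le_iff.2 ⟨zero_le_one, by nlinarith [sq_nonneg (β k x)]⟩)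
    · have hint : IntervalIntegrable (fun t => β k (crossing A t) - β k (-crossing A t)) volume a b := by
        refine (intervalIntegrable_const (c := (2 : ℝ))).mono_fun'
          (((hβc k).measurable.comp hr).sub ((hβc k).measurable.comp hr.neg)).aestronglyMeasurable
          (.of_forall fun t => ?_)
        obtain ⟨hr0, hr1⟩ := crossing_mem A t
        refine (norm_sub_le _ _).trans ?_
        rw [Real.norm_eq_abs, Real.norm_eq_abs]
        linarith [hβ1 k _ (abs_le.2 ⟨by linarith, hr1⟩),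
          hβ1 k (-crossing A t) (abs_le.2 ⟨by linarith, by linarith⟩)]
      refine intervalIntegral.integral_mono_on (ham.trans hmb) ?_ hint fun t _ => min_le_left _ _
      refine (intervalIntegrable_const (c := (2 : ℝ))).mono_fun'
        ((((hβc k).measurable.comp hr).sub ((hβc k).measurable.comp hr.neg)).min
          (hSm.const_mul 2)).aestronglyMeasurable (.of_forall fun t => ?_)
      obtain ⟨hr0, hr1⟩ := crossing_mem A t
      have e1 := abs_le.1 (hβ1 k _ (abs_le.2 ⟨by linarith, hr1⟩))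
      have e2 := abs_le.1 (hβ1 k (-crossing A t) (abs_le.2 ⟨by linarith, by linarith⟩))
      beta_reduce
      rw [Real.norm_eq_abs, abs_le]
      exact ⟨le_min (by linarith) (by linarith [hS0 t]), (min_le_left _ _).trans (by linarith)⟩
  -- evaluation
  have hSint : ∫ t in a..b, 2 * S t = 2 * ((∫ x in a..m, s₂ x) + ∫ x in m..b, s₁ x) := by
    have hSi : ∀ p p' : ℝ, IntervalIntegrable S volume p p' := fun p p' =>
      (intervalIntegrable_const (c := (1 : ℝ))).mono_fun' hSm.aestronglyMeasurable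
        (.of_forall fun t => by beta_reduce; rw [Real.norm_eq_abs, abs_of_nonneg (hS0 t)]; exact hS1 t)
    rw [intervalIntegral.integral_const_mul, ← intervalIntegral.integral_add_adjacent_intervals
      (hSi a m) (hSi m b)]
    congr 2 <;> refine intervalIntegral.integral_congr_ae ?_
    · filter_upwards [Measure.ae_ne volume m] with t ht htm
      rw [uIoc_of_le ham] at htm
      simp only [S, levelVal, if_pos (And.intro htm.1 (lt_of_le_of_ne htm.2 ht))]
    · filter_upwards [Measure.ae_ne volume b] with t ht htm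
      rw [uIoc_of_le hmb] at htm
      simp only [S, levelVal, if_neg (fun h : a < t ∧ t < m => h.2.not_gt htm.1),
        if_pos (And.intro htm.1 (lt_of_le_of_ne htm.2 ht))]
  exact hSint ▸ hmain

/-- The core inequality. -/
theorem core_bound {L A : ℝ → ℝ} {c a b m q lam K₁ K₂ : ℝ} {s₁ s₂ : ℝ → ℝ}
    (hI : SliceIneq L A c) (hLi : IntegrableOn L period) (hLm : Measurable L) (hL0 : ∀ z, 0 ≤ L z)
    (hAm : Measurable A) (hA01 : ∀ z, A z ∈ Icc (0 : ℝ) 1)
    (hAmono : ∀ x y, |x| ≤ |y| → |y| ≤ 1 / 2 → A y ≤ A x)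
    (ha : EndLimit A a) (hb : Tendsto A (𝓝[≠] 0) (𝓝 b))
    (hq : q ∈ Ioo (0 : ℝ) (1 / 2)) (hm₁ : ∀ z, |z| < q → m ≤ A z)
    (hm₂ : ∀ z, q < |z| → |z| ≤ 1 / 2 → A z ≤ m)
    (hs₁ : Continuous s₁) (hs₁' : ∀ x, s₁ x ∈ Icc (0 : ℝ) 1)
    (hs₂ : Continuous s₂) (hs₂' : ∀ x, s₂ x ∈ Icc (0 : ℝ) 1)
    (h₁ : ∀ᵐ z ∂volume.restrict period, |z| < q → lam * A z + K₁ ≤ √(1 - s₁ (A z) ^ 2) * L z)
    (h₂ : ∀ᵐ z ∂volume.restrict period, q < |z| → lam * A z + K₂ ≤ √(1 - s₂ (A z) ^ 2) * L z) :
    lam * (∫ z in period, A z) + 2 * q * K₁ + (1 - 2 * q) * K₂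
      + 2 * ((∫ x in a..m, s₂ x) + ∫ x in m..b, s₁ x) ≤ c := by
  have hw := core_weighted hI hLi hLm hL0 hAm hA01 hAmono ha hb hq hm₁ hm₂ hs₁ hs₁' hs₂ hs₂'
  set σ : ℝ → ℝ := fun x => if |x| < q then s₁ (A x) else s₂ (A x)
  have hσ : ∀ x, σ x ∈ Icc (0 : ℝ) 1 := fun x => by
    simp only [σ]; split_ifs; exacts [hs₁' _, hs₂' _]
  have hσm : Measurable σ := Measurable.ite (measurableSet_lt measurable_id.abs measurable_const)
    (hs₁.measurable.comp hAm) (hs₂.measurable.comp hAm)
  set T : ℝ → ℝ := fun x => √(1 - σ x ^ 2)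
  have hT : ∀ x, T x ∈ Icc (0 : ℝ) 1 := fun x =>
    ⟨Real.sqrt_nonneg _, Real.sqrt_le_iff.2 ⟨zero_le_one, by nlinarith [sq_nonneg (σ x)]⟩⟩
  have hAi : IntegrableOn A period := Integrable.of_bound hAm.aestronglyMeasurable 1
    (.of_forall fun x => by rw [Real.norm_eq_abs, abs_of_nonneg (hA01 x).1]; exact (hA01 x).2)
  set J : Set ℝ := Ioo (-q) q
  have hlow : lam * (∫ z in period, A z) + 2 * q * K₁ + (1 - 2 * q) * K₂
      ≤ ∫ x in period, T x * L x := by
    have hJi : IntegrableOn (J.indicator fun _ => K₁ - K₂) period :=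
      (integrable_const _).indicator measurableSet_Ioo
    have e : ∫ x in period, (lam * A x + (K₂ + J.indicator (fun _ => K₁ - K₂) x))
        = lam * (∫ z in period, A z) + 2 * q * K₁ + (1 - 2 * q) * K₂ := by
      rw [integral_add (hAi.const_mul lam)
          (g := fun x => K₂ + J.indicator (fun _ => K₁ - K₂) x) ((integrable_const K₂).add hJi),
        integral_const_mul,
        integral_add (integrable_const K₂) hJi, setIntegral_indicator measurableSet_Ioo,
        setIntegral_const, setIntegral_const,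
        inter_eq_right.2 (show J ⊆ period from fun x hx => ⟨by linarith [hx.1, hq.2],
          by linarith [hx.2, hq.2]⟩), Real.volume_real_Ioo_of_le (by linarith [hq.1])]
      simp [measureReal_def, volume_period]
      ring
    rw [← e]
    refine integral_mono_ae ((hAi.const_mul lam).add ((integrable_const K₂).add hJi))
      (hLi.bdd_mul (measurable_const.sub (hσm.pow_const 2)).sqrt.aestronglyMeasurable (c := 1)
        (.of_forall fun x => by rw [Real.norm_eq_abs, abs_of_nonneg (hT x).1]; exact (hT x).2)) ?_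
    filter_upwards [h₁, h₂, ae_restrict_of_ae (Measure.ae_ne volume q),
      ae_restrict_of_ae (Measure.ae_ne volume (-q))] with x hx1 hx2 hxq hxq'
    by_cases hx : |x| < q
    · rw [indicator_of_mem (show x ∈ J from abs_lt.1 hx)]
      simp only [T, σ, if_pos hx]
      linarith [hx1 hx]
    · rw [indicator_of_notMem (show x ∉ J from fun h => hx (abs_lt.2 h))]
      simp only [T, σ, if_neg hx, add_zero]
      refine hx2 (lt_of_le_of_ne (not_lt.1 hx) fun h => ?_)
      rcases abs_choice x with e | e <;> rw [e] at h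
      · exact hxq h.symm
      · exact hxq' (by linarith)
  have hwT : (∫ x in period, T x * L x) + 2 * ((∫ x in a..m, s₂ x) + ∫ x in m..b, s₁ x) ≤ c := hw
  linarith

end

end Vale.Agent.P232
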