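import Vale.Agent.P232.Perim.Planar

/-!
# P232: the isoperimetric profile of the cubic torus, definitions

`ballTubeSlab` is the conjectured profile `J`, `isoProfile` the profile `I`. The other definitions are
the explicit lower bounds for the lengths of slices used by the calibration argument, and the two
one-dimensional certificates `GoodA` (an axis whose stripes have thin traces) and `GoodB` (an axis
whose slices of height at most `kappa` wrap in both directions).
-/

namespace Vale.Agent.P232

open MeasureTheory Set Real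

noncomputable section

/-- The least perimeter of a ball, a tube about a shortest closed geodesic, or a slab, of volume
`v = min V (1 - V)`. -/
def ballTubeSlab (V : ℝ) : ℝ :=
  min ((36 * π) ^ ((1 : ℝ) / 3) * min V (1 - V) ^ ((2 : ℝ) / 3)) (min (2 * √(π * min V (1 - V))) 2)

/-- A measurable periodic set of volume `V` in the unit cube. -/
structure HasVolume (E : Set (Fin 3 → ℝ)) (V : ℝ) : Prop where
  meas : MeasurableSet E
  periodic : Periodic fun x => x ∈ E
  vol : volume (cube 3 ∩ E) = ENNReal.ofReal V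

/-- The isoperimetric profile of `ℝ³ / ℤ³`. -/
def isoProfile (V : ℝ) : ENNReal :=
  ⨅ (E : Set (Fin 3 → ℝ)) (_ : HasVolume E V), perimeter E

/-- The height of the zone used in the case distinction. -/
def kappa : ℝ := 3 / 50

/-- Length of a disc of area `A`. -/
def discLen (A : ℝ) : ℝ := 2 * √(π * A)

/-- Least length of a boxed set of area `S` whose half-extent in one direction is at most `H`. -/
def stadLen (S H : ℝ) : ℝ := if S ≤ π * H ^ 2 then 2 * √(π * S) else π * H + S / H

/-- Slice bound for an axis all of whose stripes have trace at most `2 * kappa`. -/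
def lenA (A : ℝ) : ℝ := min (discLen A) (min (discLen (1 - A)) ((A - 3 / 25) / (13 / 20) + 889 / 500))

/-- Slice bound in the cross zone, when one of the traces is at least `2 * W`. -/
def lenCross (W A : ℝ) : ℝ := stadLen (1 - A) (1 / 2 - W)

/-- Slice bound outside the cross zone, when both traces are at most `2 * W`. -/
def lenOuter (W A : ℝ) : ℝ :=
  min (discLen A) (min (discLen (1 - A)) (max 2 ((A - 2 * W) / (3 / 2) + 981 / 500)))

/-- A calibration proving the profile bound for one axis of type A, with slice areas from `a` to `b`. -/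
def GoodA (v a b : ℝ) : Prop :=
  ∃ (lam K : ℝ) (s : ℝ → ℝ), Continuous s ∧ (∀ A, s A ∈ Icc (0 : ℝ) 1) ∧
    (∀ A ∈ Icc a b, lam * A + K ≤ √(1 - s A ^ 2) * lenA A) ∧
    ballTubeSlab v ≤ lam * v + K + 2 * ∫ A in a..b, s A

/-- A calibration proving the profile bound for one axis of type B: areas in `[m, b]` in the cross zone
and in `[a, m]` outside it. -/
def GoodB (v W a m b : ℝ) : Prop :=
  ∃ (lam K₁ K₂ : ℝ) (s₁ s₂ : ℝ → ℝ), Continuous s₁ ∧ Continuous s₂ ∧
    (∀ A, s₁ A ∈ Icc (0 : ℝ) 1) ∧ (∀ A, s₂ A ∈ Icc (0 : ℝ) 1) ∧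
    (∀ A ∈ Icc m b, lam * A + K₁ ≤ √(1 - s₁ A ^ 2) * lenCross W A) ∧
    (∀ A ∈ Icc a m, lam * A + K₂ ≤ √(1 - s₂ A ^ 2) * lenOuter W A) ∧
    ballTubeSlab v ≤ lam * v + 2 * kappa * K₁ + (1 - 2 * kappa) * K₂
      + 2 * ((∫ A in a..m, s₂ A) + ∫ A in m..b, s₁ A)

/-- The slice of `E` at height `z` in direction `i`. -/
def sliceSet (E : Set (Fin 3 → ℝ)) (i : Fin 3) (z : ℝ) : Set (Fin 2 → ℝ) := splice i z ⁻¹' E

/-- The area of a slice. -/
def sliceArea (E : Set (Fin 3 → ℝ)) (i : Fin 3) (z : ℝ) : ℝ := area (sliceSet E i z)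

/-- The trace of a planar set: the width of the band running along the coordinate `k`. -/
def trace (S : Set (Fin 2 → ℝ)) (k : Fin 2) : ℝ := sInf (lineLen S k '' Ioo (-(1 / 2) : ℝ) (1 / 2))

/-- Type A: every stripe slice of the axis `i` has trace at most `2 * kappa`. -/
def AxisA (E : Set (Fin 3 → ℝ)) (i : Fin 3) : Prop :=
  ∀ z : ℝ, 0 < |z| → |z| < 1 / 2 → ∀ k l : Fin 2, k ≠ l →
    trace (sliceSet E i z) k ≤ 2 * kappa ∨ 0 < trace (sliceSet E i z) l

/-- Type B: both traces of the slices of height at most `kappa` are positive. -/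
def AxisB (E : Set (Fin 3 → ℝ)) (i : Fin 3) : Prop :=
  ∀ z : ℝ, |z| ≤ kappa → ∀ k : Fin 2, 0 < trace (sliceSet E i z) k

end

end Vale.Agent.P232
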