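import Vale.Agent.P232.Full.LemmaABasic
import Mathlib.Analysis.SpecialFunctions.Integrals.Basic

/-!
# P232, lemma A next to the slab

For `a` and `1 - b` at most `10⁻⁴` the affine function `8 (a (1 - A) + (1 - b) A)` gives `GoodA`.
-/

namespace Vale.Agent.P232.LemmaA

open MeasureTheory Set Real

noncomputable section

theorem singular_integral {a d : ℝ} (ha : 0 ≤ a) (ha' : a ≤ 1 / 10000) (had : a ≤ d) (hd : d ≤ 1) :
    IntervalIntegrable (fun A => a ^ 2 / A) volume a d ∧ ∫ A in a..d, a ^ 2 / A ≤ a / 50 := by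
  rcases ha.eq_or_lt with e | e
  · subst e; simp
  · refine ⟨ContinuousOn.intervalIntegrable_of_Icc had
      (continuousOn_const.div continuousOn_id fun A hA => ne_of_gt (e.trans_le hA.1)), ?_⟩
    simp only [div_eq_mul_inv]
    rw [intervalIntegral.integral_const_mul, integral_inv_of_pos e (e.trans_le had)]
    have h1 : Real.log (d / a) ≤ 2 * √(1 / a) := by
      calc Real.log (d / a) ≤ Real.log (1 / a) :=
            Real.log_le_log (div_pos (e.trans_le had) e) (div_le_div_of_nonneg_right hd e.le)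
        _ = 2 * Real.log √(1 / a) := by rw [Real.log_sqrt (by positivity)]; ring
        _ ≤ 2 * √(1 / a) := mul_le_mul_of_nonneg_left
            (Real.log_le_self (Real.sqrt_nonneg _)) (by norm_num)
    have h2 : a * √(1 / a) ≤ 1 / 100 := by
      have h3 : a * √(1 / a) = √a := by
        rw [one_div, Real.sqrt_inv, ← div_eq_mul_inv, Real.div_sqrt]
      rw [h3, Real.sqrt_le_iff]
      exact ⟨by norm_num, by linarith⟩
    nlinarith [mul_le_mul_of_nonneg_left h1 (sq_nonneg a), mul_le_mul_of_nonneg_left h2 ha]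

theorem goodA_corner {v a b : ℝ} (hv : v ∈ Ioc (0 : ℝ) (1 / 2)) (ha : 0 ≤ a)
    (ha' : a ≤ 1 / 10000) (hb : 1 - 1 / 10000 ≤ b) (hb' : b ≤ 1) :
    GoodGap v a b ((a + (1 - b)) / 100) := by
  obtain ⟨c, hc, hc', rfl⟩ : ∃ c : ℝ, 0 ≤ c ∧ c ≤ 1 / 10000 ∧ b = 1 - c :=
    ⟨1 - b, by linarith, by linarith, by ring⟩
  have hab : a ≤ 1 - c := by linarith
  set k := 8 * (c - a) with hk
  set K := 8 * a with hK
  have hsq : ∀ A : ℝ, (k * A + K) ^ 2 ≤ 128 * (a ^ 2 * (1 - A) ^ 2 + c ^ 2 * A ^ 2) := fun A => by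
    rw [hk, hK]; nlinarith [sq_nonneg (a * (1 - A) - c * A)]
  have hmul : ∀ x y : ℝ, 0 ≤ x → x ≤ 1 / 10000 → 0 ≤ y → y ≤ 1 / 10000 →
      128 * (x ^ 2 * (1 - x) ^ 2 + y ^ 2 * x ^ 2) ≤ P4 * x ∧
      128 * (x ^ 2 * (1 - x) ^ 2 + y ^ 2 * x ^ 2) ≤ Cm ^ 2 ∧
      128 * (x ^ 2 * (1 - x) ^ 2 + y ^ 2 * x ^ 2) ≤ P4 * (1 - x) := by
    intro x y hx hx' hy hy'
    have h1 : x ^ 2 * (1 - x) ^ 2 ≤ x ^ 2 := mul_le_of_le_one_right (sq_nonneg x) (by nlinarith)
    have h2 : y ^ 2 * x ^ 2 ≤ x ^ 2 := mul_le_of_le_one_left (sq_nonneg x) (by nlinarith)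
    have h3 : x ^ 2 ≤ x / 10000 := by nlinarith
    refine ⟨?_, ?_, ?_⟩ <;> norm_num [P4, Cm] <;> linarith
  have hA : Adm k K a (1 - c) := by
    refine ⟨ha, hab, by linarith, ?_, ?_⟩
    · obtain ⟨h1, h2, h3⟩ := hmul a c ha ha' hc hc'
      exact ⟨(hsq a).trans (by linarith), (hsq a).trans (by linarith), (hsq a).trans (by linarith)⟩
    · obtain ⟨h1, h2, h3⟩ := hmul c a hc hc' ha ha'
      have e : 128 * (a ^ 2 * (1 - (1 - c)) ^ 2 + c ^ 2 * (1 - c) ^ 2)
          = 128 * (c ^ 2 * (1 - c) ^ 2 + a ^ 2 * c ^ 2) := by ring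
      have h := (hsq (1 - c)).trans_eq e
      refine ⟨h.trans ?_, h.trans ?_, h.trans ?_⟩
      · linarith
      · linarith
      · rw [sub_sub_cancel]; linarith
  set T := a ^ 2 + c ^ 2 with hT
  set B : ℝ → ℝ := fun A => 128 / P4 * (a ^ 2 / A + c ^ 2 / (1 - A) + T) + 128 / Cm ^ 2 * T with hB
  have hT0 : 0 ≤ T := by positivity
  have hP := P4_pos
  have hC : 0 < Cm ^ 2 := by norm_num [Cm]
  have hqB : ∀ A ∈ Icc a (1 - c), 1 - B A ≤ sFun k K A := by
    intro A hA'
    have hA0 : 0 ≤ A := ha.trans hA'.1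
    have hA1 : 0 ≤ 1 - A := by linarith [hA'.2]
    have hq : qFun k K A ≤ B A := by
      have hs1 : (k * A + K) ^ 2 / (P4 * A) ≤ 128 / P4 * (a ^ 2 / A + c ^ 2) := by
        rcases hA0.eq_or_lt with e | e
        · subst e; simp; positivity
        · rw [div_le_iff₀ (mul_pos hP e)]
          refine (hsq A).trans ?_
          rw [show 128 / P4 * (a ^ 2 / A + c ^ 2) * (P4 * A) = 128 * (a ^ 2 + c ^ 2 * A) by field_simp]
          have : a ^ 2 * (1 - A) ^ 2 ≤ a ^ 2 := mul_le_of_le_one_right (sq_nonneg a) (by nlinarith)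
          have : c ^ 2 * A ^ 2 ≤ c ^ 2 * A := mul_le_mul_of_nonneg_left (by nlinarith) (sq_nonneg c)
          linarith
      have hs2 : (k * A + K) ^ 2 / Cm ^ 2 ≤ 128 / Cm ^ 2 * T := by
        rw [div_mul_eq_mul_div]
        refine div_le_div_of_nonneg_right ((hsq A).trans ?_) hC.le
        have : a ^ 2 * (1 - A) ^ 2 ≤ a ^ 2 := mul_le_of_le_one_right (sq_nonneg a) (by nlinarith)
        have : c ^ 2 * A ^ 2 ≤ c ^ 2 := mul_le_of_le_one_right (sq_nonneg c) (by nlinarith)
        linarith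
      have hs3 : (k * A + K) ^ 2 / (P4 * (1 - A)) ≤ 128 / P4 * (a ^ 2 + c ^ 2 / (1 - A)) := by
        rcases hA1.eq_or_lt with e | e
        · rw [← e]; simp; positivity
        · rw [div_le_iff₀ (mul_pos hP e)]
          refine (hsq A).trans ?_
          rw [show 128 / P4 * (a ^ 2 + c ^ 2 / (1 - A)) * (P4 * (1 - A))
            = 128 * (a ^ 2 * (1 - A) + c ^ 2) by field_simp]
          have : a ^ 2 * (1 - A) ^ 2 ≤ a ^ 2 * (1 - A) :=
            mul_le_mul_of_nonneg_left (by nlinarith) (sq_nonneg a)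
          have : c ^ 2 * A ^ 2 ≤ c ^ 2 := mul_le_of_le_one_right (sq_nonneg c) (by nlinarith)
          linarith
      have n1 : 0 ≤ 128 / P4 * (a ^ 2 / A + c ^ 2) := by positivity
      have n2 : 0 ≤ 128 / Cm ^ 2 * T := by positivity
      have n3 : 0 ≤ 128 / P4 * (a ^ 2 + c ^ 2 / (1 - A)) := by positivity
      simp only [hB, hT, qFun, mul_add] at hs1 hs2 hs3 n1 n2 n3 ⊢
      refine max_le ?_ (max_le ?_ ?_) <;> linarith
    rcases le_or_gt (1 - B A) 0 with e | e
    · exact e.trans (sFun_mem A).1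
    · refine Real.le_sqrt_of_sq_le ?_
      nlinarith [qFun_nonneg (k := k) (K := K) (A := A)]
  obtain ⟨i1, j1⟩ := singular_integral ha ha' hab (by linarith)
  obtain ⟨i2, j2⟩ := singular_integral hc hc' (show c ≤ 1 - a by linarith) (by linarith)
  have i3 : IntervalIntegrable (fun A => c ^ 2 / (1 - A)) volume a (1 - c) := by
    simpa using (i2.comp_sub_left 1).symm
  have j3 : ∫ A in a..(1 - c), c ^ 2 / (1 - A) ≤ c / 50 := by
    rw [intervalIntegral.integral_comp_sub_left (fun x => c ^ 2 / x) 1, sub_sub_cancel]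
    exact j2
  have iB : IntervalIntegrable B volume a (1 - c) :=
    (((i1.add i3).add intervalIntegrable_const).const_mul _).add intervalIntegrable_const
  have hmono := intervalIntegral.integral_mono_on hab (intervalIntegrable_const.sub iB)
    (hA.integrable le_rfl hab le_rfl) hqB
  have hI : ∫ A in a..(1 - c), B A ≤ 21 / 100 * (a + c) := by
    simp only [hB]
    rw [intervalIntegral.integral_add (((i1.add i3).add intervalIntegrable_const).const_mul _)
      intervalIntegrable_const, intervalIntegral.integral_const_mul,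
      intervalIntegral.integral_add (i1.add i3) intervalIntegrable_const,
      intervalIntegral.integral_add i1 i3, intervalIntegral.integral_const,
      intervalIntegral.integral_const, smul_eq_mul, smul_eq_mul]
    have hlen : (1 - c - a) * T ≤ T := mul_le_of_le_one_left hT0 (by linarith)
    have hT' : T ≤ (a + c) / 10000 := by rw [hT]; nlinarith
    have h1 : 128 / P4 ≤ 102 / 10 := by norm_num [P4]
    have h2 : 128 / Cm ^ 2 ≤ 28 := by norm_num [Cm]
    have h3 := mul_le_mul h1 (le_refl ((a + c) / 50 + (a + c) / 10000)) (by positivity) (by norm_num)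
    have h4 := mul_le_mul h2 hT' hT0 (by norm_num)
    have h5 : 128 / P4 * ((∫ A in a..(1 - c), a ^ 2 / A) + (∫ A in a..(1 - c), c ^ 2 / (1 - A))
        + (1 - c - a) * T) ≤ 128 / P4 * ((a + c) / 50 + (a + c) / 10000) :=
      mul_le_mul_of_nonneg_left (by linarith) (by positivity)
    have h6 : (1 - c - a) * (128 / Cm ^ 2 * T) ≤ 128 / Cm ^ 2 * T :=
      mul_le_of_le_one_left (by positivity) (by linarith)
    linarith
  rw [intervalIntegral.integral_sub intervalIntegrable_const iB, intervalIntegral.integral_const,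
    smul_eq_mul, mul_one] at hmono
  refine hA.good hv le_rfl hab le_rfl (X := K + 2 * (1 - c - a) - 2 * (21 / 100 * (a + c)) - (a + c) / 100) ?_
    (by linarith)
  have := pi_gt_d6
  have hlt := pi_lt_d6
  rcases le_total 0 k with e | e
  · refine beats_flat e (by linarith) ?_
    have : k / 3.141593 ≤ k / π := by gcongr
    norm_num at this
    linarith
  · refine beats_neg e ?_
    linarith

end

end Vale.Agent.P232.LemmaA
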