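import Vale.Agent.P232.Full.LemmaADisc
import Vale.Agent.P232.Full.LemmaACorner
import Vale.Agent.P232.Full.LemmaAData

/-!
# P232: the calibration for an axis of type A

Small areas use the chord of the disc length, the corner next to the slab an explicit affine function,
and the remaining rectangle a certificate of cells. The margin is positive except for ball, tube and
slab.
-/

namespace Vale.Agent.P232

open Set Real

namespace LemmaA

theorem cert_ok : check cert 0 50000000 37390000 100000000 = true := by decide +kernel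

theorem exists_gap {v a b : ℝ} (hv : 0 < v) (hv' : v ≤ 1 / 2) (ha : 0 ≤ a) (hav : a ≤ v)
    (hvb : v ≤ b) (hb : b ≤ 1) :
    ∃ ε, 0 ≤ ε ∧ GoodGap v a b ε ∧
      (a ≠ b → ¬ (a = 0 ∧ b = 1) →
        ¬ (a = 0 ∧ b ≤ areaDisc ∧ ∃ r, 0 < r ∧ b = π * r ^ 2 ∧ v = 4 * π * r ^ 3 / 3) → 0 < ε) := by
  rcases le_total b areaDisc with h | h
  · obtain ⟨ε, h0, h1, h2⟩ := goodA_disc ⟨hv, hv'⟩ ha hav hvb h
    exact ⟨ε, h0, h1, fun ha' _ hball => h2 ha' fun ⟨h3, h4⟩ => hball ⟨h3, h, h4⟩⟩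
  · refine check_good ⟨hv, hv'⟩
      (Q := fun a b => ∃ ε, 0 ≤ ε ∧ GoodGap v a b ε ∧ (a ≠ b → ¬ (a = 0 ∧ b = 1) →
        ¬ (a = 0 ∧ b ≤ areaDisc ∧ ∃ r, 0 < r ∧ b = π * r ^ 2 ∧ v = 4 * π * r ^ 3 / 3) → 0 < ε))
      (fun a b hg => ⟨_, by norm_num, hg, fun _ _ _ => by norm_num⟩) ?_ cert
      0 50000000 37390000 100000000 a b cert_ok ⟨?_, ?_⟩ ⟨?_, ?_⟩ ha hb (hav.trans hvb)
    · intro a b h0 h1 h2 h3
      refine ⟨_, div_nonneg (by linarith) (by norm_num), goodA_corner ⟨hv, hv'⟩ h0 h1 h2 h3,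
        fun _ hslab _ => div_pos ?_ (by norm_num)⟩
      rcases h0.eq_or_lt with e | e
      · rcases h3.eq_or_lt with e' | e'
        · exact absurd ⟨e.symm, e'⟩ hslab
        · linarith
      · linarith
    all_goals norm_num [rl, areaDisc] at h ⊢
    all_goals linarith

end LemmaA

/-- Every pair of end areas admits a calibration of type A. -/
theorem goodA {v a b : ℝ} (hv : 0 < v) (hv' : v ≤ 1 / 2) (ha : 0 ≤ a) (hav : a ≤ v) (hvb : v ≤ b)
    (hb : b ≤ 1) : GoodA v a b := by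
  obtain ⟨ε, h0, h1, -⟩ := LemmaA.exists_gap hv hv' ha hav hvb hb
  exact h1.good h0

/-- Away from the tube, the slab and the small ball the calibration beats the profile strictly. -/
theorem goodA_strict {v a b : ℝ} (hv : 0 < v) (hv' : v ≤ 1 / 2) (ha : 0 ≤ a) (hav : a ≤ v)
    (hvb : v ≤ b) (hb : b ≤ 1) (htube : a ≠ b) (hslab : ¬ (a = 0 ∧ b = 1))
    (hball : ¬ (a = 0 ∧ b ≤ LemmaA.areaDisc ∧ ∃ r, 0 < r ∧ b = π * r ^ 2 ∧ v = 4 * π * r ^ 3 / 3)) :
    ∃ (lam K : ℝ) (s : ℝ → ℝ), Continuous s ∧ (∀ A, s A ∈ Icc (0 : ℝ) 1) ∧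
      (∀ A ∈ Icc a b, lam * A + K ≤ √(1 - s A ^ 2) * lenA A) ∧
      ballTubeSlab v < lam * v + K + 2 * ∫ A in a..b, s A := by
  obtain ⟨ε, -, ⟨lam, K, s, h1, h2, h3, h4⟩, h5⟩ := LemmaA.exists_gap hv hv' ha hav hvb hb
  exact ⟨lam, K, s, h1, h2, h3, by linarith [h5 htube hslab hball]⟩

end Vale.Agent.P232
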