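import Vale.Agent.P232.Full.Defs

/-!
# P232, lemma A: affine majorants of the profile and affine calibrations

An affine function below the slice bound `lenA` has the calibration `sFun`; its square is concave, so
the chords of `sFun` bound it from below.
-/

namespace Vale.Agent.P232.LemmaA

open MeasureTheory Set Real

noncomputable section

/-- A calibration of type A whose value exceeds the profile by `ε`. -/
def GoodGap (v a b ε : ℝ) : Prop :=
  ∃ (lam K : ℝ) (s : ℝ → ℝ), Continuous s ∧ (∀ A, s A ∈ Icc (0 : ℝ) 1) ∧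
    (∀ A ∈ Icc a b, lam * A + K ≤ √(1 - s A ^ 2) * lenA A) ∧
    ballTubeSlab v + ε ≤ lam * v + K + 2 * ∫ A in a..b, s A

theorem GoodGap.good {v a b ε : ℝ} (h : GoodGap v a b ε) (hε : 0 ≤ ε) : GoodA v a b := by
  obtain ⟨lam, K, s, h1, h2, h3, h4⟩ := h
  exact ⟨lam, K, s, h1, h2, h3, by linarith⟩

/-- `k v + X` lies above the profile on `(0, 1/2]`. -/
def Beats (k X : ℝ) : Prop := ∀ v ∈ Ioc (0 : ℝ) (1 / 2), ballTubeSlab v ≤ k * v + X

theorem profile_eq {v : ℝ} (hv : v ≤ 1 / 2) : ballTubeSlab v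
    = min ((36 * π) ^ ((1 : ℝ) / 3) * v ^ ((2 : ℝ) / 3)) (min (2 * √(π * v)) 2) := by
  rw [ballTubeSlab, min_eq_left (by linarith : v ≤ 1 - v)]

theorem le_ball {v : ℝ} (hv : v ≤ 1 / 2) :
    ballTubeSlab v ≤ (36 * π) ^ ((1 : ℝ) / 3) * v ^ ((2 : ℝ) / 3) := by
  rw [profile_eq hv]; exact min_le_left _ _

theorem le_tube {v : ℝ} (hv : v ≤ 1 / 2) : ballTubeSlab v ≤ 2 * √(π * v) := by
  rw [profile_eq hv]; exact (min_le_right _ _).trans (min_le_left _ _)

theorem le_two {v : ℝ} (hv : v ≤ 1 / 2) : ballTubeSlab v ≤ 2 := by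
  rw [profile_eq hv]; exact (min_le_right _ _).trans (min_le_right _ _)

theorem tube_tangent {v k : ℝ} (hk : 0 < k) (hv : 0 ≤ v) : 2 * √(π * v) ≤ k * v + π / k := by
  have h1 : √(π * v) = √(k * v) * √(π / k) := by
    rw [← Real.sqrt_mul (by positivity)]
    congr 1
    field_simp
  have h2 := two_mul_le_add_sq √(k * v) √(π / k)
  rw [Real.sq_sqrt (by positivity), Real.sq_sqrt (by positivity)] at h2
  linarith

theorem ball_tangent {v k : ℝ} (hk : 0 < k) (hv : 0 ≤ v) :
    (36 * π) ^ ((1 : ℝ) / 3) * v ^ ((2 : ℝ) / 3) ≤ k * v + 16 * π / (3 * k ^ 2) := by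
  set β := (36 * π) ^ ((1 : ℝ) / 3) with hβ
  set u := v ^ ((1 : ℝ) / 3) with hu
  have hβ0 : 0 ≤ β := by positivity
  have hu0 : 0 ≤ u := by positivity
  have hβ3 : β ^ 3 = 36 * π := by
    rw [hβ, ← rpow_natCast, ← rpow_mul (by positivity)]; norm_num
  have hu3 : u ^ 3 = v := by
    rw [hu, ← rpow_natCast, ← rpow_mul hv]; norm_num
  have hu2 : v ^ ((2 : ℝ) / 3) = u ^ 2 := by
    rw [hu, ← rpow_natCast (n := 2), ← rpow_mul hv]; norm_num
  rw [hu2, show k * v + 16 * π / (3 * k ^ 2) = (27 * k ^ 3 * u ^ 3 + 4 * β ^ 3) / (27 * k ^ 2) by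
    rw [hu3, hβ3]; field_simp; ring, le_div_iff₀ (by positivity)]
  nlinarith [mul_nonneg (sq_nonneg (3 * k * u - 2 * β)) (by positivity : 0 ≤ 3 * k * u + β)]

theorem ball_tangent_lt {v k : ℝ} (hk : 0 < k) (hv : 0 ≤ v) (hne : v ≠ 32 * π / (3 * k ^ 3)) :
    (36 * π) ^ ((1 : ℝ) / 3) * v ^ ((2 : ℝ) / 3) < k * v + 16 * π / (3 * k ^ 2) := by
  refine lt_of_le_of_ne (ball_tangent hk hv) fun heq => hne ?_
  set β := (36 * π) ^ ((1 : ℝ) / 3) with hβ
  set u := v ^ ((1 : ℝ) / 3) with hu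
  have hu0 : 0 ≤ u := by positivity
  have hβ0 : 0 < β := by positivity
  have hβ3 : β ^ 3 = 36 * π := by
    rw [hβ, ← rpow_natCast, ← rpow_mul (by positivity)]; norm_num
  have hu3 : u ^ 3 = v := by
    rw [hu, ← rpow_natCast, ← rpow_mul hv]; norm_num
  have hu2 : v ^ ((2 : ℝ) / 3) = u ^ 2 := by
    rw [hu, ← rpow_natCast (n := 2), ← rpow_mul hv]; norm_num
  rw [hu2] at heq
  have h2 : (3 * k * u - 2 * β) ^ 2 * (3 * k * u + β) = 0 := by
    have h3 : (k * v + 16 * π / (3 * k ^ 2)) * (27 * k ^ 2) = 27 * k ^ 3 * u ^ 3 + 4 * β ^ 3 := by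
      rw [hu3, hβ3]; field_simp; ring
    rw [← heq] at h3
    linear_combination -h3
  have h4 : 0 < 3 * k * u + β := by positivity
  have h5 : 3 * k * u - 2 * β = 0 := by
    rcases mul_eq_zero.1 h2 with h6 | h6
    · exact pow_eq_zero_iff two_ne_zero |>.1 h6
    · linarith
  have h6 : u = 2 * β / (3 * k) := by field_simp; linarith
  rw [← hu3, h6, div_pow, mul_pow, hβ3]
  field_simp
  ring

theorem beats_tube {k X : ℝ} (hk : 0 < k) (hX : π / k ≤ X) : Beats k X := fun v hv =>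
  (le_tube hv.2).trans ((tube_tangent hk hv.1.le).trans (by linarith))

theorem beats_ball {k X : ℝ} (hk : 0 < k) (hX : 16 * π / (3 * k ^ 2) ≤ X) : Beats k X := fun v hv =>
  (le_ball hv.2).trans ((ball_tangent hk hv.1.le).trans (by linarith))

/-- Slopes between the two tangents at the crossing of ball and tube. -/
theorem beats_corner {k X : ℝ} (hk : 9 / 2 ≤ k) (hk' : k ≤ 6) (hX : 4 * π / 81 * (9 - k) ≤ X) :
    Beats k X := by
  intro v hv
  have h1 := (le_ball hv.2).trans (ball_tangent (show (0 : ℝ) < 6 by norm_num) hv.1.le)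
  have h2 := (le_tube hv.2).trans (tube_tangent (show (0 : ℝ) < 9 / 2 by norm_num) hv.1.le)
  have h3 := mul_le_mul_of_nonneg_left h1 (show 0 ≤ (2 * k - 9) / 3 by linarith)
  have h4 := mul_le_mul_of_nonneg_left h2 (show 0 ≤ (12 - 2 * k) / 3 by linarith)
  nlinarith

theorem beats_flat {k X : ℝ} (hk : 0 ≤ k) (hk' : k ≤ π) (hX : 2 - k / π ≤ X) : Beats k X := by
  intro v hv
  rcases le_total v (1 / π) with h | h
  · have h1 := (le_tube hv.2).trans (tube_tangent pi_pos hv.1.le)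
    have h2 := mul_le_mul_of_nonneg_left h (show 0 ≤ π - k by linarith)
    rw [div_self pi_pos.ne'] at h1
    have h3 : (π - k) * (1 / π) = 1 - k / π := by field_simp
    linarith
  · have h1 := mul_le_mul_of_nonneg_left h hk
    have h2 : k * (1 / π) = k / π := by ring
    linarith [le_two hv.2]

theorem beats_neg {k X : ℝ} (hk : k ≤ 0) (hX : 2 - k / 2 ≤ X) : Beats k X := by
  intro v hv
  have := mul_le_mul_of_nonpos_left hv.2 hk
  linarith [le_two hv.2]

/-- A rational lower bound for `4 π`. -/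
def P4 : ℝ := 4 * (3141592 / 1000000)

/-- A rational lower bound for `lenA` in the middle. -/
def Cm : ℝ := 2167 / 1000

theorem P4_pos : 0 < P4 := by norm_num [P4]

theorem P4_le : P4 ≤ 4 * π := by have := pi_gt_d6; rw [P4]; linarith

theorem sqrt_P4_le {A : ℝ} (hA : 0 ≤ A) : √(P4 * A) ≤ discLen A := by
  rw [discLen, show (2 : ℝ) * √(π * A) = √(4 * (π * A)) by
    rw [Real.sqrt_mul (by norm_num : (0 : ℝ) ≤ 4), show (4 : ℝ) = 2 ^ 2 by norm_num,
      Real.sqrt_sq (by norm_num : (0 : ℝ) ≤ 2)]]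
  exact Real.sqrt_le_sqrt (by nlinarith [P4_le])

/-- Below this area `lenA` is the length of a disc. -/
def areaDisc : ℝ := 3739 / 10000

theorem discLen_le_line {A : ℝ} (hA : 0 ≤ A) (hA' : A ≤ areaDisc) :
    discLen A ≤ (A - 3 / 25) / (13 / 20) + 889 / 500 := by
  rw [areaDisc] at hA'
  have h0 : 0 ≤ (A - 3 / 25) / (13 / 20) + 889 / 500 := by
    have : (-3 / 25) / (13 / 20) ≤ (A - 3 / 25) / (13 / 20) := by gcongr; linarith
    norm_num at this ⊢
    linarith
  rw [discLen, ← le_div_iff₀' (by norm_num : (0 : ℝ) < 2), Real.sqrt_le_left (by linarith)]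
  have := pi_lt_d6
  nlinarith [mul_nonneg hA (show 0 ≤ 3.141593 - π by linarith)]

theorem lenA_of_le {A : ℝ} (hA : 0 ≤ A) (hA' : A ≤ areaDisc) : lenA A = discLen A := by
  have h1 : discLen A ≤ discLen (1 - A) := by
    rw [areaDisc] at hA'
    exact mul_le_mul_of_nonneg_left (Real.sqrt_le_sqrt (by nlinarith [pi_pos])) (by norm_num)
  rw [lenA, min_eq_left (le_min h1 (discLen_le_line hA hA'))]

theorem lenA_ge {A : ℝ} (hA : A ∈ Icc (0 : ℝ) 1) :
    √(P4 * A) ≤ lenA A ∨ Cm ≤ lenA A ∨ √(P4 * (1 - A)) ≤ lenA A := by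
  rcases le_total A areaDisc with h | h
  · exact Or.inl (lenA_of_le hA.1 h ▸ sqrt_P4_le hA.1)
  · have hl : Cm ≤ (A - 3 / 25) / (13 / 20) + 889 / 500 := by
      rw [areaDisc] at h
      have : (3739 / 10000 - 3 / 25 : ℝ) / (13 / 20) ≤ (A - 3 / 25) / (13 / 20) := by gcongr
      rw [Cm]; norm_num at this ⊢; linarith
    rcases min_choice (discLen A) (min (discLen (1 - A)) ((A - 3 / 25) / (13 / 20) + 889 / 500))
      with e | e
    · exact Or.inl (by rw [lenA, e]; exact sqrt_P4_le hA.1)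
    · rcases min_choice (discLen (1 - A)) ((A - 3 / 25) / (13 / 20) + 889 / 500) with e' | e'
      · exact Or.inr (Or.inr (by rw [lenA, e, e']; exact sqrt_P4_le (sub_nonneg.2 hA.2)))
      · exact Or.inr (Or.inl (by rw [lenA, e, e']; exact hl))

/-- `(ℓ / L)²` for the affine `ℓ A = k A + K`. -/
def qFun (k K A : ℝ) : ℝ :=
  max ((k * A + K) ^ 2 / (P4 * A))
    (max ((k * A + K) ^ 2 / Cm ^ 2) ((k * A + K) ^ 2 / (P4 * (1 - A))))

/-- The calibration of an affine function. -/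
def sFun (k K A : ℝ) : ℝ := √(1 - qFun k K A)

/-- The three bounds at a point. -/
def Below (k K w A : ℝ) : Prop :=
  (k * A + K) ^ 2 ≤ w * (P4 * A) ∧ (k * A + K) ^ 2 ≤ w * Cm ^ 2 ∧
    (k * A + K) ^ 2 ≤ w * (P4 * (1 - A))

theorem div_le_of_le_mul' {N X w : ℝ} (_hN : 0 ≤ N) (hX : 0 ≤ X) (hw : 0 ≤ w) (h : N ≤ w * X) :
    N / X ≤ w := by
  rcases hX.eq_or_lt with e | e
  · rw [← e, div_zero]; exact hw
  · rwa [div_le_iff₀ e]

theorem qFun_le {k K w A : ℝ} (hA : A ∈ Icc (0 : ℝ) 1) (hw : 0 ≤ w) (h : Below k K w A) :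
    qFun k K A ≤ w := by
  have := P4_pos
  exact max_le (div_le_of_le_mul' (sq_nonneg _) (mul_nonneg P4_pos.le hA.1) hw h.1)
    (max_le (div_le_of_le_mul' (sq_nonneg _) (sq_nonneg _) hw h.2.1)
      (div_le_of_le_mul' (sq_nonneg _) (mul_nonneg P4_pos.le (sub_nonneg.2 hA.2)) hw h.2.2))

theorem qFun_nonneg {k K A : ℝ} : 0 ≤ qFun k K A :=
  le_max_of_le_right (le_max_of_le_left (div_nonneg (sq_nonneg _) (sq_nonneg _)))

/-- The affine function is admissible on `[p, q]`. -/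
structure Adm (k K p q : ℝ) : Prop where
  nonneg : 0 ≤ p
  le : p ≤ q
  le_one : q ≤ 1
  left : Below k K 1 p
  right : Below k K 1 q

variable {k K p q : ℝ}

theorem Adm.mem (h : Adm k K p q) {A : ℝ} (hA : A ∈ Icc p q) : A ∈ Icc (0 : ℝ) 1 :=
  ⟨h.nonneg.trans hA.1, hA.2.trans h.le_one⟩

theorem exists_comb {A : ℝ} (hA : A ∈ Icc p q) :
    ∃ t ∈ Icc (0 : ℝ) 1, A = (1 - t) * p + t * q := by
  rcases (hA.1.trans hA.2).eq_or_lt with e | e
  · exact ⟨0, by norm_num, by linarith [hA.1, hA.2]⟩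
  · refine ⟨(A - p) / (q - p), ⟨div_nonneg (by linarith [hA.1]) (by linarith),
      (div_le_one (by linarith)).2 (by linarith [hA.2])⟩, ?_⟩
    have : q - p ≠ 0 := by linarith
    field_simp
    ring

theorem Adm.below (h : Adm k K p q) {A : ℝ} (hA : A ∈ Icc p q) : Below k K 1 A := by
  obtain ⟨t, ⟨ht, ht'⟩, rfl⟩ := exists_comb hA
  obtain ⟨a1, a2, a3⟩ := h.left
  obtain ⟨b1, b2, b3⟩ := h.right
  have e : k * ((1 - t) * p + t * q) + K = (1 - t) * (k * p + K) + t * (k * q + K) := by ring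
  have hsq : (k * ((1 - t) * p + t * q) + K) ^ 2
      ≤ (1 - t) * (k * p + K) ^ 2 + t * (k * q + K) ^ 2 := by
    rw [e]
    nlinarith [mul_nonneg (mul_nonneg ht (sub_nonneg.2 ht')) (sq_nonneg (k * p - k * q))]
  refine ⟨hsq.trans ?_, hsq.trans ?_, hsq.trans ?_⟩ <;>
    nlinarith [mul_le_mul_of_nonneg_left a1 (sub_nonneg.2 ht'), mul_le_mul_of_nonneg_left b1 ht,
      mul_le_mul_of_nonneg_left a2 (sub_nonneg.2 ht'), mul_le_mul_of_nonneg_left b2 ht,
      mul_le_mul_of_nonneg_left a3 (sub_nonneg.2 ht'), mul_le_mul_of_nonneg_left b3 ht]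

theorem Adm.qFun_le_one (h : Adm k K p q) {A : ℝ} (hA : A ∈ Icc p q) : qFun k K A ≤ 1 :=
  qFun_le (h.mem hA) zero_le_one (h.below hA)

theorem div_convex {U W X Y t : ℝ} (ht : 0 ≤ t) (ht' : t ≤ 1) (hX : 0 ≤ X) (hY : 0 ≤ Y)
    (hU : X = 0 → U = 0) (hW : Y = 0 → W = 0) :
    ((1 - t) * U + t * W) ^ 2 / ((1 - t) * X + t * Y) ≤ (1 - t) * (U ^ 2 / X) + t * (W ^ 2 / Y) := by
  have h1 : 0 ≤ 1 - t := sub_nonneg.2 ht'
  refine div_le_of_le_mul' (sq_nonneg _) (by positivity) (by positivity) ?_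
  rcases hX.eq_or_lt with e | e
  · subst e
    rw [hU rfl]
    rcases hY.eq_or_lt with e' | e'
    · subst e'; rw [hW rfl]; simp
    · refine le_of_eq ?_
      field_simp
      ring
  · rcases hY.eq_or_lt with e' | e'
    · subst e'
      rw [hW rfl]
      refine le_of_eq ?_
      field_simp
      ring
    · have e3 : ((1 - t) * (U ^ 2 / X) + t * (W ^ 2 / Y)) * ((1 - t) * X + t * Y)
          - ((1 - t) * U + t * W) ^ 2 = (1 - t) * t * (U * Y - W * X) ^ 2 / (X * Y) := by
        field_simp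
        ring
      have : 0 ≤ (1 - t) * t * (U * Y - W * X) ^ 2 / (X * Y) := by positivity
      linarith

theorem Adm.zero_of_left (h : Adm k K p q) {A : ℝ} (hA : A ∈ Icc p q) (h0 : P4 * A = 0) :
    k * A + K = 0 := by
  have := (h.below hA).1
  rw [h0, mul_zero] at this
  exact pow_eq_zero_iff two_ne_zero |>.1 (le_antisymm this (sq_nonneg _))

theorem Adm.zero_of_right (h : Adm k K p q) {A : ℝ} (hA : A ∈ Icc p q) (h0 : P4 * (1 - A) = 0) :
    k * A + K = 0 := by
  have := (h.below hA).2.2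
  rw [h0, mul_zero] at this
  exact pow_eq_zero_iff two_ne_zero |>.1 (le_antisymm this (sq_nonneg _))

theorem Adm.qFun_convex (h : Adm k K p q) {x y t : ℝ} (hx : x ∈ Icc p q) (hy : y ∈ Icc p q)
    (ht : 0 ≤ t) (ht' : t ≤ 1) :
    qFun k K ((1 - t) * x + t * y) ≤ (1 - t) * qFun k K x + t * qFun k K y := by
  have h1 : 0 ≤ 1 - t := sub_nonneg.2 ht'
  have mx := h.mem hx
  have my := h.mem hy
  have hP := P4_pos
  have key : ∀ X Y : ℝ, ((k * x + K) ^ 2 / X ≤ qFun k K x ∧ (k * y + K) ^ 2 / Y ≤ qFun k K y) →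
      0 ≤ X → 0 ≤ Y → (X = 0 → k * x + K = 0) → (Y = 0 → k * y + K = 0) →
      (k * ((1 - t) * x + t * y) + K) ^ 2 / ((1 - t) * X + t * Y)
        ≤ (1 - t) * qFun k K x + t * qFun k K y := by
    intro X Y hb hX hY hU hW
    have e : k * ((1 - t) * x + t * y) + K = (1 - t) * (k * x + K) + t * (k * y + K) := by ring
    rw [e]
    exact (div_convex ht ht' hX hY hU hW).trans
      (add_le_add (mul_le_mul_of_nonneg_left hb.1 h1) (mul_le_mul_of_nonneg_left hb.2 ht))
  refine max_le ?_ (max_le ?_ ?_)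
  · rw [show P4 * ((1 - t) * x + t * y) = (1 - t) * (P4 * x) + t * (P4 * y) by ring]
    exact key _ _ ⟨le_max_left _ _, le_max_left _ _⟩ (mul_nonneg hP.le mx.1) (mul_nonneg hP.le my.1)
      (h.zero_of_left hx) (h.zero_of_left hy)
  · rw [show Cm ^ 2 = (1 - t) * Cm ^ 2 + t * Cm ^ 2 by ring]
    exact key _ _ ⟨le_max_of_le_right (le_max_left _ _), le_max_of_le_right (le_max_left _ _)⟩
      (sq_nonneg _) (sq_nonneg _) (fun e => absurd e (by norm_num [Cm]))
      (fun e => absurd e (by norm_num [Cm]))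
  · rw [show P4 * (1 - ((1 - t) * x + t * y)) = (1 - t) * (P4 * (1 - x)) + t * (P4 * (1 - y)) by ring]
    exact key _ _ ⟨le_max_of_le_right (le_max_right _ _), le_max_of_le_right (le_max_right _ _)⟩
      (mul_nonneg hP.le (sub_nonneg.2 mx.2)) (mul_nonneg hP.le (sub_nonneg.2 my.2))
      (h.zero_of_right hx) (h.zero_of_right hy)

theorem Adm.continuousOn (h : Adm k K p q) : ContinuousOn (sFun k K) (Icc p q) := by
  have hl : ContinuousOn (fun A => (k * A + K) ^ 2) (Icc p q) := by fun_prop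
  refine (continuousOn_const.sub (continuous_max.comp_continuousOn
    (ContinuousOn.prodMk ?_ (continuous_max.comp_continuousOn ((hl.div_const _).prodMk ?_))))).sqrt
  · rcases h.nonneg.eq_or_lt with e | e
    · subst e
      have hK : K = 0 := by simpa using h.zero_of_left (left_mem_Icc.2 h.le) (mul_zero _)
      refine (show ContinuousOn (fun A => k ^ 2 * A / P4) (Icc 0 q) by fun_prop).congr fun A _ => ?_
      rcases eq_or_ne A 0 with rfl | hne
      · simp [hK]
      · rw [hK]; field_simp; ring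
    · exact hl.div (by fun_prop) fun A hA => ne_of_gt (mul_pos P4_pos (e.trans_le hA.1))
  · rcases h.le_one.eq_or_lt with e | e
    · subst e
      have hK : k + K = 0 := by
        simpa using h.zero_of_right (right_mem_Icc.2 h.le) (by simp)
      refine (show ContinuousOn (fun A => K ^ 2 * (1 - A) / P4) (Icc p 1) by fun_prop).congr
        fun A _ => ?_
      rcases eq_or_ne A 1 with rfl | hne
      · simp [hK]
      · rw [show k = -K by linarith]
        have : (1 : ℝ) - A ≠ 0 := sub_ne_zero.2 hne.symm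
        field_simp
        ring
    · exact hl.div (by fun_prop) fun A hA => ne_of_gt (mul_pos P4_pos (by linarith [hA.2]))

theorem sFun_mem (A : ℝ) : sFun k K A ∈ Icc (0 : ℝ) 1 :=
  ⟨Real.sqrt_nonneg _, Real.sqrt_le_one.2 (by linarith [qFun_nonneg (k := k) (K := K) (A := A)])⟩

theorem Adm.valid (h : Adm k K p q) {A : ℝ} (hA : A ∈ Icc p q) :
    k * A + K ≤ √(1 - sFun k K A ^ 2) * lenA A := by
  have hq := h.qFun_le_one hA
  rw [sFun, Real.sq_sqrt (sub_nonneg.2 hq), sub_sub_cancel]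
  have key : ∀ X : ℝ, 0 ≤ X → (X = 0 → k * A + K = 0) → (k * A + K) ^ 2 / X ≤ qFun k K A →
      √X ≤ lenA A → k * A + K ≤ √(qFun k K A) * lenA A := by
    intro X hX h0 hle hlen
    refine le_trans ?_ (mul_le_mul_of_nonneg_left hlen (Real.sqrt_nonneg _))
    rw [← Real.sqrt_mul qFun_nonneg]
    rcases hX.eq_or_lt with e | e
    · rw [h0 e.symm]; exact Real.sqrt_nonneg _
    · exact Real.le_sqrt_of_sq_le ((div_le_iff₀ e).1 hle)
  rcases lenA_ge (h.mem hA) with e | e | e
  · exact key _ (mul_nonneg P4_pos.le (h.mem hA).1) (h.zero_of_left hA) (le_max_left _ _) e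
  · exact key _ (sq_nonneg Cm) (fun e' => absurd e' (by norm_num [Cm]))
      (le_max_of_le_right (le_max_left _ _))
      (by rwa [Real.sqrt_sq (by norm_num [Cm] : (0 : ℝ) ≤ Cm)])
  · exact key _ (mul_nonneg P4_pos.le (sub_nonneg.2 (h.mem hA).2)) (h.zero_of_right hA)
      (le_max_of_le_right (le_max_right _ _)) e

theorem Adm.integrable (h : Adm k K p q) {x y : ℝ} (hx : p ≤ x) (hxy : x ≤ y) (hy : y ≤ q) :
    IntervalIntegrable (sFun k K) volume x y :=
  (h.continuousOn.mono (Icc_subset_Icc hx hy)).intervalIntegrable_of_Icc hxy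

/-- An admissible affine function whose value beats the profile gives a calibration. -/
theorem Adm.good (h : Adm k K p q) {v a b X ε : ℝ} (hv : v ∈ Ioc (0 : ℝ) (1 / 2)) (ha : p ≤ a)
    (hab : a ≤ b) (hb : b ≤ q) (hB : Beats k X) (hX : X + ε ≤ K + 2 * ∫ A in a..b, sFun k K A) :
    GoodGap v a b ε := by
  refine ⟨k, K, Set.IccExtend h.le fun x => sFun k K x.1, ?_, fun A => sFun_mem _, fun A hA => ?_, ?_⟩
  · exact (continuousOn_iff_continuous_domRestrict.1 h.continuousOn).comp continuous_projIcc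
  · have hA' : A ∈ Icc p q := ⟨ha.trans hA.1, hA.2.trans hb⟩
    rw [Set.IccExtend_of_mem h.le (fun x => sFun k K x.1) hA']
    exact h.valid hA'
  · have e : ∫ A in a..b, Set.IccExtend h.le (fun x => sFun k K x.1) A
        = ∫ A in a..b, sFun k K A := intervalIntegral.integral_congr fun A hA => by
      rw [uIcc_of_le hab] at hA
      exact Set.IccExtend_of_mem h.le (fun x => sFun k K x.1) ⟨ha.trans hA.1, hA.2.trans hb⟩
    rw [e]
    linarith [hB v hv]

/-- The chord bound. -/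
theorem Adm.trapezoid (h : Adm k K p q) {x y σ τ : ℝ} (hx : p ≤ x) (hxy : x ≤ y) (hy : y ≤ q)
    (hqσ : qFun k K x ≤ 1 - σ ^ 2) (hqτ : qFun k K y ≤ 1 - τ ^ 2) :
    (y - x) * (σ + τ) ≤ 2 * ∫ A in x..y, sFun k K A := by
  rcases hxy.eq_or_lt with e | e
  · subst e; simp
  · have hne : y - x ≠ 0 := by linarith
    have hlow : ∀ A ∈ Icc x y, σ + (τ - σ) / (y - x) * (A - x) ≤ sFun k K A := by
      intro A hA
      obtain ⟨t, ⟨ht, ht'⟩, rfl⟩ := exists_comb hA
      have e1 : σ + (τ - σ) / (y - x) * ((1 - t) * x + t * y - x) = (1 - t) * σ + t * τ := by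
        field_simp
        ring
      rw [e1]
      refine Real.le_sqrt_of_sq_le ?_
      have h2 := h.qFun_convex (x := x) (y := y) ⟨hx, hxy.trans hy⟩ ⟨hx.trans hxy, hy⟩ ht ht'
      nlinarith [mul_le_mul_of_nonneg_left hqσ (sub_nonneg.2 ht'), mul_le_mul_of_nonneg_left hqτ ht,
        mul_nonneg (mul_nonneg ht (sub_nonneg.2 ht')) (sq_nonneg (σ - τ))]
    have hlin : Continuous fun A => σ + (τ - σ) / (y - x) * (A - x) := by fun_prop
    have hmono := intervalIntegral.integral_mono_on hxy (hlin.intervalIntegrable x y)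
      (h.integrable hx hxy hy) hlow
    have hi : ∫ A in x..y, (σ + (τ - σ) / (y - x) * (A - x)) = (y - x) * (σ + τ) / 2 := by
      rw [intervalIntegral.integral_add intervalIntegrable_const
        ((by fun_prop : Continuous fun A => (τ - σ) / (y - x) * (A - x)).intervalIntegrable x y),
        intervalIntegral.integral_const_mul, intervalIntegral.integral_sub
          (continuous_id'.intervalIntegrable x y) intervalIntegrable_const,
        integral_id, intervalIntegral.integral_const, intervalIntegral.integral_const,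
        smul_eq_mul, smul_eq_mul]
      field_simp
      ring
    linarith

theorem Adm.integral_mono (h : Adm k K p q) {a a' b' b : ℝ} (ha : p ≤ a) (h1 : a ≤ a') (h2 : a' ≤ b')
    (h3 : b' ≤ b) (hb : b ≤ q) :
    ∫ A in a'..b', sFun k K A ≤ ∫ A in a..b, sFun k K A :=
  intervalIntegral.integral_mono_interval h1 h2 h3
    (Filter.Eventually.of_forall fun A => (sFun_mem A).1)
    (h.integrable ha (h1.trans (h2.trans h3)) hb)

end

end Vale.Agent.P232.LemmaA
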