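import Vale.Agent.P232.Full.LemmaABasic

/-!
# P232, lemma A: a certificate on a tree of cells

All numbers have denominator `10⁸`. A leaf `cell` is an affine function admissible for the whole cell
together with nodes at which `sFun` is bounded below; the rule says which majorant of the profile it
beats.
-/

namespace Vale.Agent.P232.LemmaA

open MeasureTheory Set Real

/-- The certificates. -/
inductive Cert where
  | nodeA (m : ℤ) (l r : Cert)
  | nodeB (m : ℤ) (l r : Cert)
  | cell (k K : ℤ) (rule : ℕ) (pts : List (ℤ × ℤ))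
  | corner
  | empty

/-- The denominator. -/
def den : ℤ := 100000000

/-- `qFun ≤ 1 - S²` at `A`, for the affine function with value `l / den²`. -/
def okPt (A l S : ℤ) : Bool :=
  decide (S ≤ den) && decide (0 ≤ S) &&
  (decide (l * l * 1000000 ≤ (den * den - S * S) * 12566368 * A * den) &&
   decide (l * l * 1000000 ≤ (den * den - S * S) * 4695889 * den * den) &&
   decide (l * l * 1000000 ≤ (den * den - S * S) * 12566368 * (den - A) * den))

/-- The nodes increase inside `[a1, b0]` and are valid. -/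
def okList (k K a1 b0 : ℤ) : List (ℤ × ℤ) → Bool
  | [] => true
  | [p] => decide (a1 ≤ p.1) && decide (p.1 ≤ b0) && okPt p.1 (k * p.1 + K * den) p.2
  | p :: p' :: r => decide (a1 ≤ p.1) && decide (p.1 ≤ p'.1) &&
      okPt p.1 (k * p.1 + K * den) p.2 && okList k K a1 b0 (p' :: r)

/-- Twice the trapezoidal sum, over `den²`. -/
def trap : List (ℤ × ℤ) → ℤ
  | [] => 0
  | [_] => 0
  | p :: p' :: r => (p'.1 - p.1) * (p.2 + p'.2) + trap (p' :: r)

/-- `k v + X / den²` is above the profile. -/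
def okRule (k X : ℤ) : ℕ → Bool
  | 0 => decide (k ≤ 0) && decide (4 * den * den ≤ 2 * X + k * den)
  | 1 => decide (0 ≤ k) && decide (k * 1000000 ≤ 3141592 * den) &&
      decide (0 ≤ (X - 2 * den * den) * 3141593 + k * den * 1000000)
  | 2 => decide (0 < k) && decide (3141593 * den * den * den ≤ X * k * 1000000)
  | 3 => decide (0 < k) && decide (16 * 3141593 * den * den * den * den ≤ 3 * k * k * X * 1000000)
  | 4 => decide (9 * den ≤ 2 * k) && decide (k ≤ 6 * den) &&
      decide (4 * 3141593 * (9 * den - k) * den ≤ 81 * X * 1000000)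
  | _ => false

/-- The checker on `[a0, a1] × [b0, b1]`. -/
def check : Cert → ℤ → ℤ → ℤ → ℤ → Bool
  | .nodeA m l r, a0, a1, b0, b1 => check l a0 m b0 b1 && check r m a1 b0 b1
  | .nodeB m l r, a0, a1, b0, b1 => check l a0 a1 b0 m && check r a0 a1 m b1
  | .cell k K rule pts, a0, a1, b0, b1 =>
      decide (0 ≤ a0) && decide (a0 ≤ b1) && decide (b1 ≤ den) &&
      (okPt a0 (k * a0 + K * den) 0 && okPt b1 (k * b1 + K * den) 0) &&
      okList k K a1 b0 pts && okRule k (K * den + trap pts - 1) rule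
  | .corner, _, a1, b0, _ => decide (a1 ≤ 10000) && decide (den - 10000 ≤ b0)
  | .empty, a0, _, _, b1 => decide (b1 < a0)

noncomputable section

/-- The real number of a numerator. -/
def rl (n : ℤ) : ℝ := n / 100000000

theorem rl_le {m n : ℤ} (h : m ≤ n) : rl m ≤ rl n :=
  div_le_div_of_nonneg_right (Int.cast_le.2 h) (by norm_num)

theorem okPt_spec {k K A S : ℤ} (h : okPt A (k * A + K * den) S = true) :
    0 ≤ rl S ∧ rl S ≤ 1 ∧ Below (rl k) (rl K) (1 - rl S ^ 2) (rl A) := by
  simp only [okPt, Bool.and_eq_true, decide_eq_true_eq] at h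
  simp only [den] at h
  obtain ⟨⟨hS, hS0⟩, ⟨h1, h2⟩, h3⟩ := h
  have hS' : (S : ℝ) ≤ 100000000 := by exact_mod_cast hS
  have hS0' : (0 : ℝ) ≤ S := by exact_mod_cast hS0
  have h1' := (Int.cast_le (R := ℝ)).2 h1
  have h2' := (Int.cast_le (R := ℝ)).2 h2
  have h3' := (Int.cast_le (R := ℝ)).2 h3
  push_cast at h1' h2' h3'
  refine ⟨by rw [rl]; positivity, ?_, ?_, ?_, ?_⟩
  · rw [rl, div_le_one (by norm_num)]; exact hS'
  all_goals
    simp only [rl, P4, Cm]
    field_simp
    linarith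

theorem okList_spec {k K : ℤ} {p q : ℝ} (hA : Adm (rl k) (rl K) p q) {a1 b0 : ℤ} :
    ∀ (r : List (ℤ × ℤ)) (x : ℤ × ℤ), p ≤ rl a1 → rl b0 ≤ q → okList k K a1 b0 (x :: r) = true →
      a1 ≤ x.1 ∧ x.1 ≤ b0 ∧ qFun (rl k) (rl K) (rl x.1) ≤ 1 - rl x.2 ^ 2 ∧
      (trap (x :: r) : ℝ) / 10000000000000000 ≤ 2 * ∫ A in rl x.1..rl b0, sFun (rl k) (rl K) A := by
  have hq : ∀ x : ℤ × ℤ, p ≤ rl x.1 → rl x.1 ≤ q →
      okPt x.1 (k * x.1 + K * den) x.2 = true → qFun (rl k) (rl K) (rl x.1) ≤ 1 - rl x.2 ^ 2 := by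
    intro x h1 h2 h
    obtain ⟨s0, s1, hb⟩ := okPt_spec h
    exact qFun_le (hA.mem ⟨h1, h2⟩) (by nlinarith) hb
  intro r
  induction r with
  | nil =>
    intro x hp hq' h
    simp only [okList, Bool.and_eq_true, decide_eq_true_eq] at h
    obtain ⟨⟨h1, h2⟩, h3⟩ := h
    refine ⟨h1, h2, hq x (hp.trans (rl_le h1)) ((rl_le h2).trans hq') h3, ?_⟩
    simp only [trap, Int.cast_zero, zero_div]
    exact mul_nonneg zero_le_two (intervalIntegral.integral_nonneg (rl_le h2) fun A _ => (sFun_mem A).1)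
  | cons y r ih =>
    intro x hp hq' h
    simp only [okList, Bool.and_eq_true, decide_eq_true_eq] at h
    obtain ⟨⟨⟨h1, h2⟩, h3⟩, h4⟩ := h
    obtain ⟨-, hy0, hy2, hy3⟩ := ih y hp hq' h4
    have hx1 : p ≤ rl x.1 := hp.trans (rl_le h1)
    have hy1 : rl y.1 ≤ q := (rl_le hy0).trans hq'
    have hxq := hq x hx1 ((rl_le h2).trans hy1) h3
    refine ⟨h1, h2.trans hy0, hxq, ?_⟩
    have htr := hA.trapezoid hx1 (rl_le h2) hy1 hxq hy2
    rw [← intervalIntegral.integral_add_adjacent_intervals (hA.integrable hx1 (rl_le h2) hy1)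
      (hA.integrable (hx1.trans (rl_le h2)) (rl_le hy0) hq')]
    simp only [rl] at htr hy3 ⊢
    simp only [trap, Int.cast_add, Int.cast_mul, Int.cast_sub] at hy3 ⊢
    linarith

theorem okRule_spec {k X : ℤ} {n : ℕ} (h : okRule k X n = true) :
    Beats (rl k) ((X : ℝ) / 10000000000000000) := by
  match n, h with
  | 0, h =>
    simp only [okRule, Bool.and_eq_true, decide_eq_true_eq] at h
    simp only [den] at h
    have h1 : (k : ℝ) ≤ 0 := by exact_mod_cast h.1
    have h2 := (Int.cast_le (R := ℝ)).2 h.2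
    push_cast at h2
    refine beats_neg (div_nonpos_of_nonpos_of_nonneg h1 (by norm_num)) ?_
    simp only [rl]
    linarith
  | 1, h =>
    simp only [okRule, Bool.and_eq_true, decide_eq_true_eq] at h
    simp only [den] at h
    obtain ⟨⟨h1, h2⟩, h3⟩ := h
    have h1' : (0 : ℝ) ≤ k := by exact_mod_cast h1
    have h2' := (Int.cast_le (R := ℝ)).2 h2
    have h3' := (Int.cast_le (R := ℝ)).2 h3
    push_cast at h2' h3'
    have := pi_gt_d6
    have := pi_lt_d6
    refine beats_flat (div_nonneg h1' (by norm_num)) ?_ ?_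
    · simp only [rl]; linarith
    · simp only [rl]
      have hd : (k : ℝ) / 100000000 / 3.141593 ≤ (k : ℝ) / 100000000 / π := by gcongr
      norm_num at hd
      linarith
  | 2, h =>
    simp only [okRule, Bool.and_eq_true, decide_eq_true_eq] at h
    simp only [den] at h
    have h1 : (0 : ℝ) < k := by exact_mod_cast h.1
    have h2 := (Int.cast_le (R := ℝ)).2 h.2
    push_cast at h2
    have := pi_lt_d6
    refine beats_tube (div_pos h1 (by norm_num)) ?_
    simp only [rl]
    rw [div_le_iff₀ (by positivity)]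
    linarith
  | 3, h =>
    simp only [okRule, Bool.and_eq_true, decide_eq_true_eq] at h
    simp only [den] at h
    have h1 : (0 : ℝ) < k := by exact_mod_cast h.1
    have h2 := (Int.cast_le (R := ℝ)).2 h.2
    push_cast at h2
    have := pi_lt_d6
    refine beats_ball (div_pos h1 (by norm_num)) ?_
    simp only [rl]
    rw [div_le_iff₀ (by positivity)]
    linarith
  | 4, h =>
    simp only [okRule, Bool.and_eq_true, decide_eq_true_eq] at h
    simp only [den] at h
    obtain ⟨⟨h1, h2⟩, h3⟩ := h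
    have h1' := (Int.cast_le (R := ℝ)).2 h1
    have h2' := (Int.cast_le (R := ℝ)).2 h2
    have h3' := (Int.cast_le (R := ℝ)).2 h3
    push_cast at h1' h2' h3'
    refine beats_corner (by simp only [rl]; linarith) (by simp only [rl]; linarith) ?_
    simp only [rl]
    nlinarith [mul_le_mul_of_nonneg_right pi_lt_d6.le (show (0 : ℝ) ≤ 900000000 - k by linarith)]
  | n + 5, h => simp [okRule] at h

theorem cell_good {k K : ℤ} {rule : ℕ} {pts : List (ℤ × ℤ)} {a0 a1 b0 b1 : ℤ}
    (h : check (.cell k K rule pts) a0 a1 b0 b1 = true) {v a b : ℝ} (hv : v ∈ Ioc (0 : ℝ) (1 / 2))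
    (ha : a ∈ Icc (rl a0) (rl a1)) (hb : b ∈ Icc (rl b0) (rl b1)) (hab : a ≤ b) :
    GoodGap v a b (1 / 10000000000000000) := by
  simp only [check, Bool.and_eq_true, decide_eq_true_eq] at h
  obtain ⟨⟨⟨⟨⟨hn, hle⟩, h1⟩, h0, h0'⟩, hl⟩, hr⟩ := h
  obtain ⟨-, -, e0⟩ := okPt_spec h0
  obtain ⟨-, -, e1⟩ := okPt_spec h0'
  simp only [rl, Int.cast_zero, zero_div, ne_eq, OfNat.ofNat_ne_zero, not_false_eq_true, zero_pow,
    sub_zero] at e0 e1
  have hA : Adm (rl k) (rl K) (rl a0) (rl b1) :=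
    ⟨div_nonneg (by exact_mod_cast hn) (by norm_num), rl_le hle,
      by rw [rl, div_le_one (by norm_num)]; exact_mod_cast h1, e0, e1⟩
  refine hA.good hv ha.1 hab hb.2 (okRule_spec hr) ?_
  have eK : ((K * den + trap pts - 1 : ℤ) : ℝ) / 10000000000000000 + 1 / 10000000000000000
      = rl K + (trap pts : ℝ) / 10000000000000000 := by
    simp only [rl, den, Int.cast_sub, Int.cast_add, Int.cast_mul, Int.cast_ofNat, Int.cast_one]
    ring
  rw [eK]
  refine add_le_add le_rfl ?_
  have hnonneg : ∀ x y : ℝ, x ≤ y → 0 ≤ 2 * ∫ A in x..y, sFun (rl k) (rl K) A := fun x y hxy =>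
    mul_nonneg zero_le_two (intervalIntegral.integral_nonneg hxy fun A _ => (sFun_mem A).1)
  cases pts with
  | nil => simpa [trap] using hnonneg a b hab
  | cons x r =>
    cases r with
    | nil => simpa [trap] using hnonneg a b hab
    | cons y r =>
      obtain ⟨hx1, hx2, -, hx4⟩ := okList_spec hA (y :: r) x (ha.1.trans ha.2) (hb.1.trans hb.2) hl
      exact hx4.trans (mul_le_mul_of_nonneg_left (hA.integral_mono ha.1 (ha.2.trans (rl_le hx1))
        (rl_le hx2) hb.1 hb.2) zero_le_two)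

/-- A checked tree covers its rectangle, given the corner. -/
theorem check_good {v : ℝ} (hv : v ∈ Ioc (0 : ℝ) (1 / 2)) {Q : ℝ → ℝ → Prop}
    (hcell : ∀ a b, GoodGap v a b (1 / 10000000000000000) → Q a b)
    (hcorner : ∀ a b : ℝ, 0 ≤ a → a ≤ 1 / 10000 → 1 - 1 / 10000 ≤ b → b ≤ 1 → Q a b) :
    ∀ (c : Cert) (a0 a1 b0 b1 : ℤ) (a b : ℝ), check c a0 a1 b0 b1 = true →
      a ∈ Icc (rl a0) (rl a1) → b ∈ Icc (rl b0) (rl b1) → 0 ≤ a → b ≤ 1 → a ≤ b → Q a b := by
  intro c
  induction c with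
  | nodeA m l r il ir =>
    intro a0 a1 b0 b1 a b h ha hb h0 h1 hab
    simp only [check, Bool.and_eq_true] at h
    rcases le_total a (rl m) with e | e
    · exact il a0 m b0 b1 a b h.1 ⟨ha.1, e⟩ hb h0 h1 hab
    · exact ir m a1 b0 b1 a b h.2 ⟨e, ha.2⟩ hb h0 h1 hab
  | nodeB m l r il ir =>
    intro a0 a1 b0 b1 a b h ha hb h0 h1 hab
    simp only [check, Bool.and_eq_true] at h
    rcases le_total b (rl m) with e | e
    · exact il a0 a1 b0 m a b h.1 ha ⟨hb.1, e⟩ h0 h1 hab
    · exact ir a0 a1 m b1 a b h.2 ha ⟨e, hb.2⟩ h0 h1 hab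
  | cell k K rule pts =>
    intro a0 a1 b0 b1 a b h ha hb _ _ hab
    exact hcell a b (cell_good h hv ha hb hab)
  | corner =>
    intro a0 a1 b0 b1 a b h ha hb h0 h1 _
    simp only [check, Bool.and_eq_true, decide_eq_true_eq] at h
    simp only [den] at h
    refine hcorner a b h0 ((ha.2.trans (rl_le h.1)).trans (by norm_num [rl])) ?_ h1
    exact le_trans (by norm_num [rl]) ((rl_le h.2).trans hb.1)
  | empty =>
    intro a0 a1 b0 b1 a b h ha hb _ _ hab
    simp only [check, decide_eq_true_eq] at h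
    have : rl b1 < rl a0 := div_lt_div_of_pos_right (Int.cast_lt.2 h) (by norm_num)
    linarith [ha.1, hb.2]

end

end Vale.Agent.P232.LemmaA
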