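import Vale.Agent.P232.Full.LemmaABasic
import Mathlib.Analysis.SpecialFunctions.Integrals.Basic

/-!
# P232, lemma A for small areas: the chord of the disc length

With radii `α ≤ β` the calibration integral is at least `(2 π / 3) (β - α)²`, which contains the
equality cases ball and tube.
-/

namespace Vale.Agent.P232.LemmaA

open MeasureTheory Set Real

noncomputable section

theorem integral_arch : ∫ y in (0 : ℝ)..1, y * √(1 - y ^ 2) = 1 / 3 := by
  have hd : ∀ y ∈ Ioo (0 : ℝ) 1,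
      HasDerivAt (fun y => -((1 - y ^ 2) * √(1 - y ^ 2)) / 3) (y * √(1 - y ^ 2)) y := by
    intro y hy
    have h0 : 0 < 1 - y ^ 2 := by nlinarith [hy.1, hy.2]
    have h1 : HasDerivAt (fun y : ℝ => 1 - y ^ 2) (-(2 * y)) y := by
      simpa using ((hasDerivAt_pow 2 y).const_sub 1)
    refine ((h1.mul (h1.sqrt h0.ne')).neg.div_const 3).congr_deriv ?_
    have hs : √(1 - y ^ 2) * √(1 - y ^ 2) = 1 - y ^ 2 := Real.mul_self_sqrt h0.le
    have : √(1 - y ^ 2) ≠ 0 := (Real.sqrt_pos.2 h0).ne'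
    field_simp
    rw [Real.sq_sqrt h0.le]
    ring
  rw [intervalIntegral.integral_eq_sub_of_hasDerivAt_of_le zero_le_one (by fun_prop) hd
    ((by fun_prop : Continuous fun y : ℝ => y * √(1 - y ^ 2)).intervalIntegrable _ _)]
  norm_num

theorem radical_le {α β y : ℝ} (hα : 0 ≤ α) (hαβ : α ≤ β) (hy : y ∈ Icc (0 : ℝ) 1) :
    (β - α) * (2 * α * (2 * y * (1 - y)) + (β - α) * (y * √(1 - y ^ 2)))
      ≤ √(((α + (β - α) * y) ^ 2 - α ^ 2) * (β ^ 2 - (α + (β - α) * y) ^ 2)) := by
  set d := β - α with hd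
  have hd0 : 0 ≤ d := sub_nonneg.2 hαβ
  have hy1 : 0 ≤ 1 - y := sub_nonneg.2 hy.2
  have hprod : 0 ≤ y * (1 - y) := mul_nonneg hy.1 hy1
  set z := √(y * (1 - y)) with hz
  set w := √(y * (1 + y)) with hw
  have hzz : z * z = y * (1 - y) := Real.mul_self_sqrt hprod
  have hww : w * w = y * (1 + y) := Real.mul_self_sqrt (mul_nonneg hy.1 (by linarith [hy.1]))
  have hz0 : 0 ≤ z := Real.sqrt_nonneg _
  have hw0 : 0 ≤ w := Real.sqrt_nonneg _
  have hz2 : z ≤ 1 / 2 := Real.sqrt_le_iff.2 ⟨by norm_num, by nlinarith [sq_nonneg (2 * y - 1)]⟩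
  have harch : y * √(1 - y ^ 2) = z * w := by
    rw [hz, hw, ← Real.sqrt_mul hprod, show y * (1 - y) * (y * (1 + y)) = y ^ 2 * (1 - y ^ 2) by ring,
      Real.sqrt_mul (sq_nonneg y), Real.sqrt_sq hy.1]
  have hw2 : w ≤ y + 1 / 2 := Real.sqrt_le_iff.2 ⟨by linarith [hy.1], by nlinarith⟩
  have h1 : 2 * y * (1 - y) ≤ z := by
    have := mul_le_mul_of_nonneg_left hz2 hz0
    nlinarith
  rw [harch]
  calc d * (2 * α * (2 * y * (1 - y)) + d * (z * w)) ≤ d * z * (2 * α + d * w) := by
        nlinarith [mul_le_mul_of_nonneg_left h1 (mul_nonneg hd0 hα)]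
    _ ≤ _ := by
        refine Real.le_sqrt_of_sq_le ?_
        have h2 : (2 * α + d * w) ^ 2 ≤ (2 * α + d * y) * (2 * α + d * (1 + y)) := by
          have e : d ^ 2 * (w * w) = d ^ 2 * (y * (1 + y)) := by rw [hww]
          nlinarith [mul_le_mul_of_nonneg_left hw2 (mul_nonneg hd0 hα), e]
        calc (d * z * (2 * α + d * w)) ^ 2 = d ^ 2 * (z * z) * (2 * α + d * w) ^ 2 := by ring
          _ ≤ d ^ 2 * (y * (1 - y)) * ((2 * α + d * y) * (2 * α + d * (1 + y))) := by
              rw [hzz]; exact mul_le_mul_of_nonneg_left h2 (mul_nonneg (sq_nonneg d) hprod)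
          _ = _ := by rw [hd]; ring

theorem goodA_disc {v a b : ℝ} (hv : v ∈ Ioc (0 : ℝ) (1 / 2)) (ha : 0 ≤ a) (hav : a ≤ v)
    (hvb : v ≤ b) (hb : b ≤ areaDisc) :
    ∃ ε, 0 ≤ ε ∧ GoodGap v a b ε ∧
      (a ≠ b → ¬ (a = 0 ∧ ∃ r, 0 < r ∧ b = π * r ^ 2 ∧ v = 4 * π * r ^ 3 / 3) → 0 < ε) := by
  have hpi := pi_pos
  set α := √(a / π) with hαd
  set β := √(b / π) with hβd
  have hα : 0 ≤ α := Real.sqrt_nonneg _
  have hab : a ≤ b := hav.trans hvb
  have hαβ : α ≤ β := Real.sqrt_le_sqrt (div_le_div_of_nonneg_right hab hpi.le)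
  have hβ : 0 < β := Real.sqrt_pos.2 (div_pos (by linarith [hv.1]) hpi)
  set σ := α + β with hσd
  have hσ : 0 < σ := by linarith
  have ea : a = π * α ^ 2 := by rw [hαd, Real.sq_sqrt (div_nonneg ha hpi.le)]; field_simp
  have eb : b = π * β ^ 2 := by
    rw [hβd, Real.sq_sqrt (div_nonneg (ha.trans hab) hpi.le)]; field_simp
  set k := 2 / σ with hk
  set K := 2 * π * α * β / σ with hK
  set s : ℝ → ℝ := fun A => √(1 - (k * A + K) ^ 2 / (4 * π * A)) with hs
  have hrad : ∀ A ∈ Icc a b, ∃ r, α ≤ r ∧ r ≤ β ∧ A = π * r ^ 2 := by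
    intro A hA
    refine ⟨√(A / π), Real.sqrt_le_sqrt (div_le_div_of_nonneg_right hA.1 hpi.le),
      Real.sqrt_le_sqrt (div_le_div_of_nonneg_right hA.2 hpi.le), ?_⟩
    rw [Real.sq_sqrt (div_nonneg (ha.trans hA.1) hpi.le)]
    field_simp
  have hline : ∀ r : ℝ, k * (π * r ^ 2) + K = 2 * π * (r ^ 2 + α * β) / σ := fun r => by
    rw [hk, hK]; ring
  have hq : ∀ r, 0 < r → (k * (π * r ^ 2) + K) ^ 2 / (4 * π * (π * r ^ 2))
      = ((r ^ 2 + α * β) / (σ * r)) ^ 2 := fun r hr => by
    rw [hline]; field_simp; ring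
  have hcont : ContinuousOn s (Icc a b) := by
    refine (continuousOn_const.sub ?_).sqrt
    rcases ha.eq_or_lt with e | e
    · have hK0 : K = 0 := by rw [hK, hαd, ← e]; simp
      refine (show ContinuousOn (fun A => k ^ 2 * A / (4 * π)) (Icc a b) by fun_prop).congr
        fun A _ => ?_
      rcases eq_or_ne A 0 with rfl | hne
      · simp [hK0]
      · rw [hK0]; field_simp; ring
    · exact (by fun_prop : ContinuousOn (fun A => (k * A + K) ^ 2) (Icc a b)).div (by fun_prop)
        fun A hA => by have : 0 < A := e.trans_le hA.1; positivity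
  have hvalid : ∀ A ∈ Icc a b, k * A + K ≤ √(1 - s A ^ 2) * lenA A := by
    intro A hA
    obtain ⟨r, hr, hr', rfl⟩ := hrad A hA
    rw [lenA_of_le (by positivity) (hA.2.trans hb)]
    rcases (hα.trans hr).eq_or_lt with e | e
    · have hα0 : α = 0 := le_antisymm (by linarith) hα
      rw [← e]
      simp [hK, hα0, discLen]
    · have hle : (r ^ 2 + α * β) / (σ * r) ≤ 1 := by
        rw [div_le_one (mul_pos hσ e)]
        nlinarith [mul_nonneg (sub_nonneg.2 hr) (sub_nonneg.2 hr')]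
      have h0 : 0 ≤ (r ^ 2 + α * β) / (σ * r) := by positivity
      simp only [hs]
      rw [hq r e, Real.sq_sqrt (sub_nonneg.2 (pow_le_one₀ h0 hle)), sub_sub_cancel, Real.sqrt_sq h0,
        hline, discLen, show π * (π * r ^ 2) = (π * r) ^ 2 by ring, Real.sqrt_sq (by positivity)]
      refine le_of_eq ?_
      field_simp
  -- the integral, in the radius
  set f : ℝ → ℝ := fun y => π * (α + (β - α) * y) ^ 2 with hf
  have hfd : ∀ y ∈ uIcc (0 : ℝ) 1, HasDerivAt f (2 * π * (α + (β - α) * y) * (β - α)) y := fun y _ =>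
    ((((hasDerivAt_id' y).const_mul (β - α)).const_add α).fun_pow 2 |>.const_mul π).congr_deriv
      (by push_cast; ring)
  have hf' : Continuous fun y => 2 * π * (α + (β - α) * y) * (β - α) := by fun_prop
  have hfI : ∀ y ∈ Icc (0 : ℝ) 1, f y ∈ Icc a b := by
    intro y hy
    have h0 : 0 ≤ β - α := sub_nonneg.2 hαβ
    rw [ea, eb]
    constructor <;> refine mul_le_mul_of_nonneg_left (pow_le_pow_left₀ ?_ ?_ 2) hpi.le <;>
      nlinarith [hy.1, hy.2]
  have hsub : f '' uIcc (0 : ℝ) 1 ⊆ Icc a b := by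
    rintro _ ⟨y, hy, rfl⟩
    exact hfI y (by rwa [uIcc_of_le zero_le_one] at hy)
  have hchange := intervalIntegral.integral_comp_mul_deriv' hfd hf'.continuousOn (hcont.mono hsub)
  have e0 : f 0 = a := by simp [hf, ea]
  have e1 : f 1 = b := by simp [hf, eb]
  rw [e0, e1] at hchange
  have hint : 2 * π * (β - α) ^ 2 / 3 ≤ ∫ A in a..b, s A := by
    rw [← hchange]
    set c := 2 * π * (β - α) ^ 2 / σ
    have hlow : ∀ y ∈ Icc (0 : ℝ) 1,
        c * (2 * α * (2 * y * (1 - y)) + (β - α) * (y * √(1 - y ^ 2)))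
          ≤ (s ∘ f) y * (2 * π * (α + (β - α) * y) * (β - α)) := by
      intro y hy
      have hrd := radical_le hα hαβ hy
      set r := α + (β - α) * y with hr
      have hαr : α ≤ r := by nlinarith [hy.1]
      have hl : c * (2 * α * (2 * y * (1 - y)) + (β - α) * (y * √(1 - y ^ 2)))
          ≤ 2 * π * (β - α) / σ * √((r ^ 2 - α ^ 2) * (β ^ 2 - r ^ 2)) := by
        refine le_trans (le_of_eq ?_) (mul_le_mul_of_nonneg_left hrd
          (div_nonneg (mul_nonneg (by positivity) (sub_nonneg.2 hαβ)) hσ.le))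
        simp only [c]
        ring
      refine hl.trans ?_
      simp only [Function.comp, hf, hs, ← hr]
      rcases (hα.trans hαr).eq_or_lt with e | e
      · have hα0 : α = 0 := le_antisymm (by linarith) hα
        rw [← e, hα0]
        simp
      · refine le_of_eq ?_
        rw [hq r e, show 1 - ((r ^ 2 + α * β) / (σ * r)) ^ 2
          = (r ^ 2 - α ^ 2) * (β ^ 2 - r ^ 2) / (σ * r) ^ 2 by rw [hσd]; field_simp; ring,
          Real.sqrt_div' _ (sq_nonneg _), Real.sqrt_sq (by positivity)]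
        field_simp
    have hcs : Continuous fun y : ℝ => y * √(1 - y ^ 2) := by fun_prop
    have hq2 : Continuous fun y : ℝ => 2 * α * (2 * y * (1 - y)) := by fun_prop
    refine le_trans (le_of_eq ?_) (intervalIntegral.integral_mono_on zero_le_one
      (((hq2.add (hcs.const_mul (β - α))).const_mul c).intervalIntegrable _ _)
      (((hcont.comp (by fun_prop : Continuous f).continuousOn hfI).mul hf'.continuousOn).intervalIntegrable_of_Icc
        zero_le_one) hlow)
    have e2 : ∫ y in (0 : ℝ)..1, 2 * α * (2 * y * (1 - y)) = 2 * α / 3 := by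
      simp only [show ∀ y : ℝ, 2 * α * (2 * y * (1 - y)) = 4 * α * y - 4 * α * y ^ 2 from fun y => by ring]
      rw [intervalIntegral.integral_sub ((by fun_prop : Continuous fun y : ℝ => 4 * α * y).intervalIntegrable _ _)
        ((by fun_prop : Continuous fun y : ℝ => 4 * α * y ^ 2).intervalIntegrable _ _),
        intervalIntegral.integral_const_mul, intervalIntegral.integral_const_mul, integral_id, integral_pow]
      norm_num
      ring
    simp only [Pi.add_apply]
    rw [intervalIntegral.integral_const_mul, intervalIntegral.integral_add (hq2.intervalIntegrable _ _)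
      ((hcs.const_mul _).intervalIntegrable _ _), e2, intervalIntegral.integral_const_mul, integral_arch]
    simp only [c, hσd]
    have : α + β ≠ 0 := hσ.ne'
    field_simp
    ring
  -- the profile
  have hk0 : 0 < k := by positivity
  have hsq : σ ^ 2 = (β - α) ^ 2 + 4 * (α * β) := by rw [hσd]; ring
  have hab0 : 0 ≤ α * β := mul_nonneg hα hβ.le
  set X := K + 4 * π * (β - α) ^ 2 / 3 with hX
  have e : X = 2 * π / σ * (α * β + 2 / 3 * σ * (β - α) ^ 2) := by rw [hX, hK]; field_simp; ring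
  have hJ : ballTubeSlab v ≤ k * v + X ∧
      (a ≠ b → ¬ (a = 0 ∧ ∃ r, 0 < r ∧ b = π * r ^ 2 ∧ v = 4 * π * r ^ 3 / 3) →
        ballTubeSlab v < k * v + X) := by
    rw [e]
    have hd : a ≠ b → 0 < (β - α) ^ 2 := fun hne => by
      have : β - α ≠ 0 := fun h0 => hne (by rw [ea, eb, show β = α by linarith])
      positivity
    rcases lt_or_ge (3 / 8) σ with h | h
    · have h1 := (le_tube hv.2).trans (tube_tangent hk0 hv.1.le)
      have h2 : π / k + 2 * π / σ * ((σ - 3 / 8) * (2 / 3) * (β - α) ^ 2)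
          = 2 * π / σ * (α * β + 2 / 3 * σ * (β - α) ^ 2) := by
        rw [hk, hσd]; field_simp; ring
      have h4 : 0 < 2 * π / σ * ((σ - 3 / 8) * (2 / 3)) := by
        have : 0 < σ - 3 / 8 := sub_pos.2 h
        positivity
      refine ⟨by linarith [mul_nonneg h4.le (sq_nonneg (β - α))], fun hne _ => ?_⟩
      linarith [mul_pos h4 (hd hne)]
    rcases le_or_gt σ (1 / 3) with h' | h'
    · have h1 := (le_ball hv.2).trans (ball_tangent hk0 hv.1.le)
      have h2 : 16 * π / (3 * k ^ 2) + 2 * π / σ * (α * β * (1 - 8 * σ / 3))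
          = 2 * π / σ * (α * β + 2 / 3 * σ * (β - α) ^ 2) := by
        rw [hk, hσd]; field_simp; ring
      have h3 : 0 < 2 * π / σ * (1 - 8 * σ / 3) := mul_pos (by positivity) (by linarith)
      refine ⟨by linarith [mul_nonneg h3.le hab0], fun hne hball => ?_⟩
      rcases hα.eq_or_lt with e0 | e0
      · have hne' : v ≠ 4 * π * β ^ 3 / 3 := fun hv' => hball ⟨by rw [ea, ← e0]; ring, β, hβ, eb, hv'⟩
        have h5 := ball_tangent_lt hk0 hv.1.le (fun h6 => hne' (by rw [h6, hk, hσd, ← e0]; field_simp; ring))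
        linarith [le_ball hv.2, mul_nonneg h3.le hab0]
      · linarith [mul_pos h3 (mul_pos e0 hβ)]
    · have hk1 : 9 / 2 ≤ k := by rw [hk, le_div_iff₀ hσ]; linarith
      have hk2 : k ≤ 6 := by rw [hk, div_le_iff₀ hσ]; linarith
      have h1 := beats_corner hk1 hk2 le_rfl v hv
      have h2 : 4 * π / 81 * (9 - k) + 2 * π / σ * (α * β * (1 - 8 * σ / 3)
          + 2 / 81 * ((3 * σ - 1) ^ 2 * (3 * σ + 2))) = 2 * π / σ * (α * β + 2 / 3 * σ * (β - α) ^ 2) := by
        rw [hk, hσd]; field_simp; ring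
      have h3 : 0 < 2 * π / σ * (α * β * (1 - 8 * σ / 3) + 2 / 81 * ((3 * σ - 1) ^ 2 * (3 * σ + 2))) := by
        have : 0 < (3 * σ - 1) ^ 2 := pow_pos (by linarith) 2
        have : 0 ≤ 1 - 8 * σ / 3 := by linarith
        positivity
      exact ⟨by linarith, fun _ _ => by linarith⟩
  refine ⟨k * v + X - ballTubeSlab v, by linarith [hJ.1], ?_, fun h1 h2 => by linarith [hJ.2 h1 h2]⟩
  refine ⟨k, K, Set.IccExtend hab fun x => s x.1, ?_, fun A => ⟨Real.sqrt_nonneg _, ?_⟩,
    fun A hA => ?_, ?_⟩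
  · exact (continuousOn_iff_continuous_domRestrict.1 hcont).comp continuous_projIcc
  · refine Real.sqrt_le_one.2 (sub_le_self _ ?_)
    exact div_nonneg (sq_nonneg _) (mul_nonneg (by positivity) (ha.trans (Set.projIcc a b hab A).2.1))
  · rw [Set.IccExtend_of_mem hab (fun x => s x.1) hA]
    exact hvalid A hA
  · rw [intervalIntegral.integral_congr (g := s) fun A hA => by
      rw [uIcc_of_le hab] at hA
      exact Set.IccExtend_of_mem hab (fun x => s x.1) hA]
    rw [hX]
    linarith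

end

end Vale.Agent.P232.LemmaA
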