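import Vale.Agent.P232.Full.LemmaBData

/-!
# P232, lemma B: the certificate is accepted, part 2

Generated.
-/

namespace Vale.Agent.P232.LemmaB

theorem certPart5_ok : check certPart5 ⟨0, 50000000, 0, 6250000, 50000000, 62500000, 50000000, 75000000⟩ = true := by
  decide +kernel

theorem certPart6_ok : check certPart6 ⟨0, 50000000, 0, 781250, 62500000, 68750000, 50000000, 62500000⟩ = true := by
  decide +kernel

theorem certPart7_ok : check certPart7 ⟨0, 50000000, 0, 781250, 62500000, 68750000, 62500000, 68750000⟩ = true := by
  decide +kernel

theorem certPart8_ok : check certPart8 ⟨0, 50000000, 0, 781250, 62500000, 68750000, 68750000, 75000000⟩ = true := by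
  decide +kernel

end Vale.Agent.P232.LemmaB
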