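import Vale.Agent.P232.Full.LemmaBData

/-!
# P232, lemma B: the certificate is accepted, part 3

Generated.
-/

namespace Vale.Agent.P232.LemmaB

theorem certPart9_ok : check certPart9 ⟨0, 50000000, 0, 195313, 68750000, 75000000, 62500000, 68750000⟩ = true := by
  decide +kernel

theorem certPart10_ok : check certPart10 ⟨0, 50000000, 0, 195313, 68750000, 71875000, 68750000, 71875000⟩ = true := by
  decide +kernel

theorem certPart11_ok : check certPart11 ⟨0, 50000000, 0, 195313, 71875000, 75000000, 68750000, 71875000⟩ = true := by
  decide +kernel

theorem certPart12_ok : check certPart12 ⟨0, 50000000, 0, 24414, 68750000, 75000000, 71875000, 73437500⟩ = true := by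
  decide +kernel

theorem certPart13_ok : check certPart13 ⟨0, 25000000, 0, 6104, 68750000, 75000000, 73437500, 75000000⟩ = true := by
  decide +kernel

end Vale.Agent.P232.LemmaB
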