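import Vale.Agent.P232.Full.LemmaBData

/-!
# P232, lemma B: the certificate is accepted, part 4

Generated.
-/

namespace Vale.Agent.P232.LemmaB

theorem certPart14_ok : check certPart14 ⟨25000000, 50000000, 0, 6104, 68750000, 75000000, 73437500, 75000000⟩ = true := by
  decide +kernel

theorem certPart15_ok : check certPart15 ⟨0, 50000000, 6104, 12207, 68750000, 75000000, 73437500, 75000000⟩ = true := by
  decide +kernel

theorem certPart16_ok : check certPart16 ⟨0, 50000000, 1562500, 3125000, 62500000, 75000000, 50000000, 75000000⟩ = true := by
  decide +kernel

theorem certPart17_ok : check certPart17 ⟨0, 50000000, 3125000, 6250000, 62500000, 75000000, 50000000, 75000000⟩ = true := by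
  decide +kernel

theorem certPart18_ok : check certPart18 ⟨0, 50000000, 0, 12207, 68750000, 71875000, 75000000, 76562500⟩ = true := by
  decide +kernel

theorem certPart19_ok : check certPart19 ⟨0, 50000000, 0, 12207, 71875000, 75000000, 75000000, 75781250⟩ = true := by
  decide +kernel

theorem certPart20_ok : check certPart20 ⟨0, 50000000, 0, 12207, 71875000, 75000000, 75781250, 76562500⟩ = true := by
  decide +kernel

theorem certPart21_ok : check certPart21 ⟨0, 50000000, 0, 48829, 68750000, 75000000, 76562500, 78125000⟩ = true := by
  decide +kernel

theorem certPart22_ok : check certPart22 ⟨0, 50000000, 0, 195313, 68750000, 75000000, 78125000, 81250000⟩ = true := by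
  decide +kernel

theorem certPart23_ok : check certPart23 ⟨0, 50000000, 0, 1562500, 62500000, 75000000, 81250000, 87500000⟩ = true := by
  decide +kernel

theorem certPart24_ok : check certPart24 ⟨0, 50000000, 0, 6250000, 50000000, 75000000, 87500000, 100000000⟩ = true := by
  decide +kernel

end Vale.Agent.P232.LemmaB
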