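import Vale.Agent.P232.Full.LemmaBData

/-!
# P232, lemma B: the certificate is accepted, part 5

Generated.
-/

namespace Vale.Agent.P232.LemmaB

theorem certPart25_ok : check certPart25 ⟨0, 50000000, 6250000, 12500000, 50000000, 75000000, 0, 100000000⟩ = true := by
  decide +kernel

theorem certPart26_ok : check certPart26 ⟨0, 12500000, 12500000, 25000000, 50000000, 50006104, 49993897, 50000000⟩ = true := by
  decide +kernel

theorem certPart27_ok : check certPart27 ⟨12500000, 18750000, 12500000, 25000000, 50000000, 50006104, 49993897, 50000000⟩ = true := by
  decide +kernel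

end Vale.Agent.P232.LemmaB
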