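import Vale.Agent.P232.Full.LemmaBData

/-!
# P232, lemma B: the certificate is accepted, part 6

Generated.
-/

namespace Vale.Agent.P232.LemmaB

theorem certPart28_ok : check certPart28 ⟨18750000, 25000000, 12500000, 25000000, 50000000, 50006104, 49993897, 50000000⟩ = true := by
  decide +kernel

theorem certPart29_ok : check certPart29 ⟨25000000, 50000000, 12500000, 25000000, 50000000, 50006104, 49993897, 50000000⟩ = true := by
  decide +kernel

theorem certPart30_ok : check certPart30 ⟨0, 50000000, 12500000, 25000000, 50000000, 75000000, 50000000, 100000000⟩ = true := by
  decide +kernel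

theorem certPart31_ok : check certPart31 ⟨0, 50000000, 0, 3125000, 75000000, 87500000, 50000000, 75000000⟩ = true := by
  decide +kernel

theorem certPart32_ok : check certPart32 ⟨0, 50000000, 0, 48829, 75000000, 78125000, 75000000, 76562500⟩ = true := by
  decide +kernel

theorem certPart33_ok : check certPart33 ⟨0, 50000000, 0, 48829, 75000000, 78125000, 76562500, 78125000⟩ = true := by
  decide +kernel

end Vale.Agent.P232.LemmaB
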