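import Vale.Agent.P232.Full.LemmaBData

/-!
# P232, lemma B: the certificate is accepted, part 7

Generated.
-/

namespace Vale.Agent.P232.LemmaB

theorem certPart34_ok : check certPart34 ⟨0, 50000000, 0, 195313, 75000000, 81250000, 78125000, 81250000⟩ = true := by
  decide +kernel

theorem certPart35_ok : check certPart35 ⟨0, 50000000, 0, 781250, 75000000, 87500000, 81250000, 87500000⟩ = true := by
  decide +kernel

theorem certPart36_ok : check certPart36 ⟨0, 50000000, 0, 3125000, 75000000, 87500000, 87500000, 100000000⟩ = true := by
  decide +kernel

theorem certPart37_ok : check certPart37 ⟨0, 50000000, 0, 6250000, 87500000, 100000000, 50000000, 100000000⟩ = true := by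
  decide +kernel

theorem certPart38_ok : check certPart38 ⟨0, 50000000, 6250000, 12500000, 75000000, 100000000, 50000000, 100000000⟩ = true := by
  decide +kernel

theorem certPart39_ok : check certPart39 ⟨0, 50000000, 12500000, 25000000, 75000000, 100000000, 50000000, 100000000⟩ = true := by
  decide +kernel

theorem certPart40_ok : check certPart40 ⟨0, 50000000, 25000000, 50000000, 0, 100000000, 0, 100000000⟩ = true := by
  decide +kernel

end Vale.Agent.P232.LemmaB
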