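import Vale.Agent.P232.Full.LemmaBCheck1
import Vale.Agent.P232.Full.LemmaBCheck2
import Vale.Agent.P232.Full.LemmaBCheck3
import Vale.Agent.P232.Full.LemmaBCheck4
import Vale.Agent.P232.Full.LemmaBCheck5
import Vale.Agent.P232.Full.LemmaBCheck6
import Vale.Agent.P232.Full.LemmaBCheck7

/-!
# P232, lemma B: the certificate is accepted

Generated.
-/

namespace Vale.Agent.P232.LemmaB

theorem check_node {a : ℕ} {p : ℤ} {l r : Cert} {B : Box} (h₁ : check l (B.lower a p) = true)
    (h₂ : check r (B.upper a p) = true) : check (.node a p l r) B = true := by
  simp only [check, h₁, h₂, Bool.and_self]

theorem cert_ok :
    check cert ⟨0, 50000000, 0, 50000000, 0, 100000000, 0, 100000000⟩ = true :=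
  (check_node
    (check_node
    (check_node
    (check_node certPart0_ok
    (check_node certPart1_ok certPart2_ok)) certPart3_ok)
    (check_node
    (check_node
    (check_node
    (check_node certPart4_ok
    (check_node
    (check_node certPart5_ok
    (check_node
    (check_node
    (check_node
    (check_node
    (check_node certPart6_ok
    (check_node certPart7_ok certPart8_ok)) (by decide +kernel))
    (check_node (by decide +kernel)
    (check_node
    (check_node
    (check_node
    (check_node certPart9_ok
    (check_node
    (check_node certPart10_ok certPart11_ok)
    (check_node
    (check_node
    (check_node
    (check_node certPart12_ok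
    (check_node
    (check_node
    (check_node certPart13_ok certPart14_ok) certPart15_ok) (by decide +kernel))) (by decide +kernel)) (by decide +kernel)) (by decide +kernel)))) (by decide +kernel)) (by decide +kernel)) (by decide +kernel)))) certPart16_ok) certPart17_ok))
    (check_node
    (check_node
    (check_node
    (check_node (by decide +kernel)
    (check_node
    (check_node
    (check_node
    (check_node
    (check_node (by decide +kernel)
    (check_node
    (check_node
    (check_node
    (check_node
    (check_node
    (check_node
    (check_node certPart18_ok
    (check_node certPart19_ok certPart20_ok)) (by decide +kernel)) (by decide +kernel)) certPart21_ok) (by decide +kernel)) (by decide +kernel)) certPart22_ok)) (by decide +kernel)) (by decide +kernel)) (by decide +kernel)) certPart23_ok)) (by decide +kernel)) (by decide +kernel)) certPart24_ok))) certPart25_ok)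
    (check_node
    (check_node
    (check_node
    (check_node
    (check_node
    (check_node (by decide +kernel)
    (check_node (by decide +kernel)
    (check_node (by decide +kernel)
    (check_node (by decide +kernel)
    (check_node (by decide +kernel)
    (check_node
    (check_node (by decide +kernel)
    (check_node
    (check_node (by decide +kernel)
    (check_node
    (check_node (by decide +kernel)
    (check_node
    (check_node (by decide +kernel)
    (check_node
    (check_node (by decide +kernel)
    (check_node
    (check_node (by decide +kernel)
    (check_node
    (check_node (by decide +kernel)
    (check_node
    (check_node (by decide +kernel)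
    (check_node
    (check_node certPart26_ok
    (check_node certPart27_ok certPart28_ok)) certPart29_ok)) (by decide +kernel))) (by decide +kernel))) (by decide +kernel))) (by decide +kernel))) (by decide +kernel))) (by decide +kernel))) (by decide +kernel))) (by decide +kernel))))))) (by decide +kernel)) (by decide +kernel)) (by decide +kernel)) (by decide +kernel)) certPart30_ok))
    (check_node (by decide +kernel)
    (check_node
    (check_node
    (check_node
    (check_node
    (check_node certPart31_ok
    (check_node
    (check_node
    (check_node
    (check_node
    (check_node
    (check_node
    (check_node
    (check_node
    (check_node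
    (check_node
    (check_node
    (check_node certPart32_ok certPart33_ok) (by decide +kernel)) (by decide +kernel)) (by decide +kernel)) certPart34_ok) (by decide +kernel)) (by decide +kernel)) (by decide +kernel)) certPart35_ok) (by decide +kernel)) (by decide +kernel)) certPart36_ok)) (by decide +kernel)) certPart37_ok) certPart38_ok) certPart39_ok)))) certPart40_ok)

end Vale.Agent.P232.LemmaB
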