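import Vale.Agent.P232.Full.LemmaBBasic
import Vale.Agent.P232.Full.LemmaACorner

/-!
# P232, lemma B next to the slab

For `a` and `1 - b` at most `10⁻⁴` one affine function `8 (a (1 - A) + (1 - b) A)` and one calibration
serve on both zones.
-/

namespace Vale.Agent.P232.LemmaB

open MeasureTheory Set Real
open LemmaA (P4 P4_le P4_pos sqrt_P4_le singular_integral beats_flat beats_neg)

noncomputable section

/-- The affine function of the corner squared against the three bounds. -/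
theorem corner_bounds {a c A : ℝ} (ha : 0 ≤ a) (ha' : a ≤ 1 / 10000) (hc : 0 ≤ c)
    (hc' : c ≤ 1 / 10000) (hA : A ∈ Icc a (1 - c)) {ℓ : ℝ} (hℓ : ℓ = 8 * (a * (1 - A) + c * A)) :
    ℓ ^ 2 ≤ P4 * A ∧ ℓ ^ 2 ≤ 4 ∧ ℓ ^ 2 ≤ P4 * (1 - A) ∧
      ℓ ^ 2 ≤ (128 / P4 * (a ^ 2 / A + c ^ 2 / (1 - A) + (a ^ 2 + c ^ 2)) + 32 * (a ^ 2 + c ^ 2)) * (P4 * A) ∧
      ℓ ^ 2 ≤ (128 / P4 * (a ^ 2 / A + c ^ 2 / (1 - A) + (a ^ 2 + c ^ 2)) + 32 * (a ^ 2 + c ^ 2)) * 4 ∧
      ℓ ^ 2 ≤ (128 / P4 * (a ^ 2 / A + c ^ 2 / (1 - A) + (a ^ 2 + c ^ 2)) + 32 * (a ^ 2 + c ^ 2))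
        * (P4 * (1 - A)) := by
  have hA0 : 0 ≤ A := ha.trans hA.1
  have hA1 : 0 ≤ 1 - A := by linarith [hA.2]
  have hsq : ℓ ^ 2 ≤ 128 * (a ^ 2 * (1 - A) ^ 2 + c ^ 2 * A ^ 2) := by
    rw [hℓ]; nlinarith [sq_nonneg (a * (1 - A) - c * A)]
  have hP := P4_pos
  have g1 : a ^ 2 * (1 - A) ^ 2 ≤ a ^ 2 * (1 - A) := mul_le_mul_of_nonneg_left (by nlinarith) (sq_nonneg a)
  have g2 : c ^ 2 * A ^ 2 ≤ c ^ 2 * A := mul_le_mul_of_nonneg_left (by nlinarith) (sq_nonneg c)
  have g3 : a ^ 2 * (1 - A) ≤ a ^ 2 := mul_le_of_le_one_right (sq_nonneg a) (by linarith)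
  have g4 : c ^ 2 * A ≤ c ^ 2 := mul_le_of_le_one_right (sq_nonneg c) (by linarith)
  have g5 : a ^ 2 ≤ A / 10000 := by nlinarith [hA.1]
  have g6 : c ^ 2 ≤ (1 - A) / 10000 := by nlinarith [hA.2]
  have g7 : a ^ 2 ≤ 1 / 10000 := by nlinarith
  have g8 : c ^ 2 ≤ 1 / 10000 := by nlinarith
  have g9 : c ^ 2 * A ≤ A / 10000 := by nlinarith [mul_le_mul_of_nonneg_right g8 hA0]
  have g10 : a ^ 2 * (1 - A) ≤ (1 - A) / 10000 := by nlinarith [mul_le_mul_of_nonneg_right g7 hA1]
  have hP12 : (12 : ℝ) ≤ P4 := by norm_num [P4]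
  have hu : 0 ≤ c ^ 2 / (1 - A) := div_nonneg (sq_nonneg c) hA1
  have hw : 0 ≤ a ^ 2 / A := div_nonneg (sq_nonneg a) hA0
  have ew : a ^ 2 / A * A = a ^ 2 := by
    rcases hA0.eq_or_lt with e | e
    · have h0 : a = 0 := le_antisymm (e ▸ hA.1) ha
      rw [← e, h0]; simp
    · rw [div_mul_cancel₀ _ e.ne']
  have eu : c ^ 2 / (1 - A) * (1 - A) = c ^ 2 := by
    rcases hA1.eq_or_lt with e | e
    · have h0 : c = 0 := le_antisymm (by linarith [hA.2]) hc
      rw [← e, h0]; simp
    · rw [div_mul_cancel₀ _ e.ne']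
  have p1 := mul_le_mul_of_nonneg_right hP12 hA0
  have p2 := mul_le_mul_of_nonneg_right hP12 hA1
  have aux : ∀ w u T X : ℝ, (128 / P4 * (w + u + T) + 32 * T) * (P4 * X)
      = 128 * ((w + u + T) * X) + 32 * T * (P4 * X) := fun _ _ _ _ => by field_simp
  have hT : 0 ≤ a ^ 2 + c ^ 2 := by positivity
  refine ⟨by linarith, by linarith, by linarith, ?_, ?_, ?_⟩
  · rw [aux, add_mul, add_mul, ew, add_mul (a ^ 2) (c ^ 2) A]
    linarith [mul_nonneg hu hA0, mul_nonneg (sq_nonneg a) hA0,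
      mul_nonneg hT (mul_nonneg hP.le hA0)]
  · have : 0 ≤ 128 / P4 * (a ^ 2 / A + c ^ 2 / (1 - A) + (a ^ 2 + c ^ 2)) := by positivity
    linarith
  · rw [aux, add_mul, add_mul, eu, add_mul (a ^ 2) (c ^ 2) (1 - A)]
    linarith [mul_nonneg hw hA1, mul_nonneg (sq_nonneg c) hA1,
      mul_nonneg hT (mul_nonneg hP.le hA1)]

/-- The calibration of the corner. -/
theorem goodB_corner {v W a m b : ℝ} (hv : v ∈ Ioc (0 : ℝ) (1 / 2)) (hW : W ∈ Icc (0 : ℝ) (1 / 2))
    (ha : 0 ≤ a) (ha' : a ≤ 1 / 10000) (hm : 1 - 1 / 10000 ≤ m) (hmb : m ≤ b) (hb : b ≤ 1)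
    (hWm : 2 * W ≤ m) :
    ∃ ε, 0 ≤ ε ∧ GapB v W a m b ε ∧ (¬(a = 0 ∧ b = 1) → 0 < ε) := by
  obtain ⟨c, hc, hc', rfl⟩ : ∃ c : ℝ, 0 ≤ c ∧ c ≤ 1 / 10000 ∧ b = 1 - c :=
    ⟨1 - b, by linarith, by linarith, by ring⟩
  refine ⟨(a + c) / 100, by positivity, ?_, fun h => ?_⟩
  swap
  · rcases ha.eq_or_lt with e | e
    · rcases hc.eq_or_lt with e' | e'
      · exact absurd ⟨e.symm, by linarith⟩ h
      · linarith
    · linarith
  have ham : a ≤ m := by linarith
  have hab : a ≤ 1 - c := by linarith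
  set k := 8 * (c - a) with hk
  set K := 8 * a with hK
  set T := a ^ 2 + c ^ 2 with hT
  have hT0 : 0 ≤ T := by positivity
  have hP := P4_pos
  set B : ℝ → ℝ := fun A => 128 / P4 * (a ^ 2 / A + c ^ 2 / (1 - A) + T) + 32 * T with hB
  have hl : ∀ A, k * A + K = 8 * (a * (1 - A) + c * A) := fun A => by rw [hk, hK]; ring
  have hB0 : ∀ A ∈ Icc a (1 - c), 0 ≤ B A := fun A hA => by
    have h1 : 0 ≤ A := ha.trans hA.1
    have h2 : 0 ≤ 1 - A := by linarith [hA.2]
    simp only [hB]; positivity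
  have cB : ContinuousOn B (Icc a (1 - c)) := by
    have c1 : ContinuousOn (fun A : ℝ => a ^ 2 / A) (Icc a (1 - c)) := by
      rcases ha.eq_or_lt with e | e
      · rw [← e]; simpa using continuousOn_const
      · exact continuousOn_const.div continuousOn_id fun A hA => ne_of_gt (e.trans_le hA.1)
    have c2 : ContinuousOn (fun A : ℝ => c ^ 2 / (1 - A)) (Icc a (1 - c)) := by
      rcases hc.eq_or_lt with e | e
      · rw [← e]; simpa using continuousOn_const
      · exact continuousOn_const.div (by fun_prop) fun A hA => ne_of_gt (by linarith [hA.2])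
    exact (continuousOn_const.mul ((c1.add c2).add continuousOn_const)).add continuousOn_const
  set σ : ℝ → ℝ := fun A => max 0 (1 - B A) with hσ
  have cσ : ContinuousOn σ (Icc a (1 - c)) :=
    continuous_max.comp_continuousOn (continuousOn_const.prodMk (continuousOn_const.sub cB))
  set s : ℝ → ℝ := Set.IccExtend hab fun x => σ x.1 with hs
  have hse : ∀ A ∈ Icc a (1 - c), s A = σ A := fun A hA => Set.IccExtend_of_mem hab (fun x => σ x.1) hA
  have hs01 : ∀ A, s A ∈ Icc (0 : ℝ) 1 := fun A => by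
    simp only [hs, Set.IccExtend, Function.comp_apply, hσ]
    exact ⟨le_max_left _ _, max_le zero_le_one (by linarith [hB0 _ (projIcc a (1 - c) hab A).2])⟩
  have hsc : Continuous s :=
    (continuousOn_iff_continuous_domRestrict.1 cσ).comp continuous_projIcc
  have main : ∀ A ∈ Icc a (1 - c), ∀ L, 0 ≤ L →
      (√(P4 * A) ≤ L ∨ 2 ≤ L ∨ √(P4 * (1 - A)) ≤ L) →
      k * A + K ≤ √(1 - s A ^ 2) * L := by
    intro A hA L hL0 hL
    obtain ⟨b1, b2, b3, b4, b5, b6⟩ := corner_bounds ha ha' hc hc' hA (hl A)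
    rw [hse A hA]
    have key : ∀ X, √X ≤ L → (k * A + K) ^ 2 ≤ X → (k * A + K) ^ 2 ≤ B A * X →
        k * A + K ≤ √(1 - σ A ^ 2) * L := by
      intro X hX h1 h2
      have hX0 : 0 ≤ X := (sq_nonneg _).trans h1
      refine le_trans ?_ (mul_le_mul_of_nonneg_left hX (Real.sqrt_nonneg _))
      have hq : min 1 (B A) ≤ 1 - σ A ^ 2 := by
        rcases le_total (1 - B A) 0 with e | e
        · simp only [hσ, max_eq_left e]; linarith [min_le_left 1 (B A)]
        · simp only [hσ, max_eq_right e]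
          nlinarith [min_le_right 1 (B A), hB0 A hA]
      rw [← Real.sqrt_mul ((le_min zero_le_one (hB0 A hA)).trans hq)]
      refine Real.le_sqrt_of_sq_le (le_trans ?_ (mul_le_mul_of_nonneg_right hq hX0))
      rcases min_choice 1 (B A) with e | e <;> rw [e]
      · rwa [one_mul]
      · exact h2
    rcases hL with e | e | e
    · exact key _ e b1 b4
    · exact key 4 (by rwa [show √(4 : ℝ) = 2 by rw [show (4 : ℝ) = 2 ^ 2 by norm_num, Real.sqrt_sq zero_le_two]])
        b2 b5
    · exact key _ e b3 b6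
  refine ⟨k, K, K, s, s, hsc, hsc, hs01, hs01, fun A hA => ?_, fun A hA => ?_, ?_⟩
  · have h2W : 2 * W ≤ A := hWm.trans hA.1
    have hA1 : A ≤ 1 := by linarith [hA.2]
    have h := disc_le_lenCross hW.2 h2W hA1
    exact main A ⟨ham.trans hA.1, hA.2⟩ _ ((Real.sqrt_nonneg _).trans h) (.inr (.inr h))
  · have hA0 : 0 ≤ A := ha.trans hA.1
    have hA1 : 0 ≤ 1 - A := by linarith [hA.2]
    have hmem : A ∈ Icc a (1 - c) := ⟨hA.1, by linarith [hA.2]⟩
    have h1 := sqrt_P4_le hA0
    have h3 := sqrt_P4_le hA1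
    have n1 : 0 ≤ discLen A := (Real.sqrt_nonneg _).trans h1
    have n3 : 0 ≤ discLen (1 - A) := (Real.sqrt_nonneg _).trans h3
    unfold lenOuter
    rcases min_choice (discLen A) (min (discLen (1 - A)) (max 2 ((A - 2 * W) / (3 / 2) + 981 / 500)))
      with e | e <;> rw [e]
    · exact main A hmem _ n1 (.inl h1)
    rcases min_choice (discLen (1 - A)) (max 2 ((A - 2 * W) / (3 / 2) + 981 / 500)) with e' | e' <;> rw [e']
    · exact main A hmem _ n3 (.inr (.inr h3))
    · exact main A hmem _ (zero_le_two.trans (le_max_left _ _)) (.inr (.inl (le_max_left _ _)))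
  · obtain ⟨i1, j1⟩ := singular_integral ha ha' hab (by linarith)
    obtain ⟨i2, j2⟩ := singular_integral hc hc' (show c ≤ 1 - a by linarith) (by linarith)
    have i3 : IntervalIntegrable (fun A => c ^ 2 / (1 - A)) volume a (1 - c) := by
      simpa using (i2.comp_sub_left 1).symm
    have j3 : ∫ A in a..(1 - c), c ^ 2 / (1 - A) ≤ c / 50 := by
      rw [intervalIntegral.integral_comp_sub_left (fun x => c ^ 2 / x) 1, sub_sub_cancel]
      exact j2
    have iB : IntervalIntegrable B volume a (1 - c) := cB.intervalIntegrable_of_Icc hab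
    have iS : ∀ x y : ℝ, IntervalIntegrable s volume x y := fun x y => hsc.intervalIntegrable x y
    rw [intervalIntegral.integral_add_adjacent_intervals (iS a m) (iS m (1 - c))]
    have hmono : ∫ A in a..(1 - c), (1 - B A) ≤ ∫ A in a..(1 - c), s A :=
      intervalIntegral.integral_mono_on hab (intervalIntegrable_const.sub iB) (iS _ _) fun A hA => by
        rw [hse A hA]; exact le_max_right _ _
    have hI : ∫ A in a..(1 - c), B A ≤ 21 / 100 * (a + c) := by
      simp only [hB]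
      rw [intervalIntegral.integral_add (((i1.add i3).add intervalIntegrable_const).const_mul _)
        intervalIntegrable_const, intervalIntegral.integral_const_mul,
        intervalIntegral.integral_add (i1.add i3) intervalIntegrable_const,
        intervalIntegral.integral_add i1 i3, intervalIntegral.integral_const,
        intervalIntegral.integral_const, smul_eq_mul, smul_eq_mul]
      have hlen : (1 - c - a) * T ≤ T := mul_le_of_le_one_left hT0 (by linarith)
      have hT' : T ≤ (a + c) / 10000 := by rw [hT]; nlinarith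
      have h1 : 128 / P4 ≤ 102 / 10 := by norm_num [P4]
      have h3 := mul_le_mul h1 (le_refl ((a + c) / 50 + (a + c) / 10000)) (by positivity) (by norm_num)
      have h5 : 128 / P4 * ((∫ A in a..(1 - c), a ^ 2 / A) + (∫ A in a..(1 - c), c ^ 2 / (1 - A))
          + (1 - c - a) * T) ≤ 128 / P4 * ((a + c) / 50 + (a + c) / 10000) :=
        mul_le_mul_of_nonneg_left (by linarith) (by positivity)
      have h6 : (1 - c - a) * (32 * T) ≤ 32 * T := mul_le_of_le_one_left (by positivity) (by linarith)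
      linarith
    rw [intervalIntegral.integral_sub intervalIntegrable_const iB, intervalIntegral.integral_const,
      smul_eq_mul, mul_one] at hmono
    have hbeats : LemmaA.Beats k (K + 2 * (1 - c - a) - 2 * (21 / 100 * (a + c)) - (a + c) / 100) := by
      have := pi_gt_d6
      have hlt := pi_lt_d6
      rcases le_total 0 k with e | e
      · refine beats_flat e (by linarith) ?_
        have : k / 3.141593 ≤ k / π := by gcongr
        norm_num at this
        linarith
      · refine beats_neg e ?_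
        linarith
    have := hbeats v hv
    linarith

end

end Vale.Agent.P232.LemmaB
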