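import Vale.Agent.P232.Full.LemmaBSound
import Vale.Agent.P232.Full.LemmaBCorner
import Vale.Agent.P232.Full.LemmaBCheck
import Vale.Agent.P232.Full.Min.AxisCases

/-!
# P232: the calibration for an axis of type B

A certificate of cells covers all data outside the slab corner; the margin is positive except at the
slab.
-/

namespace Vale.Agent.P232

open Set Real

namespace LemmaB

theorem exists_gap {v W a m b : ℝ} (hv : v ∈ Ioc (0 : ℝ) (1 / 2)) (h : Hyp v W a m b) :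
    ∃ ε, 0 ≤ ε ∧ GapB v W a m b ε ∧ (¬(a = 0 ∧ b = 1) → 0 < ε) := by
  have hk : kappa = 3 / 50 := rfl
  have ha : a ≤ 1 / 2 := by
    have := h.low
    rw [hk] at this
    linarith [h.a_le, hv.2]
  refine check_good hv
    (Q := fun W a m b => ∃ ε, 0 ≤ ε ∧ GapB v W a m b ε ∧ (¬(a = 0 ∧ b = 1) → 0 < ε))
    (fun W a m b hg => ⟨_, by norm_num, hg, fun _ => by norm_num⟩)
    (fun W a m b ha hm hH => goodB_corner hv hH.W_mem hH.a_nonneg ha hm hH.m_le hH.b_le hH.wide)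
    cert _ cert_ok W a m b ⟨⟨?_, ?_⟩, ⟨?_, ?_⟩, ⟨?_, ?_⟩, ⟨?_, ?_⟩⟩ h
  all_goals norm_num [LemmaA.rl]
  all_goals linarith [h.W_mem.1, h.W_mem.2, h.a_nonneg, h.a_le, h.m_le, h.b_le]

end LemmaB

/-- Away from the slab the calibration of type B beats the profile strictly. -/
theorem strictB : StrictB := by
  intro v W a m b hv hv' hW ha ham hmb hb hWm h1 h2 hne
  obtain ⟨ε, -, ⟨lam, K₁, K₂, s₁, s₂, c1, c2, r1, r2, g1, g2, hgap⟩, hpos⟩ :=
    LemmaB.exists_gap ⟨hv, hv'⟩ ⟨hW, ha, ham, hmb, hb, hWm, h1, h2⟩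
  exact ⟨lam, K₁, K₂, s₁, s₂, c1, c2, r1, r2, g1, g2, by linarith [hpos hne]⟩

end Vale.Agent.P232
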