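import Vale.Agent.P232.Full.LemmaABasic

/-!
# P232, lemma B: lower bounds for the slice lengths of an axis of type B

Squares of affine functions below the lengths are replaced by tangents, so that every bound is the root
of an affine function. The product of `√L` and `√(1 - s²)` is then concave along a segment on which `s`
is linear: a linear calibration is valid on the segment if it is valid at both ends.
-/

namespace Vale.Agent.P232.LemmaB

open MeasureTheory Set Real
open LemmaA (P4 P4_le P4_pos sqrt_P4_le)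

noncomputable section

/-- A calibration of type B whose value exceeds the profile by `ε`. -/
def GapB (v W a m b ε : ℝ) : Prop :=
  ∃ (lam K₁ K₂ : ℝ) (s₁ s₂ : ℝ → ℝ), Continuous s₁ ∧ Continuous s₂ ∧
    (∀ A, s₁ A ∈ Icc (0 : ℝ) 1) ∧ (∀ A, s₂ A ∈ Icc (0 : ℝ) 1) ∧
    (∀ A ∈ Icc m b, lam * A + K₁ ≤ √(1 - s₁ A ^ 2) * lenCross W A) ∧
    (∀ A ∈ Icc a m, lam * A + K₂ ≤ √(1 - s₂ A ^ 2) * lenOuter W A) ∧
    ballTubeSlab v + ε ≤ lam * v + 2 * kappa * K₁ + (1 - 2 * kappa) * K₂
      + 2 * ((∫ A in a..m, s₂ A) + ∫ A in m..b, s₁ A)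

theorem GapB.good {v W a m b ε : ℝ} (h : GapB v W a m b ε) (hε : 0 ≤ ε) : GoodB v W a m b := by
  obtain ⟨lam, K₁, K₂, s₁, s₂, h1, h2, h3, h4, h5, h6, h7⟩ := h
  exact ⟨lam, K₁, K₂, s₁, s₂, h1, h2, h3, h4, h5, h6, by linarith⟩

/-- A tangent of the square. -/
theorem tangent_sq_le (e x : ℝ) : e ^ 2 + 2 * e * (x - e) ≤ x ^ 2 := by nlinarith [sq_nonneg (x - e)]

/-- The disc bound for the slices in the cross zone. -/
theorem disc_le_lenCross {W A : ℝ} (hW : W ≤ 1 / 2) (hWA : 2 * W ≤ A) (hA : A ≤ 1) :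
    √(P4 * (1 - A)) ≤ lenCross W A := by
  refine (sqrt_P4_le (sub_nonneg.2 hA)).trans ?_
  unfold lenCross stadLen discLen
  split_ifs with h
  · exact le_rfl
  · have hH : 0 < 1 / 2 - W := by
      rcases (sub_nonneg.2 hW).eq_or_lt with e | e
      · refine absurd ?_ h
        rw [← e]; simp; linarith
      · exact e
    have hS : 0 ≤ 1 - A := sub_nonneg.2 hA
    have e1 : π * (1 / 2 - W) * ((1 - A) / (1 / 2 - W)) = π * (1 - A) := by
      rw [mul_assoc, mul_div_cancel₀ _ hH.ne']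
    nlinarith [sq_nonneg (π * (1 / 2 - W) - (1 - A) / (1 / 2 - W)),
      Real.sq_sqrt (show 0 ≤ π * (1 - A) by positivity), Real.sqrt_nonneg (π * (1 - A)),
      show 0 ≤ π * (1 / 2 - W) + (1 - A) / (1 / 2 - W) by positivity]

end

end Vale.Agent.P232.LemmaB
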