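import Vale.Agent.P232.Full.LemmaBBasic
import Vale.Agent.P232.Full.LemmaACell

/-!
# P232, lemma B: a certificate on a tree of cells

The cells are boxes in `(W, a, m, b)`; all numbers have denominator `10⁸`. A leaf gives the slope, the
two constants and the nodes of two piecewise linear calibrations, the outer one over `[a₀, m₁]`, the
one of the cross zone over `[m₀, b₁]`. The lengths are bounded below at `W = W₁` outside and at
`W = W₀` inside the cross zone.
-/

namespace Vale.Agent.P232.LemmaB

open LemmaA (den okRule)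

/-- The certificates. -/
inductive Cert where
  | node (axis : ℕ) (p : ℤ) (l r : Cert)
  | cell (k K₁ K₂ : ℤ) (rule : ℕ) (outer cross : List (ℤ × ℤ))
  | corner
  | empty

/-- A box. -/
structure Box where
  (W₀ W₁ a₀ a₁ m₀ m₁ b₀ b₁ : ℤ)

/-- The two halves of a box. -/
def Box.lower (B : Box) : ℕ → ℤ → Box
  | 0, p => { B with W₁ := p }
  | 1, p => { B with a₁ := p }
  | 2, p => { B with m₁ := p }
  | _, p => { B with b₁ := p }

/-- The two halves of a box. -/
def Box.upper (B : Box) : ℕ → ℤ → Box
  | 0, p => { B with W₀ := p }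
  | 1, p => { B with a₀ := p }
  | 2, p => { B with m₀ := p }
  | _, p => { B with b₀ := p }

/-- One end of a segment: `Q` is a numerator of the squared length, `c` its denominator. -/
def okEnd (l S c Q : ℤ) : Bool :=
  decide (0 ≤ Q) && (decide (l ≤ 0) || decide (l * l * c ≤ (den * den - S * S) * Q))

/-- The numerator of the line bound outside the cross zone. -/
def lineNum (W x : ℤ) : ℤ := 1000 * (x - 2 * W) + 2943 * den

/-- A tangent of the square of the line, or four. -/
def lineSq (W p A : ℤ) : ℤ :=
  if 3000 * den ≤ lineNum W p then lineNum W p * (2 * lineNum W A - lineNum W p)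
  else 9000000 * den * den

/-- A segment outside the cross zone. -/
def okOuter (k K W : ℤ) (p q : ℤ × ℤ) : Bool :=
  okEnd (k * p.1 + K * den) p.2 1000000 (12566368 * p.1 * den) &&
  okEnd (k * q.1 + K * den) q.2 1000000 (12566368 * q.1 * den) &&
  (okEnd (k * p.1 + K * den) p.2 1000000 (12566368 * (den - p.1) * den) &&
   okEnd (k * q.1 + K * den) q.2 1000000 (12566368 * (den - q.1) * den)) &&
  (okEnd (k * p.1 + K * den) p.2 2250000 (lineSq W p.1 p.1) &&
   okEnd (k * q.1 + K * den) q.2 2250000 (lineSq W p.1 q.1))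

/-- The numerator of the stadium bound, `h` being the doubled half width. -/
def stadNum (h A : ℤ) : ℤ := 3141592 * (h * h) + 4000000 * den * (den - A)

/-- A segment in the cross zone. -/
def okCross (k K W : ℤ) (p q : ℤ × ℤ) : Bool :=
  if 2 * W < den ∧ 3141593 * ((den - 2 * W) * (den - 2 * W)) ≤ 4000000 * den * (den - q.1) then
    okEnd (k * p.1 + K * den) p.2 (4000000000000 * ((den - 2 * W) * (den - 2 * W)))
      (stadNum (den - 2 * W) p.1 * (2 * stadNum (den - 2 * W) p.1 - stadNum (den - 2 * W) p.1)) &&
    okEnd (k * q.1 + K * den) q.2 (4000000000000 * ((den - 2 * W) * (den - 2 * W)))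
      (stadNum (den - 2 * W) p.1 * (2 * stadNum (den - 2 * W) q.1 - stadNum (den - 2 * W) p.1))
  else
    okEnd (k * p.1 + K * den) p.2 1000000 (12566368 * (den - p.1) * den) &&
    okEnd (k * q.1 + K * den) q.2 1000000 (12566368 * (den - q.1) * den)

/-- Increasing nodes with values in `[0, 1]` and valid segments. -/
def okList (f : ℤ × ℤ → ℤ × ℤ → Bool) : List (ℤ × ℤ) → Bool
  | [] => true
  | [p] => decide (0 ≤ p.1) && decide (p.1 ≤ den) && decide (0 ≤ p.2) && decide (p.2 ≤ den)
  | p :: q :: r => decide (0 ≤ p.1) && decide (p.1 < q.1) && decide (0 ≤ p.2) && decide (p.2 ≤ den) &&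
      f p q && okList f (q :: r)

/-- The nodes reach from `x` to `y`. -/
def covers (l : List (ℤ × ℤ)) (x y : ℤ) : Bool :=
  match l.head?, l.getLast? with
  | some p, some q => decide (p.1 ≤ x) && decide (y ≤ q.1) && decide (2 ≤ l.length)
  | _, _ => false

/-- Twice the integral over the segments inside `[x, y]`, over `den²`. -/
def trapIn (x y : ℤ) : List (ℤ × ℤ) → ℤ
  | p :: q :: r =>
      (if x ≤ p.1 ∧ q.1 ≤ y then (q.1 - p.1) * (p.2 + q.2) else 0) + trapIn x y (q :: r)
  | _ => 0

/-- The values on the segment `[x, y]`, if it is one. -/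
def segVal (x y : ℤ) : List (ℤ × ℤ) → Option (ℤ × ℤ)
  | p :: q :: r => if p.1 = x ∧ q.1 = y then some (p.2, q.2) else segVal x y (q :: r)
  | _ => none

/-- Twice a lower bound of the integral where either calibration may act, over `den²`. -/
def midTrap (x y : ℤ) (outer cross : List (ℤ × ℤ)) : ℤ :=
  if x < y then
    match segVal x y outer, segVal x y cross with
    | some (S, S'), some (T, T') => (y - x) * (min S T + min S' T')
    | _, _ => 0
  else 0

/-- The value of a leaf, over `den²`. -/
def cellVal (B : Box) (K₁ K₂ : ℤ) (outer cross : List (ℤ × ℤ)) : ℤ :=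
  (3 * K₁ + 22 * K₂) * 4000000 + trapIn B.a₁ B.m₀ outer + trapIn B.m₁ B.b₀ cross
    + midTrap (max B.a₁ B.m₀) (min B.b₀ B.m₁) outer cross

/-- The checker. -/
def check : Cert → Box → Bool
  | .node axis p l r, B => check l (B.lower axis p) && check r (B.upper axis p)
  | .cell k K₁ K₂ rule outer cross, B =>
      decide (0 ≤ B.W₀) && decide (2 * B.W₀ ≤ den) &&
      okList (okOuter k K₂ B.W₁) outer && covers outer B.a₀ B.m₁ &&
      okList (okCross k K₁ B.W₀) cross && covers cross B.m₀ B.b₁ &&
      okRule k (cellVal B K₁ K₂ outer cross - 1) rule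
  | .corner, B => decide (B.a₁ ≤ 10000) && decide (den - 10000 ≤ B.m₀)
  | .empty, B => decide (B.m₁ < 2 * B.W₀) || decide (B.m₁ < B.a₀) || decide (B.b₁ < B.m₀) ||
      decide (25 * den < 6 * B.m₀ + 44 * B.a₀)

end Vale.Agent.P232.LemmaB
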