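import Vale.Agent.P232.Full.LemmaBData

/-!
# P232, lemma B: the certificate is accepted, part 1

Generated.
-/

namespace Vale.Agent.P232.LemmaB

theorem certPart0_ok : check certPart0 ⟨0, 50000000, 0, 12500000, 0, 50000000, 0, 50000000⟩ = true := by
  decide +kernel

theorem certPart1_ok : check certPart1 ⟨0, 50000000, 12500000, 25000000, 0, 25000000, 0, 50000000⟩ = true := by
  decide +kernel

theorem certPart2_ok : check certPart2 ⟨0, 50000000, 12500000, 25000000, 25000000, 50000000, 0, 50000000⟩ = true := by
  decide +kernel

theorem certPart3_ok : check certPart3 ⟨0, 50000000, 0, 25000000, 0, 50000000, 50000000, 100000000⟩ = true := by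
  decide +kernel

theorem certPart4_ok : check certPart4 ⟨0, 50000000, 0, 6250000, 50000000, 75000000, 0, 50000000⟩ = true := by
  decide +kernel

end Vale.Agent.P232.LemmaB
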