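import Vale.Agent.P232.Full.LemmaBCell

/-!
# P232, lemma B: soundness of the checker

The calibrations are piecewise linear. On a segment the squared length is affine, so the product of
its root and `√(1 - s²)` is concave and the conditions at the two ends suffice.
-/

namespace Vale.Agent.P232.LemmaB

open MeasureTheory Set Real
open LemmaA (den okRule rl rl_le okRule_spec P4 P4_pos sqrt_P4_le)

noncomputable section

/-- The hypotheses on the data of an axis of type B. -/
structure Hyp (v W a m b : ℝ) : Prop where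
  W_mem : W ∈ Icc (0 : ℝ) (1 / 2)
  a_nonneg : 0 ≤ a
  a_le : a ≤ m
  m_le : m ≤ b
  b_le : b ≤ 1
  wide : 2 * W ≤ m
  low : 2 * kappa * m + (1 - 2 * kappa) * a ≤ v
  high : v ≤ 2 * kappa * b + (1 - 2 * kappa) * m

/-- Membership in a box. -/
structure Box.Mem (B : Box) (W a m b : ℝ) : Prop where
  hW : W ∈ Icc (rl B.W₀) (rl B.W₁)
  ha : a ∈ Icc (rl B.a₀) (rl B.a₁)
  hm : m ∈ Icc (rl B.m₀) (rl B.m₁)
  hb : b ∈ Icc (rl B.b₀) (rl B.b₁)

/-- The clamped parameter of a segment. -/
def ramp (p q : ℤ × ℤ) (A : ℝ) : ℝ := max 0 (min 1 ((A - rl p.1) / (rl q.1 - rl p.1)))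

/-- The piecewise linear function through the nodes, constant outside. -/
def interp : List (ℤ × ℤ) → ℝ → ℝ
  | [] => fun _ => 0
  | [p] => fun _ => rl p.2
  | p :: q :: r => fun A => interp (q :: r) A + (rl p.2 - rl q.2) * (1 - ramp p q A)

theorem rl_lt {m n : ℤ} (h : m < n) : rl m < rl n :=
  div_lt_div_of_pos_right (Int.cast_lt.2 h) (by norm_num)

theorem okList_cons {f : ℤ × ℤ → ℤ × ℤ → Bool} {p q : ℤ × ℤ} {r : List (ℤ × ℤ)}
    (h : okList f (p :: q :: r) = true) :
    0 ≤ p.1 ∧ p.1 < q.1 ∧ (0 ≤ p.2 ∧ p.2 ≤ den) ∧ f p q = true ∧ okList f (q :: r) = true := by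
  simp only [okList, Bool.and_eq_true, decide_eq_true_eq] at h
  obtain ⟨⟨⟨⟨⟨h1, h2⟩, h3⟩, h4⟩, h5⟩, h6⟩ := h
  exact ⟨h1, h2, ⟨h3, h4⟩, h5, h6⟩

theorem okList_head {f : ℤ × ℤ → ℤ × ℤ → Bool} {p : ℤ × ℤ} {r : List (ℤ × ℤ)}
    (h : okList f (p :: r) = true) : 0 ≤ p.1 ∧ p.1 ≤ den ∧ 0 ≤ rl p.2 ∧ rl p.2 ≤ 1 := by
  have key : ∀ (r : List (ℤ × ℤ)) (p : ℤ × ℤ), okList f (p :: r) = true →
      0 ≤ p.1 ∧ p.1 ≤ den ∧ 0 ≤ p.2 ∧ p.2 ≤ den := by
    intro r
    induction r with
    | nil =>
      intro p h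
      simp only [okList, Bool.and_eq_true, decide_eq_true_eq] at h
      exact ⟨h.1.1.1, h.1.1.2, h.1.2, h.2⟩
    | cons q r ih =>
      intro p h
      obtain ⟨h1, h2, ⟨h3, h4⟩, -, h6⟩ := okList_cons h
      exact ⟨h1, h2.le.trans (ih q h6).2.1, h3, h4⟩
  obtain ⟨h1, h2, h3, h4⟩ := key r p h
  refine ⟨h1, h2, div_nonneg (by exact_mod_cast h3) (by norm_num), ?_⟩
  rw [rl, div_le_one (by norm_num)]
  simp only [den] at h4
  exact_mod_cast h4

theorem interp_continuous : ∀ l : List (ℤ × ℤ), Continuous (interp l)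
  | [] => continuous_const
  | [_] => continuous_const
  | p :: q :: r => by
    simp only [interp]
    have := interp_continuous (q :: r)
    unfold ramp
    fun_prop

variable {f : ℤ × ℤ → ℤ × ℤ → Bool}

theorem interp_le_head : ∀ (r : List (ℤ × ℤ)) (p : ℤ × ℤ), okList f (p :: r) = true →
    ∀ A, A ≤ rl p.1 → interp (p :: r) A = rl p.2 := by
  intro r
  induction r with
  | nil => intro p _ A _; rfl
  | cons q r ih =>
    intro p h A hA
    obtain ⟨-, h2, -, -, h6⟩ := okList_cons h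
    have e : ramp p q A = 0 := by
      refine max_eq_left ((min_le_right _ _).trans ?_)
      exact div_nonpos_of_nonpos_of_nonneg (by linarith) (by linarith [rl_lt h2])
    simp only [interp, e, sub_zero, mul_one]
    rw [ih q h6 A (hA.trans (rl_lt h2).le)]
    ring

theorem interp_ge {p q : ℤ × ℤ} {r : List (ℤ × ℤ)} (h : okList f (p :: q :: r) = true) {A : ℝ}
    (hA : rl q.1 ≤ A) : interp (p :: q :: r) A = interp (q :: r) A := by
  have h2 := rl_lt (okList_cons h).2.1
  have e : ramp p q A = 1 := by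
    rw [ramp, min_eq_left ((one_le_div (by linarith)).2 (by linarith)), max_eq_right zero_le_one]
  simp [interp, e]

theorem interp_seg {p q : ℤ × ℤ} {r : List (ℤ × ℤ)} (h : okList f (p :: q :: r) = true) {t : ℝ}
    (ht : 0 ≤ t) (ht' : t ≤ 1) :
    interp (p :: q :: r) ((1 - t) * rl p.1 + t * rl q.1) = (1 - t) * rl p.2 + t * rl q.2 := by
  obtain ⟨-, h2, -, -, h6⟩ := okList_cons h
  have h2' := rl_lt h2
  have e : ramp p q ((1 - t) * rl p.1 + t * rl q.1) = t := by
    have : ((1 - t) * rl p.1 + t * rl q.1 - rl p.1) / (rl q.1 - rl p.1) = t := by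
      rw [div_eq_iff (by linarith)]; ring
    rw [ramp, this, min_eq_right ht', max_eq_right ht]
  simp only [interp, e]
  rw [interp_le_head r q h6 _ (by nlinarith)]
  ring

theorem seg_param {p q : ℤ × ℤ} (h : p.1 < q.1) {A : ℝ} (hA : A ∈ Icc (rl p.1) (rl q.1)) :
    ∃ t : ℝ, 0 ≤ t ∧ t ≤ 1 ∧ A = (1 - t) * rl p.1 + t * rl q.1 := by
  have h' := rl_lt h
  refine ⟨(A - rl p.1) / (rl q.1 - rl p.1), div_nonneg (by linarith [hA.1]) (by linarith),
    (div_le_one (by linarith)).2 (by linarith [hA.2]), ?_⟩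
  have : rl q.1 - rl p.1 ≠ 0 := by linarith
  field_simp
  ring

theorem interp_mem : ∀ (r : List (ℤ × ℤ)) (p : ℤ × ℤ), okList f (p :: r) = true →
    ∀ A, interp (p :: r) A ∈ Icc (0 : ℝ) 1 := by
  intro r
  induction r with
  | nil => intro p h A; exact ⟨(okList_head h).2.2.1, (okList_head h).2.2.2⟩
  | cons q r ih =>
    intro p h A
    obtain ⟨-, h2, -, -, h6⟩ := okList_cons h
    rcases le_total (rl q.1) A with e | e
    · rw [interp_ge h e]; exact ih q h6 A
    · simp only [interp]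
      rw [interp_le_head r q h6 A e]
      have hp := okList_head h
      have hq := okList_head h6
      have r0 : 0 ≤ ramp p q A := le_max_left _ _
      have r1 : ramp p q A ≤ 1 := max_le zero_le_one (min_le_left _ _)
      constructor <;> nlinarith [mul_le_mul_of_nonneg_left hp.2.2.2 (sub_nonneg.2 r1),
        mul_le_mul_of_nonneg_left hq.2.2.2 r0, mul_nonneg (sub_nonneg.2 r1) hp.2.2.1,
        mul_nonneg r0 hq.2.2.1]

/-- A calibration through the nodes. -/
theorem covers_cases {l : List (ℤ × ℤ)} {x y : ℤ} (h : covers l x y = true) :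
    ∃ p q r, l = p :: q :: r ∧ p.1 ≤ x ∧ y ≤ ((q :: r).getLast (List.cons_ne_nil q r)).1 := by
  match l, h with
  | [], h => simp [covers] at h
  | [p], h => simp [covers] at h
  | p :: q :: r, h =>
    simp only [covers, List.head?_cons, List.getLast?_eq_getLast_of_ne_nil (List.cons_ne_nil p (q :: r)),
      Bool.and_eq_true, decide_eq_true_eq, List.getLast_cons (List.cons_ne_nil q r)] at h
    exact ⟨p, q, r, rfl, h.1.1, h.1.2⟩

/-- A property of all segments holds everywhere between the first and the last node. -/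
theorem segments_cover {P : ℝ → ℝ → Prop} :
    ∀ (r : List (ℤ × ℤ)) (p q : ℤ × ℤ), okList f (p :: q :: r) = true →
      (∀ u w : ℤ × ℤ, f u w = true → u.1 < w.1 → 0 ≤ u.1 → w.1 ≤ den →
        0 ≤ rl u.2 → rl u.2 ≤ 1 → 0 ≤ rl w.2 → rl w.2 ≤ 1 → ∀ t : ℝ, 0 ≤ t → t ≤ 1 →
          rl u.1 ≤ (1 - t) * rl u.1 + t * rl w.1 →
          P ((1 - t) * rl u.1 + t * rl w.1) ((1 - t) * rl u.2 + t * rl w.2)) →
      ∀ A ∈ Icc (rl p.1) (rl ((q :: r).getLast (List.cons_ne_nil q r)).1),
        P A (interp (p :: q :: r) A) := by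
  intro r
  induction r with
  | nil =>
    intro p q h hP A hA
    obtain ⟨h1, h2, -, h5, h6⟩ := okList_cons h
    obtain ⟨t, ht, ht', rfl⟩ := seg_param h2 hA
    rw [interp_seg h ht ht']
    exact hP p q h5 h2 h1 (okList_head h6).2.1 (okList_head h).2.2.1 (okList_head h).2.2.2
      (okList_head h6).2.2.1 (okList_head h6).2.2.2 t ht ht' hA.1
  | cons w r ih =>
    intro p q h hP A hA
    obtain ⟨h1, h2, -, h5, h6⟩ := okList_cons h
    rcases le_total A (rl q.1) with e | e
    · obtain ⟨t, ht, ht', rfl⟩ := seg_param h2 ⟨hA.1, e⟩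
      rw [interp_seg h ht ht']
      exact hP p q h5 h2 h1 (okList_head h6).2.1 (okList_head h).2.2.1 (okList_head h).2.2.2
        (okList_head h6).2.2.1 (okList_head h6).2.2.2 t ht ht' hA.1
    · rw [interp_ge h e]
      exact ih q w h6 hP A ⟨e, by simpa using hA.2⟩

theorem intervalIntegrable_interp (l : List (ℤ × ℤ)) (x y : ℝ) :
    IntervalIntegrable (interp l) volume x y := (interp_continuous l).intervalIntegrable x y

theorem integral_seg {p q : ℤ × ℤ} {r : List (ℤ × ℤ)} (h : okList f (p :: q :: r) = true) :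
    2 * ∫ A in rl p.1..rl q.1, interp (p :: q :: r) A
      = (rl q.1 - rl p.1) * (rl p.2 + rl q.2) := by
  have h2 := rl_lt (okList_cons h).2.1
  set c := (rl q.2 - rl p.2) / (rl q.1 - rl p.1) with hc
  have e : ∫ A in rl p.1..rl q.1, interp (p :: q :: r) A
      = ∫ A in rl p.1..rl q.1, (rl p.2 + c * (A - rl p.1)) := by
    refine intervalIntegral.integral_congr fun A hA => ?_
    rw [uIcc_of_le h2.le] at hA
    obtain ⟨t, ht, ht', rfl⟩ := seg_param (okList_cons h).2.1 hA
    rw [interp_seg h ht ht', hc]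
    have : rl q.1 - rl p.1 ≠ 0 := by linarith
    field_simp
    ring
  rw [e, intervalIntegral.integral_add intervalIntegrable_const
    ((by fun_prop : Continuous fun A => c * (A - rl p.1)).intervalIntegrable _ _),
    intervalIntegral.integral_const_mul, intervalIntegral.integral_sub
      (continuous_id'.intervalIntegrable _ _) intervalIntegrable_const, integral_id,
    intervalIntegral.integral_const, intervalIntegral.integral_const, smul_eq_mul, smul_eq_mul, hc]
  have : rl q.1 - rl p.1 ≠ 0 := by linarith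
  field_simp
  ring

/-- The segments inside `[x, y]`. -/
theorem trapIn_le (x y : ℤ) : ∀ (r : List (ℤ × ℤ)) (p : ℤ × ℤ), okList f (p :: r) = true →
    (trapIn x y (p :: r) : ℝ) / 10000000000000000
      ≤ 2 * ∫ A in max (rl x) (rl p.1)..max (rl y) (max (rl x) (rl p.1)), interp (p :: r) A := by
  intro r
  induction r with
  | nil =>
    intro p h
    simp only [trapIn, Int.cast_zero, zero_div]
    exact mul_nonneg zero_le_two (intervalIntegral.integral_nonneg (le_max_right _ _)
      fun A _ => (interp_mem [] p h A).1)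
  | cons q r ih =>
    intro p h
    obtain ⟨-, h2, -, -, h6⟩ := okList_cons h
    have h2' := rl_lt h2
    set s := interp (p :: q :: r)
    set u := max (rl x) (rl p.1) with hu
    set u' := max (rl x) (rl q.1) with hu'
    set z := max (rl y) u with hz
    set z' := max (rl y) u' with hz'
    have hnn : ∀ A, 0 ≤ s A := fun A => (interp_mem (q :: r) p h A).1
    have huu : u ≤ u' := max_le_max le_rfl h2'.le
    have hi : ∀ a b, IntervalIntegrable s volume a b := intervalIntegrable_interp _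
    have e1 : ∫ A in u'..z', interp (q :: r) A = ∫ A in u'..z', s A :=
      intervalIntegral.integral_congr fun A hA => by
        rw [uIcc_of_le (le_max_right _ _)] at hA
        exact (interp_ge h ((le_max_right _ _).trans hA.1)).symm
    have hih := ih q h6
    rw [← hu', ← hz', e1] at hih
    have hmono : ∫ A in u'..z', s A ≤ ∫ A in u..z, s A ∨ rl y ≤ u' := by
      rcases le_total (rl y) u' with e | e
      · exact Or.inr e
      · refine Or.inl (intervalIntegral.integral_mono_interval huu (le_max_right _ _) ?_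
          (Filter.Eventually.of_forall hnn) (hi _ _))
        rw [hz', max_eq_left e, hz, max_eq_left (huu.trans e)]
    by_cases hc : x ≤ p.1 ∧ q.1 ≤ y
    · simp only [trapIn, if_pos hc]
      have hx := rl_le hc.1
      have hy := rl_le hc.2
      have eu : u = rl p.1 := max_eq_right hx
      have eu' : u' = rl q.1 := max_eq_right (hx.trans h2'.le)
      have ez : z = rl y := max_eq_left (by linarith)
      have ez' : z' = rl y := max_eq_left (by linarith)
      rw [eu', ez'] at hih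
      have hseg := integral_seg h
      rw [eu, ez, ← intervalIntegral.integral_add_adjacent_intervals (hi (rl p.1) (rl q.1))
        (hi (rl q.1) (rl y))]
      simp only [rl, Int.cast_add, Int.cast_mul, Int.cast_sub] at hseg hih ⊢
      linarith
    · simp only [trapIn, if_neg hc, zero_add]
      refine hih.trans (mul_le_mul_of_nonneg_left ?_ zero_le_two)
      rcases hmono with e | e
      · exact e
      · rw [show z' = u' from max_eq_right e, intervalIntegral.integral_same]
        exact intervalIntegral.integral_nonneg (le_max_right _ _) fun A _ => hnn A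

/-- The segments inside `[x, y]`, with ends. -/
theorem trapIn_bound {x y : ℤ} {p : ℤ × ℤ} {r : List (ℤ × ℤ)} (h : okList f (p :: r) = true)
    {a c : ℝ} (hac : a ≤ c) (ha : a ≤ rl x) (hc : rl y ≤ c ∨ rl y ≤ rl x) :
    (trapIn x y (p :: r) : ℝ) / 10000000000000000 ≤ 2 * ∫ A in a..c, interp (p :: r) A := by
  refine (trapIn_le x y r p h).trans (mul_le_mul_of_nonneg_left ?_ zero_le_two)
  set u := max (rl x) (rl p.1)
  have hnn : ∀ A, 0 ≤ interp (p :: r) A := fun A => (interp_mem r p h A).1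
  rcases le_or_gt (rl y) u with e | e
  · rw [max_eq_right e, intervalIntegral.integral_same]
    exact intervalIntegral.integral_nonneg hac fun A _ => hnn A
  · have hu : rl x ≤ u := le_max_left _ _
    rw [max_eq_left e.le]
    exact intervalIntegral.integral_mono_interval (ha.trans hu) e.le
      (hc.resolve_right (by linarith)) (Filter.Eventually.of_forall hnn) (intervalIntegrable_interp _ _ _)

theorem segVal_spec {x y S S' : ℤ} : ∀ (r : List (ℤ × ℤ)) (p : ℤ × ℤ),
    okList f (p :: r) = true → segVal x y (p :: r) = some (S, S') →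
      x < y ∧ p.1 ≤ x ∧ ∀ t : ℝ, 0 ≤ t → t ≤ 1 →
        interp (p :: r) ((1 - t) * rl x + t * rl y) = (1 - t) * rl S + t * rl S' := by
  intro r
  induction r with
  | nil => intro p _ h; simp [segVal] at h
  | cons q r ih =>
    intro p h hs
    obtain ⟨-, h2, -, -, h6⟩ := okList_cons h
    by_cases hc : p.1 = x ∧ q.1 = y
    · simp only [segVal, if_pos hc, Option.some.injEq, Prod.mk.injEq] at hs
      obtain ⟨rfl, rfl⟩ := hs
      rw [← hc.1, ← hc.2]
      exact ⟨h2, le_rfl, fun t ht ht' => interp_seg h ht ht'⟩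
    · simp only [segVal, if_neg hc] at hs
      obtain ⟨i1, i2, i3⟩ := ih q h6 hs
      refine ⟨i1, h2.le.trans i2, fun t ht ht' => ?_⟩
      rw [interp_ge h ?_, i3 t ht ht']
      nlinarith [rl_le i2, rl_lt i1]

/-- Either calibration may act on `[x, y]`. -/
theorem midTrap_bound {g : ℤ × ℤ → ℤ × ℤ → Bool} {x y : ℤ} {p p' : ℤ × ℤ} {r r' : List (ℤ × ℤ)}
    (h : okList f (p :: r) = true) (h' : okList g (p' :: r') = true) {z : ℝ}
    (hz : z ∈ Icc (rl x) (max (rl x) (rl y))) :
    (midTrap x y (p :: r) (p' :: r') : ℝ) / 10000000000000000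
      ≤ 2 * ((∫ A in rl x..z, interp (p :: r) A)
        + ∫ A in z..max (rl x) (rl y), interp (p' :: r') A) := by
  have hnn : 0 ≤ 2 * ((∫ A in rl x..z, interp (p :: r) A)
      + ∫ A in z..max (rl x) (rl y), interp (p' :: r') A) :=
    mul_nonneg zero_le_two (add_nonneg
      (intervalIntegral.integral_nonneg hz.1 fun A _ => (interp_mem r p h A).1)
      (intervalIntegral.integral_nonneg hz.2 fun A _ => (interp_mem r' p' h' A).1))
  unfold midTrap
  split_ifs with hxy
  swap
  · simpa using hnn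
  split
  swap
  · simpa using hnn
  next S S' T T' hS hT =>
  obtain ⟨-, -, hS'⟩ := segVal_spec r p h hS
  obtain ⟨-, -, hT'⟩ := segVal_spec r' p' h' hT
  have hlt := rl_lt hxy
  rw [max_eq_right hlt.le] at hz ⊢
  set c := (rl (min S' T') - rl (min S T)) / (rl y - rl x) with hc
  set low : ℝ → ℝ := fun A => rl (min S T) + c * (A - rl x) with hlow
  have hlowc : Continuous low := by fun_prop
  have hne : rl y - rl x ≠ 0 := by linarith
  have hkey : ∀ A ∈ Icc (rl x) (rl y), low A ≤ interp (p :: r) A ∧ low A ≤ interp (p' :: r') A := by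
    intro A hA
    obtain ⟨t, ht, ht', rfl⟩ := seg_param (p := (x, 0)) (q := (y, 0)) hxy hA
    rw [hS' t ht ht', hT' t ht ht']
    have e : low ((1 - t) * rl x + t * rl y) = (1 - t) * rl (min S T) + t * rl (min S' T') := by
      simp only [hlow, hc]
      field_simp
      ring
    rw [e]
    have h1 : 0 ≤ 1 - t := sub_nonneg.2 ht'
    exact ⟨add_le_add (mul_le_mul_of_nonneg_left (rl_le (min_le_left _ _)) h1)
        (mul_le_mul_of_nonneg_left (rl_le (min_le_left _ _)) ht),
      add_le_add (mul_le_mul_of_nonneg_left (rl_le (min_le_right _ _)) h1)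
        (mul_le_mul_of_nonneg_left (rl_le (min_le_right _ _)) ht)⟩
  have i1 := intervalIntegral.integral_mono_on (f := low) hz.1 (hlowc.intervalIntegrable (rl x) z)
    (intervalIntegrable_interp (p :: r) _ _) fun A hA => (hkey A ⟨hA.1, hA.2.trans hz.2⟩).1
  have i2 := intervalIntegral.integral_mono_on (f := low) hz.2 (hlowc.intervalIntegrable z (rl y))
    (intervalIntegrable_interp (p' :: r') _ _) fun A hA => (hkey A ⟨hz.1.trans hA.1, hA.2⟩).2
  have i3 := intervalIntegral.integral_add_adjacent_intervals (μ := volume)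
    (hlowc.intervalIntegrable (rl x) z) (hlowc.intervalIntegrable z (rl y))
  have i4 : ∫ A in rl x..rl y, low A
      = (rl y - rl x) * (rl (min S T) + rl (min S' T')) / 2 := by
    simp only [hlow]
    rw [intervalIntegral.integral_add intervalIntegrable_const
      ((by fun_prop : Continuous fun A => c * (A - rl x)).intervalIntegrable _ _),
      intervalIntegral.integral_const_mul, intervalIntegral.integral_sub
        (continuous_id'.intervalIntegrable _ _) intervalIntegrable_const, integral_id,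
      intervalIntegral.integral_const, intervalIntegral.integral_const, smul_eq_mul, smul_eq_mul, hc]
    field_simp
    ring
  have e : (((y - x) * (min S T + min S' T') : ℤ) : ℝ) / 10000000000000000
      = (rl y - rl x) * (rl (min S T) + rl (min S' T')) := by
    simp only [rl, Int.cast_mul, Int.cast_add, Int.cast_sub]
    ring
  rw [e]
  linarith

/-- The value of an affine function is at most the root of the product. -/
theorem okEnd_spec {l S c Q : ℤ} (h : okEnd l S c Q = true) (hc : 0 < c) :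
    0 ≤ (Q : ℝ) / (c * 10000000000000000) ∧ (l : ℝ) / 10000000000000000
      ≤ √((1 - rl S ^ 2) * ((Q : ℝ) / (c * 10000000000000000))) := by
  simp only [okEnd, Bool.and_eq_true, Bool.or_eq_true, decide_eq_true_eq] at h
  have hc' : (0 : ℝ) < c := by exact_mod_cast hc
  have hQ : (0 : ℝ) ≤ Q := by exact_mod_cast h.1
  refine ⟨by positivity, ?_⟩
  rcases h.2 with e | e
  · exact (div_nonpos_of_nonpos_of_nonneg (by exact_mod_cast e) (by norm_num)).trans (Real.sqrt_nonneg _)
  · simp only [den] at e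
    have e' := (Int.cast_le (R := ℝ)).2 e
    push_cast at e'
    refine Real.le_sqrt_of_sq_le ?_
    simp only [rl]
    field_simp
    linarith

/-- Valid ends give a valid segment. -/
theorem seg_valid {t l₀ l₁ σ τ X Y len : ℝ} (ht : 0 ≤ t) (ht' : t ≤ 1) (hσ : 0 ≤ σ) (hσ' : σ ≤ 1)
    (hτ : 0 ≤ τ) (hτ' : τ ≤ 1) (hX : 0 ≤ X) (hY : 0 ≤ Y) (h₀ : l₀ ≤ √((1 - σ ^ 2) * X))
    (h₁ : l₁ ≤ √((1 - τ ^ 2) * Y)) (hlen : √((1 - t) * X + t * Y) ≤ len) :
    (1 - t) * l₀ + t * l₁ ≤ √(1 - ((1 - t) * σ + t * τ) ^ 2) * len := by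
  have h1 : 0 ≤ 1 - t := sub_nonneg.2 ht'
  have hu : 0 ≤ 1 - σ ^ 2 := by nlinarith
  have hw : 0 ≤ 1 - τ ^ 2 := by nlinarith
  have hmid : (1 - t) * (1 - σ ^ 2) + t * (1 - τ ^ 2) ≤ 1 - ((1 - t) * σ + t * τ) ^ 2 := by
    nlinarith [mul_nonneg (mul_nonneg ht h1) (sq_nonneg (σ - τ))]
  refine le_trans ?_ (mul_le_mul_of_nonneg_left hlen (Real.sqrt_nonneg _))
  refine (add_le_add (mul_le_mul_of_nonneg_left h₀ h1) (mul_le_mul_of_nonneg_left h₁ ht)).trans ?_
  rw [← Real.sqrt_mul (le_trans (by positivity) hmid)]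
  refine le_trans ?_ (Real.sqrt_le_sqrt (mul_le_mul_of_nonneg_right hmid (by positivity)))
  refine Real.le_sqrt_of_sq_le ?_
  set P := √((1 - σ ^ 2) * X) with hP
  set R := √((1 - τ ^ 2) * Y) with hR
  have hP2 : P * P = (1 - σ ^ 2) * X := Real.mul_self_sqrt (mul_nonneg hu hX)
  have hR2 : R * R = (1 - τ ^ 2) * Y := Real.mul_self_sqrt (mul_nonneg hw hY)
  have hPR : 2 * (P * R) ≤ (1 - σ ^ 2) * Y + (1 - τ ^ 2) * X := by
    have h2 : (2 * (P * R)) ^ 2 ≤ ((1 - σ ^ 2) * Y + (1 - τ ^ 2) * X) ^ 2 := by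
      have : (P * R) ^ 2 = (1 - σ ^ 2) * X * ((1 - τ ^ 2) * Y) := by rw [← hP2, ← hR2]; ring
      nlinarith [sq_nonneg ((1 - σ ^ 2) * Y - (1 - τ ^ 2) * X)]
    exact le_of_abs_le (abs_le_of_sq_le_sq h2 (by positivity))
  have hP3 : ((1 - t) * P) ^ 2 = (1 - t) ^ 2 * ((1 - σ ^ 2) * X) := by rw [← hP2]; ring
  have hR3 : (t * R) ^ 2 = t ^ 2 * ((1 - τ ^ 2) * Y) := by rw [← hR2]; ring
  have hPR' := mul_le_mul_of_nonneg_left hPR (mul_nonneg h1 ht)
  rw [add_sq, hP3, hR3]
  linarith

theorem affine_value (k K x : ℤ) :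
    ((k * x + K * den : ℤ) : ℝ) / 10000000000000000 = rl k * rl x + rl K := by
  simp only [rl, den, Int.cast_add, Int.cast_mul, Int.cast_ofNat]
  ring

/-- One bound of a segment. -/
theorem end_pair {k K : ℤ} {p q : ℤ × ℤ} {c Qp Qnext : ℤ} (hc : 0 < c)
    (h₀ : okEnd (k * p.1 + K * den) p.2 c Qp = true) (h₁ : okEnd (k * q.1 + K * den) q.2 c Qnext = true)
    (hσ : 0 ≤ rl p.2) (hσ' : rl p.2 ≤ 1) (hτ : 0 ≤ rl q.2) (hτ' : rl q.2 ≤ 1) {t len : ℝ}
    (ht : 0 ≤ t) (ht' : t ≤ 1)
    (hlen : √((1 - t) * ((Qp : ℝ) / (c * 10000000000000000))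
      + t * ((Qnext : ℝ) / (c * 10000000000000000))) ≤ len) :
    rl k * ((1 - t) * rl p.1 + t * rl q.1) + rl K
      ≤ √(1 - ((1 - t) * rl p.2 + t * rl q.2) ^ 2) * len := by
  obtain ⟨a1, a2⟩ := okEnd_spec h₀ hc
  obtain ⟨b1, b2⟩ := okEnd_spec h₁ hc
  rw [affine_value] at a2 b2
  exact le_trans (le_of_eq (by ring)) (seg_valid ht ht' hσ hσ' hτ hτ' a1 b1 a2 b2 hlen)

theorem outer_valid {k K W₁ : ℤ} {p q : ℤ × ℤ} (h : okOuter k K W₁ p q = true) (hpq : p.1 < q.1)
    (hp : 0 ≤ p.1) (hq : q.1 ≤ den) (hσ : 0 ≤ rl p.2) (hσ' : rl p.2 ≤ 1) (hτ : 0 ≤ rl q.2)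
    (hτ' : rl q.2 ≤ 1) {W t : ℝ} (hW : W ≤ rl W₁) (ht : 0 ≤ t) (ht' : t ≤ 1) :
    rl k * ((1 - t) * rl p.1 + t * rl q.1) + rl K
      ≤ √(1 - ((1 - t) * rl p.2 + t * rl q.2) ^ 2) * lenOuter W ((1 - t) * rl p.1 + t * rl q.1) := by
  simp only [okOuter, Bool.and_eq_true] at h
  obtain ⟨⟨⟨h1, h2⟩, h3, h4⟩, h5, h6⟩ := h
  set A := (1 - t) * rl p.1 + t * rl q.1 with hA
  have hp' : 0 ≤ rl p.1 := div_nonneg (by exact_mod_cast hp) (by norm_num)
  have hq' : rl q.1 ≤ 1 := by
    rw [rl, div_le_one (by norm_num)]; simp only [den] at hq; exact_mod_cast hq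
  have h1t : 0 ≤ 1 - t := sub_nonneg.2 ht'
  have hA0 : 0 ≤ A := add_nonneg (mul_nonneg h1t hp') (mul_nonneg ht (hp'.trans (rl_lt hpq).le))
  have hA1 : A ≤ 1 := by nlinarith [(rl_lt hpq).le]
  rw [lenOuter, mul_min_of_nonneg _ _ (Real.sqrt_nonneg _), mul_min_of_nonneg _ _ (Real.sqrt_nonneg _)]
  refine le_min ?_ (le_min ?_ ?_)
  · refine end_pair (by norm_num) h1 h2 hσ hσ' hτ hτ' ht ht' (le_trans (le_of_eq ?_) (sqrt_P4_le hA0))
    congr 1
    simp only [hA, rl, P4, den, Int.cast_mul, Int.cast_ofNat]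
    ring
  · refine end_pair (by norm_num) h3 h4 hσ hσ' hτ hτ' ht ht'
      (le_trans (le_of_eq ?_) (sqrt_P4_le (sub_nonneg.2 hA1)))
    congr 1
    simp only [hA, rl, P4, den, Int.cast_mul, Int.cast_sub, Int.cast_ofNat]
    ring
  · refine end_pair (by norm_num) h5 h6 hσ hσ' hτ hτ' ht ht' ?_
    unfold lineSq
    by_cases hc : 3000 * den ≤ lineNum W₁ p.1
    · rw [if_pos hc, if_pos hc]
      set n₀ : ℝ := (lineNum W₁ p.1 : ℤ) / 150000000000 with hn₀
      set n : ℝ := (A - 2 * rl W₁) / (3 / 2) + 981 / 500 with hn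
      have e : (1 - t) * (((lineNum W₁ p.1 * (2 * lineNum W₁ p.1 - lineNum W₁ p.1) : ℤ) : ℝ)
            / ((2250000 : ℤ) * 10000000000000000))
          + t * (((lineNum W₁ p.1 * (2 * lineNum W₁ q.1 - lineNum W₁ p.1) : ℤ) : ℝ)
            / ((2250000 : ℤ) * 10000000000000000))
          = n₀ ^ 2 + 2 * n₀ * (n - n₀) := by
        simp only [hn₀, hn, hA, lineNum, rl, den, Int.cast_mul, Int.cast_add, Int.cast_sub,
          Int.cast_ofNat]
        ring
      rw [e]
      refine (Real.sqrt_le_sqrt (tangent_sq_le n₀ n)).trans ?_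
      have h2n : 2 ≤ n := by
        simp only [lineNum, den] at hc
        have hc' := (Int.cast_le (R := ℝ)).2 hc
        push_cast at hc'
        have hpA : rl p.1 ≤ A := by nlinarith [(rl_lt hpq).le]
        simp only [hn, rl] at hpA ⊢
        linarith
      rw [Real.sqrt_sq (by linarith)]
      refine le_max_of_le_right ?_
      simp only [hn]
      gcongr
    · rw [if_neg hc, if_neg hc]
      refine le_max_of_le_left (le_of_eq ?_)
      rw [Real.sqrt_eq_iff_eq_sq (by simp only [den]; norm_num; linarith) (by norm_num)]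
      simp only [den, Int.cast_mul, Int.cast_ofNat]
      ring

/-- The stadium bound from a wider strip. -/
theorem stadium_le_lenCross {W W' A : ℝ} (hW' : W' < 1 / 2) (hWW : W' ≤ W)
    (hWA : 2 * W ≤ A) (hS : π * (1 / 2 - W') ^ 2 ≤ 1 - A) :
    (3141592 / 1000000) * (1 / 2 - W') + (1 - A) / (1 / 2 - W') ≤ lenCross W A := by
  have hH' : 0 < 1 / 2 - W' := by linarith
  have hS0 : 0 < 1 - A := lt_of_lt_of_le (by positivity) hS
  have hH : 0 < 1 / 2 - W := by linarith
  have hle : 1 / 2 - W ≤ 1 / 2 - W' := by linarith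
  have hpi := pi_gt_d6
  have key : π * (1 / 2 - W') + (1 - A) / (1 / 2 - W') ≤ π * (1 / 2 - W) + (1 - A) / (1 / 2 - W) := by
    have e : π * (1 / 2 - W) + (1 - A) / (1 / 2 - W) - (π * (1 / 2 - W') + (1 - A) / (1 / 2 - W'))
        = ((1 / 2 - W') - (1 / 2 - W)) * ((1 - A) - π * (1 / 2 - W) * (1 / 2 - W'))
          / ((1 / 2 - W) * (1 / 2 - W')) :=
      (show ∀ H H' S : ℝ, H ≠ 0 → H' ≠ 0 → π * H + S / H - (π * H' + S / H')
          = (H' - H) * (S - π * H * H') / (H * H') from fun H H' S h1 h2 => by field_simp; ring)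
        _ _ _ hH.ne' hH'.ne'
    have : 0 ≤ ((1 / 2 - W') - (1 / 2 - W)) * ((1 - A) - π * (1 / 2 - W) * (1 / 2 - W'))
          / ((1 / 2 - W) * (1 / 2 - W')) := by
      refine div_nonneg (mul_nonneg (by linarith) ?_) (by positivity)
      have := mul_le_mul_of_nonneg_left hle (mul_nonneg pi_pos.le hH'.le)
      nlinarith
    linarith
  refine le_trans (by nlinarith : _ ≤ π * (1 / 2 - W') + (1 - A) / (1 / 2 - W')) (key.trans ?_)
  unfold lenCross stadLen
  split_ifs with h
  · have heq : 1 - A = π * (1 / 2 - W) ^ 2 := le_antisymm h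
      (le_trans (mul_le_mul_of_nonneg_left (pow_le_pow_left₀ hH.le hle 2) pi_pos.le) hS)
    rw [heq, show π * (π * (1 / 2 - W) ^ 2) = (π * (1 / 2 - W)) ^ 2 by ring,
      Real.sqrt_sq (by positivity)]
    refine le_of_eq ?_
    field_simp
    ring
  · exact le_rfl

theorem cross_valid {k K W₀ : ℤ} {p q : ℤ × ℤ} (h : okCross k K W₀ p q = true) (hpq : p.1 < q.1)
    (hσ : 0 ≤ rl p.2) (hσ' : rl p.2 ≤ 1) (hτ : 0 ≤ rl q.2) (hτ' : rl q.2 ≤ 1) {W t : ℝ}
    (hW : rl W₀ ≤ W) (hW' : W ≤ 1 / 2) (ht : 0 ≤ t) (ht' : t ≤ 1)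
    (hWA : 2 * W ≤ (1 - t) * rl p.1 + t * rl q.1) (hA1 : (1 - t) * rl p.1 + t * rl q.1 ≤ 1) :
    rl k * ((1 - t) * rl p.1 + t * rl q.1) + rl K
      ≤ √(1 - ((1 - t) * rl p.2 + t * rl q.2) ^ 2)
          * lenCross W ((1 - t) * rl p.1 + t * rl q.1) := by
  set A := (1 - t) * rl p.1 + t * rl q.1 with hA
  unfold okCross at h
  split_ifs at h with hc
  · simp only [Bool.and_eq_true] at h
    obtain ⟨hc1, hc2⟩ := hc
    simp only [den] at hc1 hc2
    have hc1' := (Int.cast_lt (R := ℝ)).2 hc1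
    have hc2' := (Int.cast_le (R := ℝ)).2 hc2
    push_cast at hc1' hc2'
    have hH : 0 < 1 / 2 - rl W₀ := by simp only [rl]; linarith
    have hpos : (0 : ℤ) < den - 2 * W₀ := by simp only [den]; linarith
    refine end_pair (by positivity) h.1 h.2 hσ hσ' hτ hτ' ht ht' ?_
    set n₀ : ℝ := (3141592 / 1000000) * (1 / 2 - rl W₀) + (1 - rl p.1) / (1 / 2 - rl W₀) with hn₀
    set n : ℝ := (3141592 / 1000000) * (1 / 2 - rl W₀) + (1 - A) / (1 / 2 - rl W₀) with hn
    have hne : (100000000 : ℝ) - 2 * W₀ ≠ 0 := by linarith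
    have hne2 : (1 : ℝ) / 2 - rl W₀ ≠ 0 := hH.ne'
    have e : (1 - t) * (((stadNum (den - 2 * W₀) p.1 * (2 * stadNum (den - 2 * W₀) p.1
            - stadNum (den - 2 * W₀) p.1) : ℤ) : ℝ)
            / ((4000000000000 * ((den - 2 * W₀) * (den - 2 * W₀)) : ℤ) * 10000000000000000))
          + t * (((stadNum (den - 2 * W₀) p.1 * (2 * stadNum (den - 2 * W₀) q.1
            - stadNum (den - 2 * W₀) p.1) : ℤ) : ℝ)
            / ((4000000000000 * ((den - 2 * W₀) * (den - 2 * W₀)) : ℤ) * 10000000000000000))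
          = n₀ ^ 2 + 2 * n₀ * (n - n₀) := by
      simp only [hn₀, hn, hA, stadNum, rl, den, Int.cast_mul, Int.cast_add, Int.cast_sub,
        Int.cast_ofNat]
      have : (1 : ℝ) / 2 - (W₀ : ℝ) / 100000000 ≠ 0 := by simpa [rl] using hne2
      field_simp
      ring
    rw [e]
    refine (Real.sqrt_le_sqrt (tangent_sq_le n₀ n)).trans ?_
    have hS : π * (1 / 2 - rl W₀) ^ 2 ≤ 1 - A := by
      have h1 : π * (1 / 2 - rl W₀) ^ 2 ≤ (3141593 / 1000000) * (1 / 2 - rl W₀) ^ 2 :=
        mul_le_mul_of_nonneg_right (by linarith [pi_lt_d6]) (sq_nonneg _)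
      have h2 : A ≤ rl q.1 := by nlinarith [(rl_lt hpq).le]
      refine h1.trans (le_trans ?_ (show 1 - rl q.1 ≤ 1 - A by linarith))
      simp only [rl]
      linarith
    rw [Real.sqrt_sq (add_nonneg (by positivity) (div_nonneg (by linarith) hH.le))]
    exact stadium_le_lenCross (by linarith) hW hWA hS
  · simp only [Bool.and_eq_true] at h
    refine end_pair (by norm_num) h.1 h.2 hσ hσ' hτ hτ' ht ht'
      (le_trans (le_of_eq ?_) (disc_le_lenCross hW' hWA hA1))
    congr 1
    simp only [hA, rl, P4, den, Int.cast_mul, Int.cast_sub, Int.cast_ofNat]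
    ring

theorem cell_good {B : Box} {k K₁ K₂ : ℤ} {rule : ℕ} {outer cross : List (ℤ × ℤ)}
    (h : check (.cell k K₁ K₂ rule outer cross) B = true) {v W a m b : ℝ}
    (hv : v ∈ Ioc (0 : ℝ) (1 / 2)) (hB : B.Mem W a m b) (hH : Hyp v W a m b) :
    GapB v W a m b (1 / 10000000000000000) := by
  simp only [check, Bool.and_eq_true, decide_eq_true_eq] at h
  obtain ⟨⟨⟨⟨⟨⟨-, -⟩, ho⟩, hoc⟩, hx⟩, hxc⟩, hr⟩ := h
  obtain ⟨p, q, r, rfl, hpa, hpm⟩ := covers_cases hoc
  obtain ⟨p', q', r', rfl, hpa', hpm'⟩ := covers_cases hxc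
  set s₂ := interp (p :: q :: r) with hs₂
  set s₁ := interp (p' :: q' :: r') with hs₁
  refine ⟨rl k, rl K₁, rl K₂, s₁, s₂, interp_continuous _, interp_continuous _,
    interp_mem _ _ hx, interp_mem _ _ ho, ?_, ?_, ?_⟩
  · intro A hA
    have hrange : A ∈ Icc (rl p'.1) (rl ((q' :: r').getLast (List.cons_ne_nil q' r')).1) :=
      ⟨((rl_le hpa').trans hB.hm.1).trans hA.1, hA.2.trans (hB.hb.2.trans (rl_le hpm'))⟩
    refine segments_cover (P := fun x y => m ≤ x → x ≤ b →
      rl k * x + rl K₁ ≤ √(1 - y ^ 2) * lenCross W x) r' p' q' hx ?_ A hrange hA.1 hA.2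
    intro u w huw hlt _ _ hu hu' hw hw' t ht ht' _ hmx hxb
    exact cross_valid huw hlt hu hu' hw hw' hB.hW.1 hH.W_mem.2 ht ht' (hH.wide.trans hmx)
      (hxb.trans hH.b_le)
  · intro A hA
    have hrange : A ∈ Icc (rl p.1) (rl ((q :: r).getLast (List.cons_ne_nil q r)).1) :=
      ⟨((rl_le hpa).trans hB.ha.1).trans hA.1, hA.2.trans (hB.hm.2.trans (rl_le hpm))⟩
    refine segments_cover (P := fun x y => rl k * x + rl K₂ ≤ √(1 - y ^ 2) * lenOuter W x)
      r p q ho ?_ A hrange
    intro u w huw hlt hu0 hw1 hu hu' hw hw' t ht ht' _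
    exact outer_valid huw hlt hu0 hw1 hu hu' hw hw' hB.hW.2 ht ht'
  · have hbeat := okRule_spec hr v hv
    set x := max B.a₁ B.m₀ with hxdef
    set y := min B.b₀ B.m₁ with hydef
    have ex : rl x = max (rl B.a₁) (rl B.m₀) :=
      (Monotone.map_max (fun _ _ e => rl_le e : Monotone rl))
    have ey : rl y = min (rl B.b₀) (rl B.m₁) :=
      (Monotone.map_min (fun _ _ e => rl_le e : Monotone rl))
    set z := max (rl x) (min m (rl y)) with hz
    set Y := max (rl x) (rl y) with hY
    have hzmem : z ∈ Icc (rl x) Y := ⟨le_max_left _ _, max_le_max le_rfl (min_le_right _ _)⟩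
    have hmid := midTrap_bound (x := x) (y := y) ho hx hzmem
    rw [← hs₁, ← hs₂, ← hY] at hmid
    have ha1 := hB.ha.2
    have hm0 := hB.hm.1
    have hm1 := hB.hm.2
    have hb0 := hB.hb.1
    have n2 : ∀ A, 0 ≤ s₂ A := fun A => (interp_mem _ _ ho A).1
    have n1 : ∀ A, 0 ≤ s₁ A := fun A => (interp_mem _ _ hx A).1
    have hi : ∀ l u w, IntervalIntegrable (interp l) volume u w := intervalIntegrable_interp
    -- outside
    have hout : (trapIn B.a₁ B.m₀ (p :: q :: r) : ℝ) / 10000000000000000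
        + 2 * ∫ A in rl x..z, s₂ A ≤ 2 * ∫ A in a..m, s₂ A := by
      rcases le_or_gt m (rl x) with e | e
      · have ez : z = rl x := max_eq_left ((min_le_left _ _).trans e)
        rw [ez, intervalIntegral.integral_same, mul_zero, add_zero]
        exact trapIn_bound ho hH.a_le ha1 (Or.inl hm0)
      · have hax : a ≤ rl x := ha1.trans (ex ▸ le_max_left _ _)
        have hmx : rl B.m₀ ≤ rl x := ex ▸ le_max_right _ _
        have hzm : z ≤ m := max_le e.le (min_le_left _ _)
        have t1 := trapIn_bound (x := B.a₁) (y := B.m₀) ho hax ha1 (Or.inl hmx)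
        have t2 : ∫ A in rl x..z, s₂ A ≤ ∫ A in rl x..m, s₂ A :=
          intervalIntegral.integral_mono_interval le_rfl hzmem.1 hzm
            (Filter.Eventually.of_forall n2) (hi _ _ _)
        rw [← intervalIntegral.integral_add_adjacent_intervals (hi (p :: q :: r) a (rl x))
          (hi (p :: q :: r) (rl x) m)]
        linarith
    -- inside
    have hin : (trapIn B.m₁ B.b₀ (p' :: q' :: r') : ℝ) / 10000000000000000
        + 2 * ∫ A in z..Y, s₁ A ≤ 2 * ∫ A in m..b, s₁ A := by
      rcases le_or_gt Y z with e | e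
      · have ez : z = Y := le_antisymm hzmem.2 e
        rw [ez, intervalIntegral.integral_same, mul_zero, add_zero]
        exact trapIn_bound hx hH.m_le hm1 (Or.inl hb0)
      · have hxy : rl x < rl y := by
          by_contra hcon
          have : Y = rl x := max_eq_left (le_of_not_gt hcon)
          linarith [hzmem.1]
        have hYy : Y = rl y := max_eq_right hxy.le
        have hmy : m < rl y := by
          by_contra hcon
          have : z = rl y := by
            rw [hz, min_eq_right (le_of_not_gt hcon), max_eq_right hxy.le]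
          linarith
        have hyb : rl y ≤ rl B.b₀ := ey ▸ min_le_left _ _
        have hym : rl y ≤ rl B.m₁ := ey ▸ min_le_right _ _
        have hmz : m ≤ z := le_max_of_le_right (le_min le_rfl hmy.le)
        have t1 := trapIn_bound (x := B.m₁) (y := B.b₀) hx
          (show rl y ≤ b from hyb.trans hb0) hym (Or.inl hb0)
        have t2 : ∫ A in z..Y, s₁ A ≤ ∫ A in m..rl y, s₁ A := by
          rw [hYy] at e ⊢
          exact intervalIntegral.integral_mono_interval hmz e.le le_rfl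
            (Filter.Eventually.of_forall n1) (hi _ _ _)
        rw [← intervalIntegral.integral_add_adjacent_intervals (hi (p' :: q' :: r') m (rl y))
          (hi (p' :: q' :: r') (rl y) b)]
        linarith
    have eK : ((cellVal B K₁ K₂ (p :: q :: r) (p' :: q' :: r') - 1 : ℤ) : ℝ) / 10000000000000000
        + 1 / 10000000000000000
        = 2 * kappa * rl K₁ + (1 - 2 * kappa) * rl K₂
          + ((trapIn B.a₁ B.m₀ (p :: q :: r) : ℝ) / 10000000000000000
            + (trapIn B.m₁ B.b₀ (p' :: q' :: r') : ℝ) / 10000000000000000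
            + (midTrap x y (p :: q :: r) (p' :: q' :: r') : ℝ) / 10000000000000000) := by
      simp only [cellVal, kappa, rl, ← hxdef, ← hydef, Int.cast_sub, Int.cast_add, Int.cast_mul,
        Int.cast_ofNat, Int.cast_one]
      ring
    linarith

theorem mem_lower {B : Box} {W a m b : ℝ} {axis : ℕ} {p : ℤ} (h : B.Mem W a m b)
    (hle : [W, a, m, b].getD (min axis 3) 0 ≤ rl p) : (B.lower axis p).Mem W a m b := by
  obtain ⟨h1, h2, h3, h4⟩ := h
  match axis with
  | 0 => exact ⟨⟨h1.1, by simpa [Box.lower, Box.upper] using hle⟩, h2, h3, h4⟩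
  | 1 => exact ⟨h1, ⟨h2.1, by simpa [Box.lower, Box.upper] using hle⟩, h3, h4⟩
  | 2 => exact ⟨h1, h2, ⟨h3.1, by simpa [Box.lower, Box.upper] using hle⟩, h4⟩
  | n + 3 => exact ⟨h1, h2, h3, ⟨h4.1, by simpa [Box.lower, Box.upper] using hle⟩⟩

theorem mem_upper {B : Box} {W a m b : ℝ} {axis : ℕ} {p : ℤ} (h : B.Mem W a m b)
    (hle : rl p ≤ [W, a, m, b].getD (min axis 3) 0) : (B.upper axis p).Mem W a m b := by
  obtain ⟨h1, h2, h3, h4⟩ := h
  match axis with
  | 0 => exact ⟨⟨by simpa [Box.lower, Box.upper] using hle, h1.2⟩, h2, h3, h4⟩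
  | 1 => exact ⟨h1, ⟨by simpa [Box.lower, Box.upper] using hle, h2.2⟩, h3, h4⟩
  | 2 => exact ⟨h1, h2, ⟨by simpa [Box.lower, Box.upper] using hle, h3.2⟩, h4⟩
  | n + 3 => exact ⟨h1, h2, h3, ⟨by simpa [Box.lower, Box.upper] using hle, h4.2⟩⟩

/-- A checked tree covers its box, given the corner next to the slab. -/
theorem check_good {v : ℝ} (hv : v ∈ Ioc (0 : ℝ) (1 / 2)) {Q : ℝ → ℝ → ℝ → ℝ → Prop}
    (hcell : ∀ W a m b, GapB v W a m b (1 / 10000000000000000) → Q W a m b)
    (hcorner : ∀ W a m b : ℝ, a ≤ 1 / 10000 → 1 - 1 / 10000 ≤ m → Hyp v W a m b → Q W a m b) :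
    ∀ (c : Cert) (B : Box), check c B = true →
      ∀ W a m b : ℝ, B.Mem W a m b → Hyp v W a m b → Q W a m b := by
  intro c
  induction c with
  | node axis p l r il ir =>
    intro B h W a m b hB hH
    simp only [check, Bool.and_eq_true] at h
    rcases le_total ([W, a, m, b].getD (min axis 3) 0) (rl p) with e | e
    · exact il _ h.1 W a m b (mem_lower hB e) hH
    · exact ir _ h.2 W a m b (mem_upper hB e) hH
  | cell k K₁ K₂ rule outer cross =>
    intro B h W a m b hB hH
    exact hcell W a m b (cell_good h hv hB hH)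
  | corner =>
    intro B h W a m b hB hH
    simp only [check, Bool.and_eq_true, decide_eq_true_eq] at h
    refine hcorner W a m b ((hB.ha.2.trans (rl_le h.1)).trans (by norm_num [rl])) ?_ hH
    refine le_trans ?_ ((rl_le h.2).trans hB.hm.1)
    norm_num [rl, den]
  | empty =>
    intro B h W a m b hB hH
    simp only [check, Bool.or_eq_true, decide_eq_true_eq] at h
    exfalso
    have hwide := hH.wide
    rcases h with ((e | e) | e) | e
    · have e' := (Int.cast_lt (R := ℝ)).2 e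
      push_cast at e'
      have w1 := hB.hW.1
      have w2 := hB.hm.2
      simp only [rl] at w1 w2
      linarith
    · linarith [rl_lt e, hB.ha.1, hB.hm.2, hH.a_le]
    · linarith [rl_lt e, hB.hm.1, hB.hb.2, hH.m_le]
    · have e' := (Int.cast_lt (R := ℝ)).2 e
      simp only [den] at e'
      push_cast at e'
      have w1 := hB.hm.1
      have w2 := hB.ha.1
      have hlow := hH.low
      simp only [rl] at w1 w2
      norm_num [kappa] at hlow
      linarith [hv.2]

end

end Vale.Agent.P232.LemmaB
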