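import Vale.Agent.P232.Full.Min.Symmetric
import Vale.Agent.P232.Full.Min.Classify
import Vale.Agent.P232.Full.Min.Competitors

/-!
# P232: the profile and the minimisers from the calibrations of type B

Given the calibrations of type B, the profile is the least perimeter of a ball, a tube or a slab, and the
minimisers are exactly their translates and the complements of these.
-/

namespace Vale.Agent.P232

open MeasureTheory Set Function Real

noncomputable section

variable {M : Set (Fin 3 → ℝ)} {v a b : ℝ} {i : Fin 3} {L : ℝ → ℝ}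

/-- The calibrations of type A bound the total variation from below. -/
theorem AxisData.boundA (d : AxisData M v i L a b) {c : ℝ} (hI : SliceIneq L (sliceArea M i) c)
    (hv : 0 < v) (hv' : v ≤ 1 / 2) (hM : HasVolume M v)
    (hs : SymmDecr (M.indicator fun _ => (1 : ℝ))) (hA : AxisA M i) : ballTubeSlab v ≤ c := by
  obtain ⟨hav, hvb⟩ := d.le_v hM.meas
  obtain ⟨lam, K, s, hsc, hs01, hval, hJ⟩ := goodA hv hv' d.ha.1 hav hvb d.hb.2
  have hmono := sliceArea_antitone hM.meas hs i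
  have key : ∀ᵐ z ∂volume.restrict period,
      lam * sliceArea M i z + K ≤ √(1 - s (sliceArea M i z) ^ 2) * L z := by
    filter_upwards [d.lenA_le_L hA, d.ae_mem] with z hz hm
    exact (hval _ hm.2.2).trans (mul_le_mul_of_nonneg_left hz (Real.sqrt_nonneg _))
  have h := core_bound hI d.integrable d.meas d.nonneg (measurable_sliceArea hM.meas i)
    (sliceArea_mem hM.meas i) hmono d.endLimit d.tendsto (q := 1 / 4) (m := sliceArea M i (1 / 4))
    (by norm_num) (fun z hz => hmono z (1 / 4) (hz.le.trans (le_abs_self _)) (by norm_num))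
    (fun z hz hz' => hmono (1 / 4) z (by rw [abs_of_pos (by norm_num : (0 : ℝ) < 1 / 4)]; exact hz.le) hz')
    hsc hs01 hsc hs01 (lam := lam) (K₁ := K) (K₂ := K) (key.mono fun z h _ => h) (key.mono fun z h _ => h)
  rw [d.total, intervalIntegral.integral_add_adjacent_intervals (hsc.intervalIntegrable _ _)
    (hsc.intervalIntegrable _ _)] at h
  linarith

/-- The calibrations of type B, the slab included. -/
theorem StrictB.good (hB : StrictB) {v W a m b : ℝ} (hv : 0 < v) (hv' : v ≤ 1 / 2)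
    (hW : W ∈ Icc 0 (1 / 2)) (ha : 0 ≤ a) (ham : a ≤ m) (hmb : m ≤ b) (hb : b ≤ 1) (hWm : 2 * W ≤ m)
    (h1 : 2 * kappa * m + (1 - 2 * kappa) * a ≤ v) (h2 : v ≤ 2 * kappa * b + (1 - 2 * kappa) * m) :
    GoodB v W a m b := by
  by_cases hslab : a = 0 ∧ b = 1
  · obtain ⟨rfl, rfl⟩ := hslab
    refine ⟨0, 0, 0, fun _ => 1, fun _ => 1, continuous_const, continuous_const,
      fun _ => ⟨zero_le_one, le_rfl⟩, fun _ => ⟨zero_le_one, le_rfl⟩, fun A _ => by simp, fun A _ => by simp,
      ?_⟩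
    simp only [intervalIntegral.integral_const, smul_eq_mul, mul_one]
    linarith [LemmaA.le_two hv']
  · obtain ⟨lam, K₁, K₂, s₁, s₂, hc₁, hc₂, hr₁, hr₂, hv₁, hv₂, hgt⟩ :=
      hB hv hv' hW ha ham hmb hb hWm h1 h2 hslab
    exact ⟨lam, K₁, K₂, s₁, s₂, hc₁, hc₂, hr₁, hr₂, hv₁, hv₂, hgt.le⟩

/-- The lower bound for a symmetric decreasing set. -/
theorem symm_lower_of (hB : StrictB) (hv : 0 < v) (hv' : v ≤ 1 / 2) (hM : HasVolume M v)
    (hs : SymmDecr (M.indicator fun _ => (1 : ℝ))) {c : ℝ}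
    (hc : TVLE (M.indicator fun _ => (1 : ℝ)) c) : ballTubeSlab v ≤ c := by
  by_contra hlt
  have hcJ : TVLE (M.indicator fun _ => (1 : ℝ)) (ballTubeSlab v) :=
    fun F hF => (hc F hF).trans (not_le.1 hlt).le
  have data : ∀ i : Fin 3, ∃ (L : ℝ → ℝ) (a b : ℝ),
      AxisData M v i L a b ∧ SliceIneq L (sliceArea M i) c := by
    intro i
    obtain ⟨L, hL0, hLm, hLi, hLtv, hI⟩ := exists_slice_bound hM.meas hM.periodic hc i
    obtain ⟨L', a, b, d⟩ := exists_axisData hv.le hM hs hcJ i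
    have hI' : SliceIneq L (sliceArea M i) c := by
      rw [funext (sliceArea_eq M i)]
      exact hI
    exact ⟨L, a, b, { d with
      nonneg := hL0, meas := hLm, integrable := hLi,
      planar := hLtv.mono fun z hz => planarSet_slice hM.meas hM.periodic hs hz,
      ineq := fun α β h₁ h₂ h₃ h₄ h₅ => (hI' α β h₁ h₂ h₃ h₄ h₅).trans (not_le.1 hlt).le }, hI'⟩
  rcases axis_cases hM.meas hs with ⟨i, hA⟩ | ⟨i, hA⟩
  · obtain ⟨L, a, b, d, hI⟩ := data i
    exact hlt (d.boundA hI hv hv' hM hs hA)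
  · obtain ⟨L, a, b, d, hI⟩ := data i
    obtain ⟨W, m, hW, hm₁, hm₂, hWm, h1, h2, hbd⟩ := d.boundB hI hM hs hA
    obtain ⟨lam, K₁, K₂, s₁, s₂, hc₁, hc₂, hr₁, hr₂, hv₁, hv₂, hgt⟩ :=
      hB.good hv hv' hW d.ha.1 hm₁ hm₂ d.hb.2 hWm h1 h2
    linarith [hbd lam K₁ K₂ s₁ s₂ hc₁ hc₂ hr₁ hr₂ hv₁ hv₂]

theorem ballTubeSlab_compl (V : ℝ) : ballTubeSlab (1 - V) = ballTubeSlab V := by
  simp only [ballTubeSlab, sub_sub_cancel, min_comm (1 - V) V]

/-- The lower bound of the profile. -/
theorem profile_lower_of (hB : StrictB) {V : ℝ} (hV : V ∈ Ioo (0 : ℝ) 1) {E : Set (Fin 3 → ℝ)}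
    (hE : HasVolume E V) : ENNReal.ofReal (ballTubeSlab V) ≤ perimeter E := by
  have key : ∀ {v : ℝ} {S : Set (Fin 3 → ℝ)}, 0 < v → v ≤ 1 / 2 → HasVolume S v →
      ENNReal.ofReal (ballTubeSlab v) ≤ perimeter S := by
    intro v S hv hv' hS
    rcases eq_or_ne (perimeter S) ⊤ with htop | htop
    · rw [htop]; exact le_top
    obtain ⟨M, hM, hMp, hMs, hMv, hMper⟩ := exists_symm_perimeter hS.meas hS.periodic htop
    have hc : TVLE (M.indicator fun _ => (1 : ℝ)) (perimeter S).toReal :=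
      (tvle_iff_perimeter hM ENNReal.toReal_nonneg).2 (hMper.trans_eq (ENNReal.ofReal_toReal htop).symm)
    exact ENNReal.ofReal_le_of_le_toReal
      (symm_lower_of hB hv hv' ⟨hM, hMp, hMv.trans hS.vol⟩ hMs hc)
  rcases le_or_gt V (1 / 2) with h | h
  · exact key hV.1 h hE
  · obtain ⟨hcv, hcp⟩ := hE.compl hV.1.le
    rw [← ballTubeSlab_compl, ← hcp]
    exact key (by linarith [hV.2]) (by linarith) hcv

/-- The profile is the least perimeter of a ball, a tube or a slab. -/
theorem profile_eq_of (hB : StrictB) {V : ℝ} (hV : V ∈ Ioo (0 : ℝ) 1) :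
    isoProfile V = ENNReal.ofReal (ballTubeSlab V) := by
  obtain ⟨C, hC, hCp⟩ := exists_competitor hV
  exact le_antisymm ((iInf₂_le C hC).trans hCp) (le_iInf₂ fun E hE => profile_lower_of hB hV hE)

theorem perimeter_congr_ae {n : ℕ} {E F : Set (Fin n → ℝ)} (h : E =ᵐ[volume] F) :
    perimeter E = perimeter F := by
  simp only [perimeter]
  refine iSup_congr fun G => iSup_congr fun _ => congrArg _ (setIntegral_congr_set ?_)
  exact (ae_eq_refl (cube n)).inter h

/-- The minimisers are exactly the translated models and the complements of them. -/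
theorem minimiser_iff_of (hB : StrictB) {V : ℝ} (hV : V ∈ Ioo (0 : ℝ) 1) {E : Set (Fin 3 → ℝ)}
    (hE : HasVolume E V) :
    perimeter E = isoProfile V ↔ ∃ (I : Finset (Fin 3)) (r : ℝ) (a : Fin 3 → ℝ),
      IsModel (min V (1 - V)) I r ∧
        ((∀ᵐ x, x ∈ E ↔ x - a ∈ model I r) ∨ ∀ᵐ x, x ∈ E ↔ x - a ∉ model I r) := by
  refine ⟨minimiser_classification_of (fun h1 h2 h3 h4 h5 => symm_minimiser_of hB h1 h2 h3 h4 h5) hV hE, ?_⟩
  rintro ⟨I, r, a, hI, hEa⟩
  obtain ⟨hvol, hp⟩ := hI.perimeter_le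
  set T := (fun x => x + -a) ⁻¹' model I r
  have hmin : ballTubeSlab (min V (1 - V)) = ballTubeSlab V := by
    rcases min_choice V (1 - V) with e | e <;> rw [e]
    exact ballTubeSlab_compl V
  have hT : HasVolume T (min V (1 - V)) := hasVolume_preimage hvol (-a)
  have hJ := ballTubeSlab_nonneg (V := min V (1 - V))
    ⟨lt_min hV.1 (by linarith [hV.2]), (min_le_left _ _).trans_lt hV.2⟩
  have hTp : perimeter T ≤ ENNReal.ofReal (ballTubeSlab V) := by
    rw [← hmin]
    exact (tvle_iff_perimeter hT.meas hJ).1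
      (tvle_preimage hvol.periodic ((tvle_iff_perimeter hvol.meas hJ).2 hp) _)
  refine le_antisymm ?_ (iInf₂_le E hE)
  rw [profile_eq_of hB hV]
  rcases hEa with h | h
  · have e : E =ᵐ[volume] T := h.mono fun x hx => by
      show (x ∈ E) = (x ∈ T)
      simpa [T, sub_eq_add_neg] using hx
    rwa [perimeter_congr_ae e]
  · have e : E =ᵐ[volume] (Tᶜ : Set (Fin 3 → ℝ)) := h.mono fun x hx => by
      show (x ∈ E) = (x ∈ Tᶜ)
      simpa [T, sub_eq_add_neg] using hx
    rwa [perimeter_congr_ae e, (hT.compl (le_min hV.1.le (by linarith [hV.2]))).2]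

end

end Vale.Agent.P232
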