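import Vale.Agent.P232.Full.Defs

/-!
# P232: the bounds for the lengths of slices

For a symmetric decreasing set of the two-torus with traces `trace E k`: no trace gives a boxed set, one
trace a stripe, two traces a boxed complement. The stripe is calibrated by arcs of radius `13/20` and
`3/2`.
-/

namespace Vale.Agent.P232

open MeasureTheory Set Function Filter Topology Real

noncomputable section

variable {E : Set (Fin 2 → ℝ)} {c : ℝ} {k l : Fin 2}

theorem PlanarSet.c_nonneg (h : PlanarSet E c) : 0 ≤ c := by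
  have hF : TestField (0 : (Fin 2 → ℝ) → Fin 2 → ℝ) := ⟨contDiff_const, fun _ _ => rfl, fun x => by simp⟩
  simpa [divergence] using h.tv 0 hF

theorem trace_bddBelow (E : Set (Fin 2 → ℝ)) (k : Fin 2) :
    BddBelow (lineLen E k '' Ioo (-(1 / 2) : ℝ) (1 / 2)) :=
  ⟨0, by rintro _ ⟨x, -, rfl⟩; exact (lineLen_mem x).1⟩

theorem trace_nonempty (E : Set (Fin 2 → ℝ)) (k : Fin 2) :
    (lineLen E k '' Ioo (-(1 / 2) : ℝ) (1 / 2)).Nonempty :=
  ⟨lineLen E k 0, 0, by norm_num, rfl⟩

theorem trace_nonneg (E : Set (Fin 2 → ℝ)) (k : Fin 2) : 0 ≤ trace E k :=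
  le_csInf (trace_nonempty E k) (by rintro _ ⟨x, -, rfl⟩; exact (lineLen_mem x).1)

theorem trace_le_lineLen {x : ℝ} (hx : |x| < 1 / 2) : trace E k ≤ lineLen E k x :=
  csInf_le (trace_bddBelow E k) ⟨x, abs_lt.1 hx, rfl⟩

theorem trace_le_one (E : Set (Fin 2 → ℝ)) (k : Fin 2) : trace E k ≤ 1 :=
  (trace_le_lineLen (x := 0) (by norm_num)).trans (lineLen_mem 0).2

theorem endLimit_trace (h : PlanarSet E c) (k : Fin 2) : EndLimit (lineLen E k) (trace E k) := by
  intro ε hε
  obtain ⟨_, ⟨x₀, hx₀, rfl⟩, hlt⟩ :=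
    exists_lt_of_csInf_lt (trace_nonempty E k) (lt_add_of_pos_right (trace E k) hε)
  refine ⟨|x₀|, abs_nonneg _, abs_lt.2 hx₀, fun x h1 h2 => ?_⟩
  rw [abs_of_nonneg (sub_nonneg.2 (trace_le_lineLen h2))]
  linarith [lineLen_antitone (i := k) h x₀ x h1.le h2.le]

theorem trace_le_area (h : PlanarSet E c) (k : Fin 2) : trace E k ≤ area E := by
  rw [← integral_lineLen h.meas k,
    show trace E k = ∫ _ in period, trace E k by simp]
  refine integral_mono_ae (integrable_const _)
    (Integrable.of_bound (measurable_lineLen h.meas k).aestronglyMeasurable 1 (.of_forall fun x => by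
      rw [Real.norm_eq_abs, abs_of_nonneg (lineLen_mem x).1]; exact (lineLen_mem x).2)) ?_
  filter_upwards [period_ae_interior] with x hx using trace_le_lineLen hx

theorem eq_succAbove (hkl : k ≠ l) : l = k.succAbove 0 := by
  fin_cases k <;> fin_cases l <;> simp_all

/-- The structure of the line at height `x`. -/
theorem line_iff (h : PlanarSet E c) (i : Fin 2) (x : ℝ) {s : ℝ} (hs : |s| < 1 / 2) :
    (splice i x (fun _ => s) ∈ E → 2 * |s| ≤ lineLen E i x) ∧
      (splice i x (fun _ => s) ∉ E → lineLen E i x ≤ 2 * |s|) :=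
  line_structure (((splice_preserving i).measurable.comp measurable_prodMk_left) h.meas)
    (h.symm.slice x) s ⟨(abs_lt.1 hs).1, (abs_lt.1 hs).2.le⟩

/-- A full line gives the other band its width. -/
theorem trace_of_full (h : PlanarSet E c) (hkl : k ≠ l) {t : ℝ} (ht : |t| < 1 / 2)
    (hfull : lineLen E k t = 1) : 2 * |t| ≤ trace E l := by
  refine le_csInf (trace_nonempty E l) ?_
  rintro _ ⟨s, hs, rfl⟩
  have hs' : |s| < 1 / 2 := abs_lt.2 hs
  have hmem : splice l s (fun _ => t) ∈ E := by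
    rw [eq_succAbove hkl, splice_swap]
    by_contra hcon
    linarith [(line_iff h k t hs').2 hcon]
  exact (line_iff h l s ht).1 hmem

/-- A band makes the lines inside it full. -/
theorem full_of_trace (h : PlanarSet E c) (hkl : k ≠ l) {t : ℝ} (ht : |t| < 1 / 2)
    (htr : 2 * |t| < trace E k) : lineLen E l t = 1 := by
  refine le_antisymm (lineLen_mem t).2 (le_of_forall_lt_imp_le_of_dense fun r hr => ?_)
  rcases le_or_gt r 0 with hr0 | hr0
  · exact hr0.trans (lineLen_mem t).1
  have hs : |r / 2| < 1 / 2 := by rw [abs_of_pos (half_pos hr0)]; linarith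
  have hmem : splice l t (fun _ => r / 2) ∈ E := by
    by_contra hcon
    have e : splice k (r / 2) (fun _ : Fin 1 => t) ∉ E := by
      rwa [eq_succAbove (Ne.symm hkl), splice_swap]
    linarith [(line_iff h k (r / 2) ht).2 e, trace_le_lineLen (E := E) (k := k) hs]
  have := (line_iff h l t hs).1 hmem
  rw [abs_of_pos (half_pos hr0)] at this
  linarith

theorem lt_one_of_trace_zero (h : PlanarSet E c) (hkl : k ≠ l) (hl : trace E l = 0) :
    ∀ᵐ x ∂volume.restrict period, lineLen E k x < 1 := by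
  filter_upwards [period_ae_interior, ae_restrict_of_ae (Measure.ae_ne volume (0 : ℝ))] with x hx hx0
  refine lt_of_le_of_ne (lineLen_mem x).2 fun hfull => ?_
  linarith [trace_of_full h hkl hx hfull, abs_pos.2 hx0]

theorem discLen_le (h : PlanarSet E c) (h0 : ∀ k, trace E k = 0) : discLen (area E) ≤ c := by
  have hb := h.isoperimetric_boxed (i := 0) (h0 0 ▸ endLimit_trace h 0)
    (lt_one_of_trace_zero h (k := 0) (l := 1) (by decide) (h0 1))
  rw [discLen]
  have hsq := Real.sqrt_le_sqrt hb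
  rw [Real.sqrt_sq h.c_nonneg, mul_assoc, Real.sqrt_mul (by norm_num) (π * area E)] at hsq
  rwa [show √(4 : ℝ) = 2 by rw [show (4 : ℝ) = 2 ^ 2 by norm_num, Real.sqrt_sq zero_le_two]] at hsq

theorem stripe_le (h : PlanarSet E c) (hkl : k ≠ l) (hk : 0 < trace E k) (hl : trace E l = 0)
    {R : ℝ} (hR : 1 / 2 ≤ R) :
    2 ≤ c ∧ (area E - trace E k) / R + 2 * (∫ x in period, √(1 - (x / R) ^ 2)) ≤ c := by
  have hp : ∀ᵐ x ∂volume.restrict period, x ∈ partLines E k := by
    filter_upwards [period_ae_interior, lt_one_of_trace_zero h hkl hl] with x hx hx1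
    exact ⟨hk.trans_le (trace_le_lineLen hx), hx1⟩
  refine ⟨h.two_le hp, ?_⟩
  have hR0 : 0 < R := by linarith
  have hs := h.stripe ⟨trace_nonneg E k, trace_le_one E k⟩ (endLimit_trace h k) hp (k := 1 / R)
    (by rw [abs_of_pos (by positivity), div_le_iff₀ hR0]; linarith)
  simp only [one_div_mul_eq_div] at hs
  linarith

/-- The stadium bound from the extent bound. -/
theorem stad_le {S H X : ℝ} (hS : 0 < S) (hX : 0 < X) (hXH : X ≤ H) :
    stadLen S H ≤ π * X + S / X ∧ discLen S ≤ π * X + S / X := by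
  have hd : 2 * √(π * S) ≤ π * X + S / X := by
    have e : π * X * (S / X) = π * S := by field_simp
    have h0 : 0 ≤ π * X + S / X := by positivity
    nlinarith [sq_nonneg (π * X - S / X), Real.sq_sqrt (show 0 ≤ π * S by positivity),
      Real.sqrt_nonneg (π * S)]
  refine ⟨?_, hd⟩
  rw [stadLen]
  split_ifs with hc
  · exact hd
  · have hH : 0 < H := hX.trans_le hXH
    have e : π * X + S / X - (π * H + S / H) = (H - X) * (S - π * (X * H)) / (X * H) := by
      field_simp
      ring
    have h1 : π * (X * H) ≤ π * H ^ 2 := by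
      rw [sq]; gcongr
    have h2 : 0 ≤ (H - X) * (S - π * (X * H)) / (X * H) :=
      div_nonneg (mul_nonneg (sub_nonneg.2 hXH) (by linarith [not_le.1 hc])) (by positivity)
    linarith

theorem stadLen_le (h : PlanarSet E c) (hkl : k ≠ l) (hk : 0 < trace E k) {W : ℝ}
    (hW : 2 * W ≤ trace E l) (hl : 0 < trace E l) :
    stadLen (1 - area E) (1 / 2 - W) ≤ c ∧ discLen (1 - area E) ≤ c := by
  set S := 1 - area E
  have hS0 : 0 ≤ S := sub_nonneg.2 (area_mem h.meas).2
  rcases hS0.eq_or_lt with hS | hS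
  · have e1 : discLen (0 : ℝ) = 0 := by simp [discLen]
    have e2 : stadLen 0 (1 / 2 - W) = 0 := by
      rw [stadLen, if_pos (by positivity)]; simp
    rw [← hS, e1, e2]
    exact ⟨h.c_nonneg, h.c_nonneg⟩
  have hsh : ∀ x, |x| < 1 / 2 → x ≠ 0 →
      lineLen (coSet E) k x = 1 - lineLen E k (x + 1 / 2) ∧
      ∃ t, |t| = 1 / 2 - |x| ∧ lineLen E k (x + 1 / 2) = lineLen E k t := by
    intro x hx hx0
    refine ⟨lineLen_shift h k x, ?_⟩
    rcases le_or_gt 0 x with hx' | hx'
    · refine ⟨x - 1 / 2, ?_, ?_⟩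
      · rw [abs_of_nonneg hx'] at hx ⊢
        rw [abs_of_neg (by linarith)]; ring
      · rw [show x + 1 / 2 = (x - 1 / 2) + 1 by ring, lineLen_periodic h]
    · refine ⟨x + 1 / 2, ?_, rfl⟩
      rw [abs_of_neg hx'] at hx ⊢
      rw [abs_of_nonneg (by linarith)]; ring
  have hzero : ∀ x, |x| < 1 / 2 → x ≠ 0 → 1 / 2 - trace E l / 2 < |x| → lineLen (coSet E) k x = 0 := by
    intro x hx hx0 hgt
    obtain ⟨e, t, ht, et⟩ := hsh x hx hx0
    rw [e, et, full_of_trace h (Ne.symm hkl) (by rw [ht]; linarith [abs_pos.2 hx0]) (by linarith), sub_self]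
  have hend : EndLimit (lineLen (coSet E) k) 0 := by
    intro ε hε
    refine ⟨1 / 2 - trace E l / 2, by linarith [trace_le_one E l], by linarith, fun x h1 h2 => ?_⟩
    have hx0 : x ≠ 0 := fun e => by
      rw [e, abs_zero] at h1; linarith [trace_le_one E l]
    rw [hzero x h2 hx0 h1, sub_zero, abs_zero]
    exact hε.le
  have hlt : ∀ᵐ x ∂volume.restrict period, lineLen (coSet E) k x < 1 := by
    filter_upwards [period_ae_interior, ae_restrict_of_ae (Measure.ae_ne volume (0 : ℝ))] with x hx hx0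
    obtain ⟨e, t, ht, et⟩ := hsh x hx hx0
    rw [e, et, sub_lt_self_iff]
    exact hk.trans_le (trace_le_lineLen (by rw [ht]; linarith [abs_pos.2 hx0]))
  obtain ⟨X, hX, hX2, hin, -, hb⟩ :=
    h.co.exists_extent hend hlt (show 0 < area (coSet E) by rw [area_coSet h]; exact hS)
  rw [area_coSet h] at hb
  have hXH : X ≤ 1 / 2 - W := by
    refine le_trans ?_ (show 1 / 2 - trace E l / 2 ≤ 1 / 2 - W by linarith)
    by_contra hcon
    push Not at hcon
    have h0 := trace_le_one E l
    set x := (1 / 2 - trace E l / 2 + X) / 2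
    have hx : 0 < x := by simp only [x]; linarith
    have hxa : |x| = x := abs_of_pos hx
    have hxX : x < X := by simp only [x]; linarith
    have := hin x (by rwa [hxa])
    rw [hzero x (by linarith) hx.ne' (by rw [hxa]; simp only [x]; linarith)] at this
    exact lt_irrefl _ this
  exact ⟨(stad_le hS hX hXH).1.trans hb, (stad_le hS hX hXH).2.trans hb⟩

theorem sqrt_one_sub_ge {u : ℝ} (h0 : 0 ≤ u) (h1 : u ≤ 100 / 169) :
    1 - u / 2 - u ^ 2 / 8 - 13 / 125 * u ^ 3 ≤ √(1 - u) := by
  refine Real.le_sqrt_of_sq_le ?_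
  have hb : 0 ≤ 83 / 1000 - (13 / 125 + 1 / 64) * u - 13 / 500 * u ^ 2 - 169 / 15625 * u ^ 3 := by
    nlinarith [pow_le_pow_left₀ h0 h1 2, pow_le_pow_left₀ h0 h1 3]
  nlinarith [mul_nonneg (pow_nonneg h0 3) hb]

theorem arc_integral_ge {R : ℝ} (hR : 13 / 20 ≤ R) :
    1 - 1 / (24 * R ^ 2) - 1 / (640 * R ^ 4) - 13 / (56000 * R ^ 6)
      ≤ ∫ x in period, √(1 - (x / R) ^ 2) := by
  have hR0 : 0 < R := by linarith
  have key : ∫ x in (-(1 / 2) : ℝ)..(1 / 2),
      (1 - 1 / (2 * R ^ 2) * x ^ 2 - 1 / (8 * R ^ 4) * x ^ 4 - 13 / (125 * R ^ 6) * x ^ 6)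
      = 1 - 1 / (24 * R ^ 2) - 1 / (640 * R ^ 4) - 13 / (56000 * R ^ 6) := by
    have hi : ∀ n : ℕ, ∀ a : ℝ, IntervalIntegrable (fun x : ℝ => a * x ^ n) volume (-(1 / 2)) (1 / 2) :=
      fun n a => (continuous_const.mul (continuous_pow n)).intervalIntegrable _ _
    rw [intervalIntegral.integral_sub ((((_root_.intervalIntegrable_const).sub (hi 2 _)).sub (hi 4 _))) (hi 6 _),
      intervalIntegral.integral_sub ((_root_.intervalIntegrable_const).sub (hi 2 _)) (hi 4 _),
      intervalIntegral.integral_sub _root_.intervalIntegrable_const (hi 2 _),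
      intervalIntegral.integral_const_mul, intervalIntegral.integral_const_mul,
      intervalIntegral.integral_const_mul, intervalIntegral.integral_const, integral_pow, integral_pow,
      integral_pow, smul_eq_mul]
    field_simp
    ring
  rw [← key, integral_period]
  refine intervalIntegral.integral_mono_on (by norm_num) (Continuous.intervalIntegrable (by fun_prop) _ _)
    (Continuous.intervalIntegrable (by fun_prop) _ _) fun x hx => ?_
  have hu : (x / R) ^ 2 ≤ 100 / 169 := by
    rw [div_pow, div_le_iff₀ (by positivity)]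
    nlinarith [hx.1, hx.2, mul_le_mul hR hR (by norm_num) hR0.le]
  refine le_trans (le_of_eq ?_) (sqrt_one_sub_ge (sq_nonneg _) hu)
  field_simp

/-- The cases of no, one or two traces. -/
theorem trace_cases (E : Set (Fin 2 → ℝ)) :
    (∀ k, trace E k = 0) ∨ (∃ k l, k ≠ l ∧ 0 < trace E k ∧ trace E l = 0) ∨ ∀ k, 0 < trace E k := by
  rcases (trace_nonneg E 0).eq_or_lt with h0 | h0 <;> rcases (trace_nonneg E 1).eq_or_lt with h1 | h1
  · exact .inl fun k => by fin_cases k <;> [exact h0.symm; exact h1.symm]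
  · exact .inr (.inl ⟨1, 0, by decide, h1, h0.symm⟩)
  · exact .inr (.inl ⟨0, 1, by decide, h0, h1.symm⟩)
  · exact .inr (.inr fun k => by fin_cases k <;> assumption)

theorem lenA_le (h : PlanarSet E c)
    (hA : ∀ k l : Fin 2, k ≠ l → trace E k ≤ 2 * kappa ∨ 0 < trace E l) : lenA (area E) ≤ c := by
  rcases trace_cases E with h0 | ⟨k, l, hkl, hk, hl⟩ | h2
  · exact (min_le_left _ _).trans (discLen_le h h0)
  · refine ((min_le_right _ _).trans (min_le_right _ _)).trans ?_
    have hs := (stripe_le h hkl hk hl (R := 13 / 20) (by norm_num)).2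
    have hb := arc_integral_ge (R := 13 / 20) le_rfl
    norm_num at hb
    have htr : trace E k ≤ 3 / 25 := by
      have := (hA k l hkl).resolve_right (by rw [hl]; exact lt_irrefl 0)
      rw [kappa] at this; linarith
    have h3 : (area E - 3 / 25) / (13 / 20) ≤ (area E - trace E k) / (13 / 20) := by gcongr
    linarith
  · exact ((min_le_right _ _).trans (min_le_left _ _)).trans
      (stadLen_le h (k := 0) (l := 1) (by decide) (h2 0) (W := 0) (by linarith [h2 1]) (h2 1)).2

theorem lenCross_le (h : PlanarSet E c) (hp : ∀ k, 0 < trace E k) {W : ℝ}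
    (hW : ∃ k, 2 * W ≤ trace E k) : lenCross W (area E) ≤ c := by
  obtain ⟨l, hl⟩ := hW
  obtain ⟨k, hkl⟩ : ∃ k, k ≠ l := exists_ne l
  exact (stadLen_le h hkl (hp k) hl (hp l)).1

theorem lenOuter_le (h : PlanarSet E c) {W : ℝ} (hW : ∀ k, trace E k ≤ 2 * W) :
    lenOuter W (area E) ≤ c := by
  rcases trace_cases E with h0 | ⟨k, l, hkl, hk, hl⟩ | h2
  · exact (min_le_left _ _).trans (discLen_le h h0)
  · refine ((min_le_right _ _).trans (min_le_right _ _)).trans (max_le ?_ ?_)
    · exact (stripe_le h hkl hk hl (R := 1 / 2) le_rfl).1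
    · have hs := (stripe_le h hkl hk hl (R := 3 / 2) (by norm_num)).2
      have hb := arc_integral_ge (R := 3 / 2) (by norm_num)
      norm_num at hb
      have h3 : (area E - 2 * W) / (3 / 2) ≤ (area E - trace E k) / (3 / 2) := by
        gcongr
        exact hW k
      linarith
  · exact ((min_le_right _ _).trans (min_le_left _ _)).trans
      (stadLen_le h (k := 0) (l := 1) (by decide) (h2 0) (W := 0) (by linarith [h2 1]) (h2 1)).2

end

end Vale.Agent.P232
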