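import Vale.Agent.P232.Full.Defs

/-!
# P232: the competitors

Balls, tubes and slabs are the sublevel sets of `radial I`, the distance to the lattice in the coordinates
of `I`. Their perimeter is bounded through Lipschitz approximations of the indicator: the volume of the
thin shell divided by its width tends to the derivative of the volume in the radius.
-/

namespace Vale.Agent.P232

open MeasureTheory Set Function Filter Topology Real
open scoped NNReal

noncomputable section

/-- The complement has the complementary volume and the same perimeter. -/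
theorem HasVolume.compl {E : Set (Fin 3 → ℝ)} {V : ℝ} (h : HasVolume E V) (hV : 0 ≤ V) :
    HasVolume Eᶜ (1 - V) ∧ perimeter Eᶜ = perimeter E := by
  refine ⟨⟨h.meas.compl, h.periodic.comp_left Not, ?_⟩, ?_⟩
  · rw [← sdiff_eq, ← sdiff_self_inter, measure_sdiff inter_subset_left
      (cube_measurable.inter h.meas).nullMeasurableSet
      (measure_ne_top_of_subset inter_subset_left cube_finite), volume_cube, h.vol,
      ENNReal.ofReal_sub _ hV, ENNReal.ofReal_one]
  have key : ∀ S : Set (Fin 3 → ℝ), MeasurableSet S → perimeter Sᶜ ≤ perimeter S := fun S hS => by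
    refine iSup₂_le fun F hF => ?_
    have hG : TestField fun x => -F x := ⟨hF.contDiff.neg, fun i x => by simp only [hF.periodic i x],
      fun x => by simpa using hF.sq_le x⟩
    obtain ⟨C, hC⟩ := hF.divergence_bound
    have hi := integrableOn_cube (divergence_measurable F) hC
    refine le_trans (le_of_eq ?_) (le_iSup₂ (f := fun (G : (Fin 3 → ℝ) → Fin 3 → ℝ) (_ : TestField G) =>
      ENNReal.ofReal (∫ x in cube 3 ∩ S, divergence G x)) _ hG)
    congr 1
    have hneg : ∀ x, divergence (fun y => -F y) x = -divergence F x := fun x => by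
      simp [divergence, fderiv_fun_neg, Finset.sum_neg_distrib]
    have e := setIntegral_union (μ := volume) (disjoint_compl_right.mono inter_subset_right inter_subset_right)
      (cube_measurable.inter hS.compl) (hi.mono_set inter_subset_left)
      (hi.mono_set (t := cube 3) (s := cube 3 ∩ Sᶜ) inter_subset_left)
    rw [← inter_union_distrib_left, union_compl_self, inter_univ, integral_divergence hF] at e
    simp only [hneg, integral_neg]
    linarith
  exact le_antisymm (key E h.meas) (by simpa using key Eᶜ h.meas.compl)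

/-- The distance to the integers. -/
def intDist (t : ℝ) : ℝ := |t - round t|

theorem abs_intDist_sub (s t : ℝ) : |intDist s - intDist t| ≤ |s - t| := by
  have key : ∀ p p' : ℝ, intDist p ≤ intDist p' + |p - p'| := fun p p' => by
    refine (round_le p (round p')).trans ?_
    have := abs_sub_le p p' (round p' : ℝ)
    simp only [intDist]
    linarith
  rw [abs_sub_le_iff]
  constructor <;> linarith [key s t, key t s, abs_sub_comm s t]

theorem intDist_add_one (t : ℝ) : intDist (t + 1) = intDist t := by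
  simp only [intDist, round_add_one, Int.cast_add, Int.cast_one, add_sub_add_right_eq_sub]

theorem intDist_eq_abs {t : ℝ} (ht : |t| ≤ 1 / 2) : intDist t = |t| := by
  refine le_antisymm ((round_le t 0).trans_eq (by simp)) ?_
  simp only [intDist]
  rcases eq_or_ne (round t) 0 with h | h
  · simp [h]
  · have h1 : (1 : ℝ) ≤ |(round t : ℝ)| := by exact_mod_cast Int.one_le_abs h
    linarith [abs_sub_abs_le_abs_sub ((round t : ℤ) : ℝ) t, abs_sub_comm ((round t : ℤ) : ℝ) t]

variable {n : ℕ}

/-- The euclidean distance to the lattice, in the coordinates of `I`. -/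
def radial (I : Finset (Fin n)) (x : Fin n → ℝ) : ℝ :=
  √(∑ i, (if i ∈ I then intDist (x i) else 0) ^ 2)

theorem radial_nonneg (I : Finset (Fin n)) (x : Fin n → ℝ) : 0 ≤ radial I x := Real.sqrt_nonneg _

theorem radial_periodic (I : Finset (Fin n)) : Periodic (radial I) := fun j x => by
  simp only [radial]
  congr 1
  refine Finset.sum_congr rfl fun i _ => ?_
  rcases eq_or_ne i j with rfl | h
  · simp [intDist_add_one]
  · simp [h]

theorem euclid_norm (v : Fin n → ℝ) : ‖WithLp.toLp 2 v‖ = √(∑ i, v i ^ 2) := by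
  simp [EuclideanSpace.norm_eq, sq_abs]

theorem radial_sub_le (I : Finset (Fin n)) (x y : Fin n → ℝ) :
    |radial I x - radial I y| ≤ √(∑ i, (x i - y i) ^ 2) := by
  have h := abs_norm_sub_norm_le (WithLp.toLp 2 fun i => if i ∈ I then intDist (x i) else 0)
    (WithLp.toLp 2 fun i => if i ∈ I then intDist (y i) else 0)
  rw [← WithLp.toLp_sub, euclid_norm, euclid_norm, euclid_norm] at h
  refine h.trans (Real.sqrt_le_sqrt (Finset.sum_le_sum fun i _ => ?_))
  by_cases hi : i ∈ I
  · simpa [hi] using sq_le_sq.2 (abs_intDist_sub (x i) (y i))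
  · simpa [hi] using sq_nonneg (x i - y i)

/-- A pointwise euclidean Lipschitz bound bounds the gradient. -/
theorem gradLen_le_of_euclid {u : (Fin n → ℝ) → ℝ} {x : Fin n → ℝ} {C : ℝ} (hC : 0 ≤ C)
    (h : ∀ y, |u y - u x| ≤ C * √(∑ i, (y i - x i) ^ 2)) : gradLen u x ≤ C := by
  by_cases hd : DifferentiableAt ℝ u x
  swap
  · simpa [gradLen, fderiv_zero_of_not_differentiableAt hd] using hC
  set v : Fin n → ℝ := fun i => fderiv ℝ u x (Pi.single i 1)
  have hval : fderiv ℝ u x v = gradLen u x ^ 2 := by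
    rw [gradLen, Real.sq_sqrt (by positivity)]
    conv_lhs => rw [← Finset.univ_sum_single v, map_sum]
    refine Finset.sum_congr rfl fun i _ => ?_
    rw [show Pi.single i (v i) = v i • (Pi.single i 1 : Fin n → ℝ) by rw [← Pi.single_smul]; simp,
      map_smul, smul_eq_mul, sq]
  have hb : |fderiv ℝ u x v| ≤ C * gradLen u x := by
    refine le_of_tendsto (quotient_tendsto (v := v) hd).abs
      (eventually_nhdsWithin_of_forall fun s (hs : s ≠ 0) => ?_)
    rw [abs_div, div_le_iff₀ (abs_pos.2 hs)]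
    refine (h _).trans (le_of_eq ?_)
    simp only [Pi.add_apply, Pi.smul_apply, smul_eq_mul, add_sub_cancel_left, mul_pow]
    rw [← Finset.mul_sum, Real.sqrt_mul (sq_nonneg s), Real.sqrt_sq_eq_abs, gradLen]
    ring
  rw [hval, abs_of_nonneg (sq_nonneg _), sq] at hb
  have h0 : 0 ≤ gradLen u x := Real.sqrt_nonneg _
  rcases h0.eq_or_lt with e | e
  · exact e ▸ hC
  · exact le_of_mul_le_mul_right hb e

theorem gradLen_eq_zero {u : (Fin n → ℝ) → ℝ} {x : Fin n → ℝ} {a : ℝ}
    (h : u =ᶠ[𝓝 x] fun _ => a) : gradLen u x = 0 := by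
  simp [gradLen, h.fderiv_eq]

/-- A sublevel set of `radial I` of known volume has perimeter at most the derivative of its volume. -/
theorem radial_bound (I : Finset (Fin 3)) {r c : ℝ} {k : ℕ} (hr : 0 < r) (hc : 0 ≤ c)
    (hvol : ∀ s ∈ Icc 0 r, volume.real (cube 3 ∩ {x | radial I x < s}) = c * s ^ k) :
    HasVolume {x | radial I x < r} (c * r ^ k) ∧
      perimeter {x | radial I x < r} ≤ ENNReal.ofReal (c * (k * r ^ (k - 1))) := by
  set ρ := radial (n := 3) I
  have hρc : Continuous ρ := by
    refine (LipschitzWith.of_dist_le_mul (K := ((√3).toNNReal)) fun x y => ?_).continuous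
    rw [Real.coe_toNNReal _ (Real.sqrt_nonneg _), Real.dist_eq]
    refine (radial_sub_le I x y).trans (Real.sqrt_le_iff.2 ⟨by positivity, ?_⟩)
    rw [mul_pow, Real.sq_sqrt (by norm_num)]
    refine (Finset.sum_le_card_nsmul _ _ (dist x y ^ 2) fun i _ =>
      sq_le_sq.2 ?_).trans (by simp)
    rw [abs_of_nonneg (dist_nonneg (x := x)), ← Real.dist_eq]
    exact dist_le_pi_dist x y i
  set E : Set (Fin 3 → ℝ) := {x | ρ x < r}
  have hEm : MeasurableSet E := measurableSet_lt hρc.measurable measurable_const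
  refine ⟨⟨hEm, (radial_periodic I).comp_left fun t => t < r, ?_⟩, ?_⟩
  · rw [← hvol r ⟨hr.le, le_rfl⟩, measureReal_def,
      ENNReal.ofReal_toReal (measure_ne_top_of_subset inter_subset_left cube_finite)]
  refine (tvle_iff_perimeter hEm (by positivity)).1 ?_
  -- the approximations
  set e : ℕ → ℝ := fun j => min r (1 / 2) / (j + 1)
  have he : ∀ j, 0 < e j ∧ e j ≤ r ∧ e j ≤ 1 / 2 := fun j => by
    have h0 : 0 < min r (1 / 2) := lt_min hr (by norm_num)
    have h1 : e j ≤ min r (1 / 2) := div_le_self h0.le (by simp)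
    exact ⟨by positivity, h1.trans (min_le_left _ _), h1.trans (min_le_right _ _)⟩
  have hw : ∀ j, 0 < e j - e j ^ 2 := fun j => by nlinarith [(he j).1, (he j).2.2]
  set u : ℕ → (Fin 3 → ℝ) → ℝ := fun j x => max 0 (min 1 ((r - e j ^ 2 - ρ x) / (e j - e j ^ 2)))
  have hu01 : ∀ j x, |u j x| ≤ 1 := fun j x => by
    rw [abs_of_nonneg (le_max_left _ _)]; exact max_le zero_le_one (min_le_left _ _)
  have hue : ∀ j x y, |u j y - u j x| ≤ 1 / (e j - e j ^ 2) * √(∑ i, (y i - x i) ^ 2) := fun j x y => by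
    refine (abs_max_sub_max_le_max _ _ _ _).trans ?_
    rw [sub_self, abs_zero, max_eq_right (abs_nonneg _)]
    refine (abs_min_sub_min_le_max _ _ _ _).trans ?_
    rw [sub_self, abs_zero, max_eq_right (abs_nonneg _), div_sub_div_same, sub_sub_sub_cancel_left,
      abs_div, abs_of_pos (hw j), one_div_mul_eq_div, abs_sub_comm]
    gcongr
    exacts [(hw j).le, radial_sub_le I y x]
  have hul : ∀ j, LipschitzWith (√3 / (e j - e j ^ 2)).toNNReal (u j) := fun j =>
    LipschitzWith.of_dist_le_mul fun y x => by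
      rw [Real.coe_toNNReal _ (div_nonneg (Real.sqrt_nonneg _) (hw j).le), Real.dist_eq]
      refine (hue j x y).trans ?_
      rw [one_div_mul_eq_div, div_mul_eq_mul_div]
      gcongr
      · exact (hw j).le
      refine Real.sqrt_le_iff.2 ⟨by positivity, ?_⟩
      rw [mul_pow, Real.sq_sqrt (by norm_num)]
      refine (Finset.sum_le_card_nsmul _ _ (dist y x ^ 2) fun i _ =>
        sq_le_sq.2 ?_).trans (by simp)
      rw [abs_of_nonneg (dist_nonneg (x := y)), ← Real.dist_eq]
      exact dist_le_pi_dist y x i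
  have hup : ∀ j, Periodic (u j) := fun j => (radial_periodic I).comp_left
    fun t => max 0 (min 1 ((r - e j ^ 2 - t) / (e j - e j ^ 2)))
  -- the shells
  set d : ℕ → ℝ := fun j => (c * r ^ k - c * (r - e j) ^ k) / (e j - e j ^ 2)
  have hgrad : ∀ j, ∫ x in cube 3, gradLen (u j) x ≤ d j := fun j => by
    set B : Set (Fin 3 → ℝ) := {x | ρ x < r} \ {x | ρ x < r - e j}
    have hBm : MeasurableSet B := MeasurableSet.diff hEm (measurableSet_lt hρc.measurable measurable_const)
    have hle : ∀ x, gradLen (u j) x ≤ B.indicator (fun _ => 1 / (e j - e j ^ 2)) x := fun x => by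
      by_cases hx : x ∈ B
      · rw [indicator_of_mem hx]
        exact gradLen_le_of_euclid (one_div_nonneg.2 (hw j).le) (hue j x)
      rw [indicator_of_notMem hx]
      rcases lt_or_ge (ρ x) (r - e j) with h1 | h1
      · refine (gradLen_eq_zero (a := 1) ?_).le
        filter_upwards [hρc.continuousAt.eventually_lt continuousAt_const h1] with y hy
        simp only [u]
        rw [min_eq_left ((one_le_div (hw j)).2 (by linarith)), max_eq_right zero_le_one]
      · have h2 : r ≤ ρ x := not_lt.1 fun h => hx ⟨h, not_lt.2 h1⟩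
        have h3 : r - e j ^ 2 < ρ x := lt_of_lt_of_le (by nlinarith [(he j).1]) h2
        refine (gradLen_eq_zero (a := 0) ?_).le
        filter_upwards [continuousAt_const.eventually_lt hρc.continuousAt h3] with y hy
        simp only [u]
        rw [max_eq_left ((min_le_right _ _).trans (div_nonpos_of_nonpos_of_nonneg (by linarith) (hw j).le))]
    refine (integral_mono (integrableOn_cube (gradLen_measurable _) (gradLen_abs_le (hul j)))
      ((integrable_const _).indicator hBm) hle).trans (le_of_eq ?_)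
    rw [setIntegral_indicator hBm, setIntegral_const, smul_eq_mul, inter_sdiff_distrib_left,
      measureReal_sdiff (s₁ := cube 3 ∩ {x | ρ x < r}) (s₂ := cube 3 ∩ {x | ρ x < r - e j})
        (inter_subset_inter_right _ fun x (hx : ρ x < r - e j) =>
        show ρ x < r by linarith [(he j).1])
        (cube_measurable.inter (measurableSet_lt hρc.measurable measurable_const))
        (measure_ne_top_of_subset inter_subset_left cube_finite), hvol r ⟨hr.le, le_rfl⟩,
      hvol (r - e j) ⟨by linarith [(he j).2.1], by linarith [(he j).1]⟩]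
    ring
  have he0 : Tendsto e atTop (𝓝 0) := by
    simpa [e, div_eq_mul_inv] using
      (tendsto_one_div_add_atTop_nhds_zero_nat (𝕜 := ℝ)).const_mul (min r (1 / 2))
  have hd : Tendsto d atTop (𝓝 (c * (k * r ^ (k - 1)))) := by
    have hs := ((hasDerivAt_pow k r).const_mul c).tendsto_slope_zero
    have hne : Tendsto (fun j => -e j) atTop (𝓝[≠] 0) :=
      tendsto_nhdsWithin_iff.2 ⟨by simpa using he0.neg, .of_forall fun j => by simp [(he j).1.ne']⟩
    have h1 := ((hs.comp hne).div (he0.const_sub 1) (by norm_num))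
    rw [sub_zero, div_one] at h1
    refine h1.congr fun j => ?_
    simp only [d, Pi.div_apply, comp_apply, smul_eq_mul]
    have := hw j
    have h2 : (1 : ℝ) - e j ≠ 0 := by linarith [(he j).2.2]
    have h3 := (he j).1.ne'
    rw [show e j - e j ^ 2 = e j * (1 - e j) by ring, ← sub_eq_add_neg]
    field_simp
    ring
  refine TVLE.of_tendsto (fun j => (hul j).continuous.measurable) hu01 (.of_forall fun x => ?_)
    (fun j F hF => (tvle_of_lipschitz (hul j) (hup j) F hF).trans (hgrad j)) hd
  rcases lt_or_ge (ρ x) r with hx | hx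
  · rw [indicator_of_mem (show x ∈ E from hx)]
    refine tendsto_const_nhds.congr' ?_
    filter_upwards [he0.eventually_lt_const (sub_pos.2 hx)] with j hj
    simp only [u]
    rw [min_eq_left ((one_le_div (hw j)).2 (by linarith)), max_eq_right zero_le_one]
  · rw [indicator_of_notMem (show x ∉ E from not_lt.2 hx)]
    refine tendsto_const_nhds.congr fun j => ?_
    simp only [u]
    rw [max_eq_left ((min_le_right _ _).trans
      (div_nonpos_of_nonpos_of_nonneg (by nlinarith [(he j).1]) (hw j).le))]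

theorem radial_lt_iff {I : Finset (Fin n)} {x : Fin n → ℝ} (hx : x ∈ cube n) {s : ℝ} (hs : 0 ≤ s) :
    radial I x < s ↔ ∑ i ∈ I, x i ^ 2 < s ^ 2 := by
  rw [radial, Real.sqrt_lt (by positivity) hs]
  refine iff_of_eq (congrArg (· < s ^ 2) ?_)
  rw [← Finset.sum_filter_add_sum_filter_not Finset.univ (· ∈ I)]
  simp only [Finset.filter_univ_mem]
  rw [Finset.sum_eq_zero (s := Finset.univ.filter fun i => i ∉ I) fun i hi => by
    simp [(Finset.mem_filter.1 hi).2], add_zero]
  refine Finset.sum_congr rfl fun i hi => ?_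
  rw [if_pos hi, intDist_eq_abs (abs_le.2 ⟨(hx i (mem_univ i)).1.le, (hx i (mem_univ i)).2⟩), sq_abs]

theorem sq_lt_of_sum {x : Fin n → ℝ} {s : ℝ} (hs : s ≤ 1 / 2) (hs0 : 0 ≤ s) (I : Finset (Fin n))
    (h : ∑ i ∈ I, x i ^ 2 < s ^ 2) {i : Fin n} (hi : i ∈ I) : x i ∈ Ioc (-(1 / 2) : ℝ) (1 / 2) := by
  have h2 : x i ^ 2 < s ^ 2 :=
    (Finset.single_le_sum (f := fun j => x j ^ 2) (fun j _ => sq_nonneg _) hi).trans_lt h
  have := abs_lt.1 (abs_lt_of_sq_lt_sq h2 hs0)
  constructor <;> linarith

theorem volume_sum_sq_lt (n : ℕ) {s : ℝ} (hs : 0 ≤ s) :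
    volume {y : Fin n → ℝ | ∑ i, y i ^ 2 < s ^ 2}
      = volume (Metric.ball (0 : EuclideanSpace ℝ (Fin n)) s) := by
  rw [← (PiLp.volume_preserving_toLp (Fin n)).measure_preimage measurableSet_ball.nullMeasurableSet]
  congr 1
  ext y
  simp only [mem_ofPred_eq, mem_preimage, Metric.mem_ball, dist_zero_right, euclid_norm,
    Real.sqrt_lt (Finset.sum_nonneg fun i _ => sq_nonneg (y i)) hs]

theorem ball_volume {s : ℝ} (hs : s ∈ Icc (0 : ℝ) (1 / 2)) :
    volume.real (cube 3 ∩ {x | radial Finset.univ x < s}) = 4 * π / 3 * s ^ 3 := by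
  have e : cube 3 ∩ {x | radial Finset.univ x < s} = {y : Fin 3 → ℝ | ∑ i, y i ^ 2 < s ^ 2} := by
    ext x
    refine ⟨fun h => (radial_lt_iff h.1 hs.1).1 h.2, fun h => ?_⟩
    have hx : x ∈ cube 3 := fun i _ => sq_lt_of_sum hs.2 hs.1 _ h (Finset.mem_univ i)
    exact ⟨hx, (radial_lt_iff hx hs.1).2 h⟩
  rw [measureReal_def, e, volume_sum_sq_lt 3 hs.1, EuclideanSpace.volume_ball_fin_three,
    ENNReal.toReal_mul, ENNReal.toReal_pow, ENNReal.toReal_ofReal hs.1,
    ENNReal.toReal_ofReal (by positivity)]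
  ring

theorem tube_volume {s : ℝ} (hs : s ∈ Icc (0 : ℝ) (1 / 2)) :
    volume.real (cube 3 ∩ {x | radial ({0, 1} : Finset (Fin 3)) x < s}) = π * s ^ 2 := by
  set D : Set (Fin 2 → ℝ) := {y | ∑ i, y i ^ 2 < s ^ 2}
  have hD : MeasurableSet D := measurableSet_lt (by fun_prop) measurable_const
  have hDc : D ⊆ cube 2 := fun y hy i _ => sq_lt_of_sum hs.2 hs.1 _ hy (Finset.mem_univ i)
  set S : Set (Fin 3 → ℝ) := {x | x 0 ^ 2 + x 1 ^ 2 < s ^ 2}
  have hS : MeasurableSet S := measurableSet_lt (by fun_prop) measurable_const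
  have e : cube 3 ∩ {x | radial ({0, 1} : Finset (Fin 3)) x < s} = S ∩ cube 3 := by
    ext x
    constructor
    · intro h
      refine ⟨?_, h.1⟩
      simpa [S] using (radial_lt_iff h.1 hs.1).1 h.2
    · intro h
      exact ⟨h.2, (radial_lt_iff h.2 hs.1).2 (by simpa [S] using h.1)⟩
  have hpre : (fun p : ℝ × (Fin 2 → ℝ) => splice (2 : Fin 3) p.1 p.2) ⁻¹' S = univ ×ˢ D := by
    ext ⟨z, y⟩
    have h0 : splice (2 : Fin 3) z y 0 = y 0 := splice_above (i := (2 : Fin 3)) z y 0
    have h1 : splice (2 : Fin 3) z y 1 = y 1 := splice_above (i := (2 : Fin 3)) z y 1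
    simp [S, D, h0, h1, Fin.sum_univ_two]
  have hm := (splice_preserving (2 : Fin 3)).measure_preimage hS.nullMeasurableSet
  rw [hpre, Measure.prod_prod, Measure.restrict_apply_univ, volume_period, one_mul,
    Measure.restrict_apply hD, inter_eq_left.2 hDc, Measure.restrict_apply hS] at hm
  rw [measureReal_def, e, ← hm, volume_sum_sq_lt 2 hs.1, EuclideanSpace.volume_ball_fin_two,
    ENNReal.toReal_mul, ENNReal.toReal_pow, ENNReal.toReal_ofReal hs.1,
    ENNReal.toReal_ofReal Real.pi_pos.le]
  ring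

theorem slab_volume {s : ℝ} (hs : s ∈ Icc (0 : ℝ) (1 / 2)) :
    volume.real (cube 3 ∩ {x | radial ({0} : Finset (Fin 3)) x < s}) = 2 * s ^ 1 := by
  have e : cube 3 ∩ {x | radial ({0} : Finset (Fin 3)) x < s}
      = Set.pi univ (Fin.cons (Ioo (-s) s) fun _ => period) := by
    ext x
    simp only [mem_univ_pi, Fin.forall_fin_succ, Fin.cons_zero, Fin.cons_succ]
    constructor
    · intro h
      have h2 := (radial_lt_iff h.1 hs.1).1 h.2
      rw [Finset.sum_singleton] at h2
      exact ⟨abs_lt.1 (abs_lt_of_sq_lt_sq h2 hs.1), h.1 _ (mem_univ _), h.1 _ (mem_univ _), fun i => i.elim0⟩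
    · rintro ⟨h0, h1, h2, -⟩
      have hx : x ∈ cube 3 := fun i _ => by
        fin_cases i
        exacts [⟨show -(1 / 2) < x 0 by linarith [h0.1, hs.2], show x 0 ≤ 1 / 2 by linarith [h0.2, hs.2]⟩, h1, h2]
      refine ⟨hx, (radial_lt_iff hx hs.1).2 ?_⟩
      rw [Finset.sum_singleton]
      exact sq_lt_sq' h0.1 h0.2
  rw [measureReal_def, e, volume_pi_pi, Fin.prod_univ_succ, Fin.cons_zero]
  simp only [Fin.cons_succ, volume_period, Finset.prod_const_one, mul_one, Real.volume_Ioo]
  rw [ENNReal.toReal_ofReal (by linarith [hs.1])]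
  ring

theorem exists_competitor_half {v : ℝ} (hv : 0 < v) (hv' : v ≤ 1 / 2) :
    ∃ E, HasVolume E v ∧ perimeter E ≤ ENNReal.ofReal (ballTubeSlab v) := by
  set X := (36 * π) ^ ((1 : ℝ) / 3) * v ^ ((2 : ℝ) / 3)
  set Y := 2 * √(π * v)
  have hmin : ballTubeSlab v = min X (min Y 2) := by
    simp only [ballTubeSlab, X, Y, min_eq_left (show v ≤ 1 - v by linarith)]
  rw [hmin]
  rcases le_or_gt X (min Y 2) with hX | hX
  · -- ball
    rw [min_eq_left hX]
    set r := (3 * v / (4 * π)) ^ ((1 : ℝ) / 3)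
    have hr : 0 < r := by positivity
    have hr3 : r ^ 3 = 3 * v / (4 * π) := by
      rw [← Real.rpow_natCast, ← Real.rpow_mul (by positivity)]; norm_num
    have hv3 : v = 4 * π / 3 * r ^ 3 := by rw [hr3]; field_simp
    have hXe : X = 4 * π * r ^ 2 := by
      refine (pow_left_inj₀ (by positivity) (by positivity) (show 3 ≠ 0 by norm_num)).1 ?_
      have e1 : X ^ 3 = 36 * π * v ^ 2 := by
        simp only [X]
        rw [mul_pow, ← Real.rpow_natCast, ← Real.rpow_natCast (v ^ _), ← Real.rpow_mul (by positivity),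
          ← Real.rpow_mul hv.le]
        norm_num
      rw [e1, hv3]
      ring
    have hr2 : r ≤ 1 / 3 := by
      have h1 : X ^ 2 ≤ Y ^ 2 := pow_le_pow_left₀ (by positivity) (hX.trans (min_le_left _ _)) 2
      rw [hXe] at h1
      simp only [Y, mul_pow, Real.sq_sqrt (by positivity : (0 : ℝ) ≤ π * v)] at h1
      rw [hv3] at h1
      have h2 : 0 < π ^ 2 * r ^ 3 := by positivity
      nlinarith
    obtain ⟨h1, h2⟩ := radial_bound Finset.univ hr (show 0 ≤ 4 * π / 3 by positivity)
      fun s hs => ball_volume ⟨hs.1, by linarith [hs.2]⟩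
    refine ⟨_, hv3 ▸ h1, h2.trans (le_of_eq (congrArg _ ?_))⟩
    rw [hXe]; push_cast; ring
  rw [min_eq_right hX.le]
  rcases le_or_gt Y 2 with hY | hY
  · -- tube
    rw [min_eq_left hY]
    set r := √(v / π)
    have hr : 0 < r := by positivity
    have hv2 : v = π * r ^ 2 := by rw [Real.sq_sqrt (by positivity)]; field_simp
    have hYe : Y = 2 * π * r := by
      simp only [Y]
      rw [hv2, show π * (π * r ^ 2) = (π * r) ^ 2 by ring, Real.sqrt_sq (by positivity)]
      ring
    have hr2 : r ≤ 1 / 2 := by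
      rw [hYe] at hY
      nlinarith [Real.pi_gt_three]
    obtain ⟨h1, h2⟩ := radial_bound ({0, 1} : Finset (Fin 3)) hr Real.pi_pos.le
      fun s hs => tube_volume ⟨hs.1, hs.2.trans hr2⟩
    refine ⟨_, hv2 ▸ h1, h2.trans (le_of_eq (congrArg _ ?_))⟩
    rw [hYe]; push_cast; ring
  · -- slab
    rw [min_eq_right hY.le]
    obtain ⟨h1, h2⟩ := radial_bound ({0} : Finset (Fin 3)) (half_pos hv) zero_le_two
      fun s hs => slab_volume ⟨hs.1, by linarith [hs.2]⟩
    refine ⟨{x | radial ({0} : Finset (Fin 3)) x < v / 2}, by rwa [show 2 * (v / 2) ^ 1 = v by ring] at h1, h2.trans (le_of_eq (congrArg _ ?_))⟩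
    simp

/-- Upper bound: a ball, a tube, a slab or the complement of one of them. -/
theorem exists_competitor {V : ℝ} (hV : V ∈ Ioo (0 : ℝ) 1) :
    ∃ E, HasVolume E V ∧ perimeter E ≤ ENNReal.ofReal (ballTubeSlab V) := by
  rcases le_or_gt V (1 / 2) with h | h
  · exact exists_competitor_half hV.1 h
  obtain ⟨E, h1, h2⟩ := exists_competitor_half (v := 1 - V) (by linarith [hV.2]) (by linarith)
  obtain ⟨h3, h4⟩ := h1.compl (by linarith [hV.2])
  rw [sub_sub_cancel] at h3
  refine ⟨Eᶜ, h3, h4.trans_le (h2.trans (le_of_eq (congrArg _ ?_)))⟩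
  simp only [ballTubeSlab, sub_sub_cancel, min_comm (1 - V) V]

end

end Vale.Agent.P232
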